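import Crest.Agent.X212.Spl54.Lv
import Crest.Agent.X212.Nat27.Ix

/-!
# Row 212, SPL-ADD (helper97): the index is additive for clopen decompositions
-/

set_option autoImplicit false
set_option linter.unusedSectionVars false
noncomputable section
open scoped Manifold ContDiff Topology InnerProductSpace
open MeasureTheory Set Function Filter

namespace Crest.Agent.X212.Ulc97
open An An.Pre Sob92 Ell97 Prm93 Fred93 Mod61 Map77 Nk89 Eqv71 Nat27 Spl54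

variable {E : Type} [NormedAddCommGroup E] [NormedSpace ℝ E] [FiniteDimensional ℝ E]
  [MeasurableSpace E] [BorelSpace E]
  {HM : Type} [TopologicalSpace HM] {I : ModelWithCorners ℝ E HM} [I.Boundaryless]
  {M : Type} [TopologicalSpace M] [ChartedSpace HM M] [IsManifold I ∞ M]
  [MeasurableSpace M] [T2Space M] [BorelSpace M] [SecondCountableTopology M]
  {ι ι' : Type} [Fintype ι] [Fintype ι']

section gen
variable {V W : Type} [NormedAddCommGroup V] [InnerProductSpace ℝ V]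
  [NormedAddCommGroup W] [InnerProductSpace ℝ W] {F : Pre I M ι'} {O O₁ O₂ : Set M}
  {p p₁ p₂ : M → V →L[ℝ] V} {q q₁ q₂ : M → W →L[ℝ] W} {x : M}

variable (V O) in
/-- the cut-off of a clopen set -/
def ch : M → V →L[ℝ] V := O.indicator fun _ => .id ℝ V

theorem ch_on (h : x ∈ O) (v : V) : ch V O x v = v := by simp [ch, h]
theorem ch_off (h : x ∉ O) (v : V) : ch V O x v = 0 := by simp [ch, h]

theorem rep_r (hO : IsClopen O) (e : p₁ = O.indicator p) (k : ℕ) :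
    F.Rep (F.mulH k p p₁ (ch V O)) fun u x => ch V O x (u x) :=
  rep_mulH (Cb_ind hO (Cb_const _)) fun x v h => by
    by_cases hx : x ∈ O
    · rw [ch_on hx, e, indicator_of_mem hx, h]
    · rw [ch_off hx, map_zero]

theorem rep_i (hO : IsClopen O) (e : p₁ = O.indicator p) (k : ℕ) :
    F.Rep (F.mulH k p₁ p (ch V O)) fun u x => ch V O x (u x) :=
  rep_mulH (Cb_ind hO (Cb_const _)) fun x v h => by
    by_cases hx : x ∈ O
    · rw [ch_on hx, ← indicator_of_mem hx p, ← e, h]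
    · rw [ch_off hx, map_zero]

variable (O₁ O₂ p p₁ p₂) in
/-- a bundle which is the sum of its parts over two disjoint clopen sets -/
structure Sp : Prop where
  c₁ : IsClopen O₁
  c₂ : IsClopen O₂
  dj : Disjoint O₁ O₂
  e₁ : p₁ = O₁.indicator p
  e₂ : p₂ = O₂.indicator p
  z : ∀ x ∉ O₁, x ∉ O₂ → p x = 0

theorem ri (hO : IsClopen O) (e : p₁ = O.indicator p) (k : ℕ) (a : F.H k p₁) :
    F.mulH k p p₁ (ch V O) (F.mulH k p₁ p (ch V O) a) = a :=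
  DFunLike.congr_fun (RepT_eq (RepT_comp (rep_r hO e k) (rep_i hO e k)) Rep_id fun u =>
    funext fun x => by
      by_cases hx : x ∈ O
      · exact (ch_on hx _).trans (ch_on hx _)
      · exact (ch_off hx _).trans ((DFunLike.congr_fun ((congrFun e x).trans
          (indicator_of_notMem hx _)) _).symm.trans (u.2.2.2 x))) a

theorem ri' (h₁ : IsClopen O₁) (h₂ : IsClopen O₂) (dj : Disjoint O₁ O₂) (e₁ : p₁ = O₁.indicator p)
    (e₂ : p₂ = O₂.indicator p) (k : ℕ) (a : F.H k p₂) :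
    F.mulH k p p₁ (ch V O₁) (F.mulH k p₂ p (ch V O₂) a) = 0 :=
  DFunLike.congr_fun (RepT_eq (RepT_comp (rep_r h₁ e₁ k) (rep_i h₂ e₂ k)) RepT_zero fun u =>
    funext fun x => by
      by_cases hx : x ∈ O₁
      · exact (ch_on hx _).trans (ch_off (disjoint_left.1 dj hx) _)
      · exact ch_off hx _) a

variable (F) in
/-- the splitting of the Sobolev spaces -/
def Sp.eq (s : Sp O₁ O₂ p p₁ p₂) (k : ℕ) : F.H k p ≃L[ℝ] F.H k p₁ × F.H k p₂ :=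
  .equivOfInverse ((F.mulH k p p₁ (ch V O₁)).prod (F.mulH k p p₂ (ch V O₂)))
    ((F.mulH k p₁ p (ch V O₁)).coprod (F.mulH k p₂ p (ch V O₂)))
    (DFunLike.congr_fun (RepT_eq (RepT_add (RepT_comp (rep_i s.c₁ s.e₁ k) (rep_r s.c₁ s.e₁ k))
      (RepT_comp (rep_i s.c₂ s.e₂ k) (rep_r s.c₂ s.e₂ k))) Rep_id fun u => funext fun x => by
        by_cases h1 : x ∈ O₁
        · simp only [Pi.add_apply, ch_on h1, ch_off (disjoint_left.1 s.dj h1), add_zero, id]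
        by_cases h2 : x ∈ O₂
        · simp only [Pi.add_apply, ch_on h2, ch_off h1, zero_add, id]
        · rw [Pi.add_apply, ch_off h1, ch_off h2, id, ← u.2.2.2 x, s.z x h1 h2]; simp))
    fun a => by
      simp only [ContinuousLinearMap.coprod_apply, ContinuousLinearMap.prod_apply, map_add,
        ri s.c₁ s.e₁, ri s.c₂ s.e₂, ri' s.c₁ s.c₂ s.dj s.e₁ s.e₂, ri' s.c₂ s.c₁ s.dj.symm s.e₂ s.e₁,
        Prod.mk_add_mk, add_zero, zero_add]

/-- **the index is additive** -/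
theorem Sp.fr (s : Sp O₁ O₂ p p₁ p₂) (t : Sp O₁ O₂ q q₁ q₂) {j k : ℕ} {A : F.H j p →L[ℝ] F.H k q}
    {A₁ : F.H j p₁ →L[ℝ] F.H k q₁} {A₂ : F.H j p₂ →L[ℝ] F.H k q₂} {L L₁ L₂ : (M → V) → M → W}
    (h : F.Rep A L) (h₁ : F.Rep A₁ L₁) (h₂ : F.Rep A₂ L₂)
    (n₁ : ∀ w x, ch W O₁ x (L w x) = L₁ (fun y => ch V O₁ y (w y)) x)
    (n₂ : ∀ w x, ch W O₂ x (L w x) = L₂ (fun y => ch V O₂ y (w y)) x) {d₁ d₂ : ℤ}
    (f₁ : Fr A₁ d₁) (f₂ : Fr A₂ d₂) : Fr A (d₁ + d₂) :=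
  ((f₁.prodMap f₂).conj (s.eq F j) (t.eq F k).symm).congr fun v =>
    (t.eq F k).eq_symm_apply.2 (Prod.ext
      (DFunLike.congr_fun (RepT_eq (RepT_comp (rep_r t.c₁ t.e₁ k) h)
        (RepT_comp h₁ (rep_r s.c₁ s.e₁ j)) fun u => funext (n₁ u)) v)
      (DFunLike.congr_fun (RepT_eq (RepT_comp (rep_r t.c₂ t.e₂ k) h)
        (RepT_comp h₂ (rep_r s.c₂ s.e₂ j)) fun u => funext (n₂ u)) v))

theorem op_ch (hO : IsClopen O) {G : Pre I M ι} {σ σ' : ι → M → V →L[ℝ] W} {B B' : M → V →L[ℝ] W}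
    (h : ∀ x ∈ O, (∀ a, σ' a x = σ a x) ∧ B' x = B x) (w : M → V) (x : M) :
    ch W O x (G.op σ B w x) = G.op σ' B' (fun y => ch V O y (w y)) x := by
  have e : (fun y => ch V O y (w y)) = O.indicator w := funext fun y => by
    by_cases hy : y ∈ O <;> simp [ch, hy]
  rw [e]
  by_cases hx : x ∈ O
  · simp only [ch_on hx, Pre.op, D_ind G hO, indicator_of_mem hx, h x hx]
  · simp [ch_off hx, Pre.op, D_ind G hO, hx]

theorem ps_ind : ps (O.indicator p) (O.indicator q) = O.indicator (ps p q) := funext fun x => by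
  by_cases hx : x ∈ O
  · simp only [ps, indicator_of_mem hx]
  · rw [indicator_of_notMem hx]; ext1 v; exact ext2 (by simp [hx]) (by simp [hx])

theorem Sp.ps (s : Sp O₁ O₂ p p₁ p₂) (t : Sp O₁ O₂ q q₁ q₂) :
    Sp O₁ O₂ (ps p q) (ps p₁ q₁) (ps p₂ q₂) :=
  ⟨s.c₁, s.c₂, s.dj, by rw [s.e₁, t.e₁, ps_ind], by rw [s.e₂, t.e₂, ps_ind], fun x h1 h2 => by
    ext1 v; exact ext2 (by simp [s.z x h1 h2]) (by simp [t.z x h1 h2])⟩

end gen

theorem full_loc {κ : Type} [Fintype κ] [DecidableEq κ] {d d' : Bd M ι κ} {O : Set M} (hO : IsOpen O)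
    (hP : d'.P = d.P) (hρ : d'.ρ = d.ρ) (hg : d'.g = O.indicator d.g)
    (hC : d'.pC = O.indicator d.pC) (hE : d'.pE = O.indicator d.pE) (G : Fr I M ι)
    (u : M → Cf ι κ) (x : M) (hx : x ∈ O) : (∀ a, (d'.full G u).σ a x = (d.full G u).σ a x) ∧
      (d'.full G u).B x = (d.full G u).B x := by
  have eP : d'.Px = d.Px := by unfold Bd.Px; rw [hP]
  have eσ : d'.σ = d.σ := by unfold Bd.σ; rw [eP, hρ]
  have e0 : ∀ a, ∀ y ∈ O, (d'.d0 G u).σ a y = (d.d0 G u).σ a y := fun a y hy => by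
    simp only [Bd.d0, Map77.cut, hg, hC, indicator_of_mem hy, eP]
  have e1 : ∀ a, G.D a (fun y => Op.tr ((d'.d0 G u).σ a y)) x =
      G.D a (fun y => Op.tr ((d.d0 G u).σ a y)) x := fun a =>
    dv_congr (mem_of_superset (hO.mem_nhds hx) fun y hy => congrArg Op.tr (e0 a y hy))
  have e2 : ∀ a, G.D a (O.indicator d.g) x = G.D a d.g x := fun a => dv_congr (ind_ev hO hx _)
  have e3 : ∀ a, G.D a (O.indicator d.pC) x = G.D a d.pC x := fun a => dv_congr (ind_ev hO hx _)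
  simp only [Bd.full, Map77.pair, Op.adj, e0 _ x hx, e1]
  simp only [Bd.d0, Bd.lin, Map77.cut, eσ, Bd.β, hg, hC, hE, indicator_of_mem hx, eP, hρ,
    e2, e3, implies_true, and_self]

/-- `d'` is the part of `d` over `O` -/
structure Pa {κ : Type} [Fintype κ] [DecidableEq κ] (O : Set M) (d d' : Bd M ι κ) : Prop where
  g : d'.g = O.indicator d.g
  C : d'.pC = O.indicator d.pC
  E : d'.pE = O.indicator d.pE
  ρ : d'.ρ = d.ρ

theorem ff_add {κ : Type} [Fintype κ] [DecidableEq κ] {d d₁ d₂ : Bd M ι κ} {O₁ O₂ : Set M}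
    {F : An.Fr I M ι'} {G : An.Fr I M ι} (a : d.Hy F G) (a₁ : d₁.Hy F G) (a₂ : d₂.Hy F G)
    (c₁ : IsClopen O₁) (c₂ : IsClopen O₂) (dj : Disjoint O₁ O₂) (p : Pa (O₁ ∪ O₂) d d)
    (p₁ : Pa O₁ d d₁) (p₂ : Pa O₂ d d₂) {u : M → Cf ι κ} (cu : F.Cb u) {k : ℕ} {n₁ n₂ : ℤ}
    (f₁ : Fred93.Fr (d₁.FF F.toPre G k u) n₁) (f₂ : Fred93.Fr (d₂.FF F.toPre G k u) n₂) :
    Fred93.Fr (d.FF F.toPre G k u) (n₁ + n₂) := by
  have z : ∀ {N : Type} [Zero N] {p : M → N}, p = (O₁ ∪ O₂).indicator p → ∀ x ∉ O₁, x ∉ O₂ →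
      p x = 0 := fun e x h1 h2 => (congrFun e x).trans (indicator_of_notMem (by simp [h1, h2]) _)
  exact Sp.fr ⟨c₁, c₂, dj, p₁.C, p₂.C, z p.C⟩
    (Sp.ps ⟨c₁, c₂, dj, p₁.g, p₂.g, z p.g⟩ ⟨c₁, c₂, dj, p₁.E, p₂.E, z p.E⟩)
    (a.toTw.rep (a.nc_full cu) k) (a₁.toTw.rep (a₁.nc_full cu) k) (a₂.toTw.rep (a₂.nc_full cu) k)
    (op_ch c₁ (full_loc c₁.2 (a₁.P.symm.trans a.P) p₁.ρ p₁.g p₁.C p₁.E G u))
    (op_ch c₂ (full_loc c₂.2 (a₂.P.symm.trans a.P) p₂.ρ p₂.g p₂.C p₂.E G u)) f₁ f₂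

theorem idx_ind {α X : Type} [Fintype α] [NormedAddCommGroup X] [InnerProductSpace ℝ X]
    (S : M → α → α → ℝ) (g : M → X →L[ℝ] X) (O : Set M) :
    (fun x => An.idx (S x) (O.indicator g x)) = O.indicator fun x => An.idx (S x) (g x) :=
  funext fun x => by
    by_cases hx : x ∈ O
    · simp only [indicator_of_mem hx]
    · rw [indicator_of_notMem hx, indicator_of_notMem hx]
      ext1 v; exact fm_ext fun a => by simp [Map77.idx_apply]

variable {Z : X212.M.Mf 4} {lam T : Type} [Fintype lam] [NormedAddCommGroup T] [NormedSpace ℝ T]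
  {𝔉 : Mod61.Fam Z.I Z.M ι lam T} {O O' : Set Z.M} {r n m k : ℕ} {d : ℤ}

/-- the module of `o` over other clopen sets -/
def rR (o : Ref 𝔉) (O O' : Set Z.M) : Ref (sF 𝔉 O O') where
  m := o.m
  A0 := o.A0
  Φ0 := 0
  ok := o.ok
  conn := o.conn
  cp := o.cp
  cρ := o.cρ
  cj := o.cj
  cA := o.cA
  cΦ := Cb_const 0
  pos _ := map_zero _

theorem part {o : Ref 𝔉} {o₁ : Ref (sF 𝔉 O O')} {c : Cfg Z.M ι lam r} {y : Pnt o r}
    {y₁ : Pnt o₁ r} (h : 𝔉.OK) (h₁ : (sF 𝔉 O O').OK) (s : O ⊆ 𝔉.Om) (hk : 6 ≤ k)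
    (ht : y₁.t = y.t) (ad : Adm0 c 𝔉.B (𝔉.G y.t)) (R : Nk89.Rep c y) (R₁ : Nk89.Rep c y₁)
    (H : Idx k ((sF 𝔉 O O').eq0 r n m) y₁ d) :
    Fred93.Fr ((bd (rR o O O')).FF 𝔉.F0.toPre (Fs 𝔉 y.t) k (uy (o := o) y)) d := by
  obtain ⟨u, ζ, e⟩ := R
  obtain ⟨u₁, ζ₁, e₁⟩ := R₁
  have H' := idx_ff h₁ hk H
  have a₁ := y₁.ad0 h₁
  rw [ht] at H' a₁ e₁
  have hG := h.G _ y.ht
  have hO := h₁.Om.2
  have g := lg_refl h.B hG hO
  have e' := ceq_trans_id h.B hG hO a₁ (ad0_of ad) (y.ad0 h)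
    (ceq_symm_id h.B hG hO (ad0_of ad) a₁ e₁)
    ⟨⟨e.m.su.mono s, fun x k => e.m.uu x (s k), fun x k => e.m.uu' x (s k),
      fun x k => e.m.J x (s k), fun x k => e.m.ρ x (s k), fun x k => e.m.j x (s k)⟩,
      fun x k => e.W x (s k), fun x k => e.Φ x (s k), e.z⟩
  have eP : (Fs (sF 𝔉 O O') y.t).P = 𝔉.B.P := hG.P
  exact CI.fr (o := o₁) (o' := rR o O O') ⟨h₁, h₁, y.ht, y.ht,
    (g.of_ceq a₁ (y.ad0 h) e').phase _, mapsTo_id _, fun _ _ => Iff.rfl⟩ (cb_uy h₁ y₁) (cb_uy h y)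
    e'.Φ ⟨h₁.Om.1, h₁.Om.1, by rw [eP]; exact g.rot, inv_refl hO, Measure.map_id, fun b a =>
      Cb_ind h₁.Om (((adj_rem h).tw _ y.ht).cmp.Cb_iff.1 (cb_P h b a))⟩ H'

theorem res (o : Ref 𝔉) (s : O ∩ 𝔉.Om = O) (s' : O ∩ 𝔉.Om' = O') :
    Pa O (bd o) (bd (rR o O O')) := by
  have g : (rR o O O').Pg = O.indicator o.Pg := by
    rw [Ref.Pg, Ref.Pg, indicator_indicator, s]; rfl
  have h1 : (rR o O O').P1 = O.indicator o.P1 := by
    unfold Ref.P1; rw [g]; exact idx_ind _ _ _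
  have h2 : (rR o O O').P2 = O.indicator o.P2 := by
    unfold Ref.P2; rw [g]; exact idx_ind _ _ _
  have hp : (rR o O O').Pp = O.indicator o.Pp := by
    rw [Ref.Pp, Ref.Pp, indicator_indicator, s']; rfl
  have hm : (rR o O O').Pm = O.indicator o.Pm := by
    rw [Ref.Pm, Ref.Pm, indicator_indicator, s']; rfl
  exact ⟨g, (congrArg₂ ps h1 hp).trans ps_ind, (congrArg₂ ps hm h2).trans ps_ind, rfl⟩

/-- **SPL-ADD** -/
theorem add : Spl54.AddStmt := by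
  intro Z ι lam T _ _ _ _ 𝔉 O₁ O₁' O₂ O₂' o o₁ o₂ r n m k c y y₁ y₂ d d₁ d₂ hk h h₁ h₂ eO eO' dj
    t₁ t₂ ad R R₁ R₂ H H₁ H₂
  have s₁ : O₁ ⊆ 𝔉.Om := eO ▸ subset_union_left
  have s₂ : O₂ ⊆ 𝔉.Om := eO ▸ subset_union_right
  have p₁ := res o (inter_eq_left.2 s₁) (O' := O₁') (by
    rw [eO', inter_union_distrib_left, inter_eq_right.2 h₁.sub,
      (dj.mono_right h₂.sub).inter_eq, union_empty])
  have p₂ := res o (inter_eq_left.2 s₂) (O' := O₂') (by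
    rw [eO', inter_union_distrib_left, inter_eq_right.2 h₂.sub,
      (dj.symm.mono_right h₁.sub).inter_eq, empty_union])
  have p : Pa (O₁ ∪ O₂) (bd o) (bd o) := eO ▸ res o (inter_self _) (inter_eq_right.2 h.sub)
  exact (idx_ff h hk H).unique (ff_add ((adj_rem h).hy o y.ht)
    ((adj_rem h₁).hy (rR o O₁ O₁') y.ht) ((adj_rem h₂).hy (rR o O₂ O₂') y.ht) h₁.Om h₂.Om dj p p₁ p₂
    (cb_uy h y) (part h h₁ s₁ hk t₁ ad R R₁ H₁) (part h h₂ s₂ hk t₂ ad R R₂ H₂))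

end Crest.Agent.X212.Ulc97
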