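import Crest.Agent.X212.Cht98.TrJ

/-!
# Row 212, IX-EC (helper97): the transport to the cylinder of an end
-/

set_option autoImplicit false
set_option linter.unusedSectionVars false
noncomputable section
open scoped Manifold ContDiff Topology InnerProductSpace
open MeasureTheory Set Function Filter

namespace Crest.Agent.X212.Ulc97
open An M Nd18 Nk89 Map77 Mod61 Cyf70 Fred93 Cht98
open Eqv71 (csL)

variable {κ lam : Type} [Fintype κ] [Fintype lam] {Z Z' : Mf 4} {b : BG κ lam Z} {b' : BG κ lam Z'}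
  {O : Set Z.M} {O' : Set Z'.M} {k : ℕ} {δ : ℝ}

/-- the restriction to the cylinder of an end -/
def Rc (h : Cht98.IC b O k δ) (P : End h.g.𝔉) : Prop :=
  ∀ (ha : P.D.Adm (P.sl h.o (h.R + 1) h.g.t)) (h0 : _) (eZ : _)
    (fZ : (refZ T0 δ ha h0).C 0 k → (refZ T0 δ ha h0).Y 0 0 k), CylOK (δ := δ) ha h0 k eZ →
    P.Loc h.o k δ h.R h.e h.g.t ha h0 eZ → RepF (fun _ => eZ) fZ → ∀ s, h.R ≤ s → 1 ≤ s →
    ∃ (rC : h.V →L[ℝ] (famZ T0 P.D δ (P.O' h.R)).F0.H (k + 1) (bd (refZ T0 δ ha h0)).pC)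
      (rF : h.W →L[ℝ] (famZ T0 P.D δ (P.O' h.R)).F0.H k
        (ps (refZ T0 δ ha h0).Pg (bd (refZ T0 δ ha h0)).pE)),
      (∀ u z, (famZ T0 P.D δ (P.O' h.R)).F0.val (k + 1) _ (rC u) z =
        P.θZ (s + 1) z • h.g.𝔉.F0.val (k + 1) _ u (P.K.ψ z)) ∧
      (∀ u z, (famZ T0 P.D δ (P.O' h.R)).F0.val k _ (rF u) z =
        P.θZ (s + 1) z • h.g.𝔉.F0.val k _ u (P.K.ψ z)) ∧
      (∀ u : Sec Z.I (bd h.o).pC, ∃ u' : Sec (Cyf70.IC P.Y.I) (bd (refZ T0 δ ha h0)).pC,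
        rC (h.g.𝔉.F0.toH _ _ u) = (famZ T0 P.D δ (P.O' h.R)).F0.toH _ _ u' ∧
          ∀ z, u'.1 z = P.θZ (s + 1) z • u.1 (P.K.ψ z)) ∧
      Cq (rF ∘L h.T) (TT k fZ (yZ δ ha h0) ∘L rC)

/-- the facts on an active end of a chart -/
structure Ni (h : Cht98.IC b O k δ) (P : End h.g.𝔉) : Prop where
  ok : P.OK h.g.X.ψ δ h.g.X.R
  lit : P.Lit h.o h.R
  rc : Rc h P

theorem ni (hk : 7 ≤ k) (h : Cht98.IC b O k δ) (a : {a // h.g.X.Act a}) : Ni h (h.g.X.P a) :=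
  ⟨h.g.X.okP a, h.ch.lit.lit a, fun ha h0 eZ fZ c l r s s1 s2 => by
    have mC := Ends.mbC (h := ha) (h0 := h0) h.ch.lit a.2 s1 s2 h.g.ht
    have mF := Ends.mbF (h := ha) (h0 := h0) h.ch.lit a.2 s1 s2 h.g.ht
    exact ⟨Ends.rC s k ha h0, Ends.rF s k ha h0, mC.val_rs (by omega), mF.val_rs (by omega),
      mC.exists_rs (by omega), Ends.bridge_rs h.ch.lit a.2 s1 s2 hk h.ch.aff h.hf c.aff r l
        (c.loc _ ((h.g.X.P a).sg_cases.symm.imp (by simp +contextual) (by simp +contextual))) _ rfl⟩⟩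

/-- the end of the chart over the end `e` -/
def Pk (h : Cht98.IC b O k δ) (P : End h.g.𝔉) (e : Nd18.En b.B b.G) : Prop :=
  ∃ K : Nk e.X.D h.g.𝔉.B h.g.𝔉.G0, P = ⟨e.X.Y, e.X.D, K, e.out⟩ ∧ e.X.OK ∧
    (∃ s, ∀ z : e.X.Y.M × ℝ, z.2 ∈ e.ht s → K.ψ z = e.K.ψ z) ∧
    ∀ ha h0, CylOK (δ := δ) ha h0 k (eZ e.X.N e.X.D) ∧
      (End.mk e.X.Y e.X.D K e.out).Loc h.o k δ h.R h.e h.g.t ha h0 (eZ e.X.N e.X.D)

theorem pk (hb : b.OK O) (h : Cht98.IC b O k δ) (a : b.A) : Pk h (h.g.X.P (h.g.f a)) (b.E a) :=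
  ⟨h.g.K a, h.g.hP a, hb.X a, (h.g.hψ a).imp fun _ e _ hz => e ⟨trivial, hz⟩, h.ch.loc a⟩

theorem cq_tr {V : Type} [NormedAddCommGroup V] [InnerProductSpace ℝ V]
    {F : Pre Z.I Z.M (Option κ)} {p : Z.M → V →L[ℝ] V} {W C C' D D' : Type} [NormedAddCommGroup W]
    [NormedSpace ℝ W] [NormedAddCommGroup C] [NormedSpace ℝ C] [NormedAddCommGroup C']
    [NormedSpace ℝ C'] [NormedAddCommGroup D] [NormedSpace ℝ D] [NormedAddCommGroup D']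
    [NormedSpace ℝ D'] {T₀ : F.H k p →L[ℝ] W} {T : C →L[ℝ] D} {T' : C' →L[ℝ] D'}
    {rC : F.H k p →L[ℝ] C} {rF : W →L[ℝ] D} {τC : C →L[ℝ] C'} {τF : D →L[ℝ] D'}
    (c : Cq (rF ∘L T₀) (T ∘L rC))
    (e : ∀ u, T' (τC (rC (F.toH k p u))) = τF (T (rC (F.toH k p u)))) :
    Cq (T' ∘L τC ∘L rC) ((τF ∘L rF) ∘L T₀) :=
  (c.symm.left τF).congr (DFunLike.congr_fun (Pre.clm_ext (B := τF ∘L T ∘L rC) e)) fun _ => rfl

section core
variable {h : Cht98.IC b O k δ} {h' : Cht98.IC b' O' k δ} {A : Lnk b b' O O' h.c0 h'.c0}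
  {X : XD κ lam} {o : Bool} {K : Nk X.D h.g.𝔉.B h.g.𝔉.G0} {K' : Nk X.D h'.g.𝔉.B h'.g.𝔉.G0}
  {s₀ l : ℝ}

variable (A K K' o s₀ l) in
/-- matched ends of two charts -/
structure Mh : Prop where
  n : Ni h ⟨X.Y, X.D, K, o⟩
  n' : Ni h' ⟨X.Y, X.D, K', o⟩
  r : h.R ≤ s₀
  r' : h'.R ≤ s₀ + (End.mk X.Y X.D K o).sg * l
  m : ∀ z ∈ (End.mk X.Y X.D K o).H s₀, K.ψ z ∈ A.p.φ.source ∧ A.p.φ (K.ψ z) = K'.ψ (z.1, z.2 + l) ∧
    A.p.U (K.ψ z) = (fun i j => X.D.B.P i j z) ∧ A.p.v (K.ψ z) = X.D.B.l z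

namespace Mh
variable (H : Mh A o K K' s₀ l)
include H

theorem up {z : X.Y.M × ℝ} (hz : z ∈ (End.mk X.Y X.D K o).H s₀) :
    (z.1, z.2 + l) ∈ (End.mk X.Y X.D K' o).H h'.R :=
  H.r'.trans_lt ((add_lt_add_left hz _).trans_eq (mul_add _ _ _).symm)

theorem ceq : CEq X.D.Z (cy ((End.mk X.Y X.D K o).sl h.o (h.R + 1) h.g.t))
    (cy ((End.mk X.Y X.D K' o).sl h'.o (h'.R + 1) h'.g.t)) ((End.mk X.Y X.D K o).H s₀)
    (fun z => (z.1, z.2 + l)) (fun z i j => X.D.B.P i j z) X.D.B.l (fun z => A.u (K.ψ z)) A.ζ := by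
  have a := fun z (hz : z ∈ (End.mk X.Y X.D K o).H s₀) => H.n.lit.at h.g.ht (H.r.trans_lt hz)
  have a' := fun z (hz : z ∈ (End.mk X.Y X.D K o).H s₀) => H.n'.lit.at h'.g.ht (H.up hz)
  have r0 := h.ch.lit.le.trans H.r
  have g := (H.n.ok.gRel h.g.X.ok h.g.ht).fr
  have e := A.ce
  refine ⟨⟨e.m.su.comp (K.iso.sm.mono fun z hz => H.n.ok.src (r0.trans hz.le))
    fun z hz => (H.m z hz).1, fun z hz => (e.m.uu _ (H.m z hz).1).trans (a z hz).1,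
    fun z hz => (e.m.uu' _ (H.m z hz).1).trans ((congrArg _ (H.m z hz).2.1).trans (a' z hz).1),
    fun z hz => e.m.J _ (H.m z hz).1, fun z hz i => ?_, fun z hz s => ?_⟩, fun z hz i => ?_,
    fun z hz => ?_, (smul_zero _).symm⟩
  · have := e.m.ρ _ (H.m z hz).1 i
    have e1 : ∀ i, h.c0.m.ρ i (K.ψ z) = _ := (a z hz).2.1
    have e2 : ∀ i, h'.c0.m.ρ i (K'.ψ (z.1, z.2 + l)) = _ := (a' z hz).2.1
    rw [(H.m z hz).2.1, (H.m z hz).2.2.1] at this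
    simp only [e1, e2] at this
    exact this
  · have := e.m.j _ (H.m z hz).1 s
    have e1 : h.c0.m.j (K.ψ z) = _ := (a z hz).2.2.1
    have e2 : h'.c0.m.j (K'.ψ (z.1, z.2 + l)) = _ := (a' z hz).2.2.1
    rw [(H.m z hz).2.1, (H.m z hz).2.2.2, e1, e2] at this
    exact this
  · have := e.W _ (H.m z hz).1 i
    have e1 : ∀ i, h.c0.W i (K.ψ z) = _ := (a z hz).2.2.2.1
    have e2 : ∀ i, h'.c0.W i (K'.ψ (z.1, z.2 + l)) = _ := (a' z hz).2.2.2.1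
    rw [(H.m z hz).2.1, (H.m z hz).2.2.1, ← h.g.hG,
      ← g.D (r0.trans_lt hz) i (u := fun z => A.u (K.ψ z)) (.of_forall fun _ => rfl)] at this
    simp only [e1, e2] at this
    exact this
  · have := e.Φ _ (H.m z hz).1
    have e1 : h.c0.Φ (K.ψ z) = _ := (add_zero _).trans (a z hz).2.2.2.2
    have e2 : h'.c0.Φ (K'.ψ (z.1, z.2 + l)) = _ := (add_zero _).trans (a' z hz).2.2.2.2
    rw [(H.m z hz).2.1, e1, e2] at this
    exact this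

theorem sp (z z' : X.Y.M × ℝ) :
    z ∈ (End.mk X.Y X.D K o).O' h.R ↔ z' ∈ (End.mk X.Y X.D K' o).O' h'.R := by
  have hz : (z.1, (End.mk X.Y X.D K o).sg * (s₀ + 1)) ∈ (End.mk X.Y X.D K o).H s₀ :=
    show s₀ < _ by rw [End.sg_sg]; exact lt_add_one _
  rw [H.n.ok.mem_O' h.g.X.ok h.ch.lit.le (H.r.trans_lt hz),
    H.n'.ok.mem_O' h'.g.X.ok h'.ch.lit.le (H.up hz), h.g.hO', h'.g.hO', ← A.sp _ (H.m _ hz).1,
    (H.m _ hz).2.1]

set_option maxHeartbeats 400000 in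
theorem tr (hN : NatZ κ lam k) (hX : X.OK)
    (c : ∀ ha h0, CylOK (δ := δ) ha h0 k (eZ X.N X.D) ∧
      (End.mk X.Y X.D K o).Loc h.o k δ h.R h.e h.g.t ha h0 (eZ X.N X.D))
    (c' : ∀ ha h0, CylOK (δ := δ) ha h0 k (eZ X.N X.D) ∧
      (End.mk X.Y X.D K' o).Loc h'.o k δ h'.R h'.e h'.g.t ha h0 (eZ X.N X.D)) (hk : 7 ≤ k) {s : ℝ}
    (h1 : s₀ ≤ s - (End.mk X.Y X.D K o).sg * l) (h2 : 1 ≤ s - (End.mk X.Y X.D K o).sg * l)
    (h3 : 0 ≤ s) (one : ∀ y ∈ (End.mk X.Y X.D K' o).U s, A.f' y = 1) :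
    A.Ec ⟨X.Y, X.D, K', o⟩ s := by
  have ha := H.n.lit.adm h.g.X.ok H.n.ok h.ch.lit.le h.g.ht
  have h0 := End.off (o := h.o) (t := h.g.t) h.g.X.ok H.n.ok h.ch.lit.le
  have ha' := H.n'.lit.adm h'.g.X.ok H.n'.ok h'.ch.lit.le h'.g.ht
  have h0' := End.off (o := h'.o) (t := h'.g.t) h'.g.X.ok H.n'.ok h'.ch.lit.le
  have kZ := ok_famZ (T := T0) hX.ok X.Y.dim.le h.g.X.δ0.le
    (End.isClopen_O' (P := ⟨X.Y, X.D, K, o⟩) (c := h.R))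
  have kZ' := ok_famZ (T := T0) hX.ok X.Y.dim.le h.g.X.δ0.le
    (End.isClopen_O' (P := ⟨X.Y, X.D, K', o⟩) (c := h'.R))
  obtain ⟨f, hf⟩ := (adj_rem kZ).rp (c ha h0).1.aff k hk
  obtain ⟨f', hf'⟩ := (adj_rem kZ').rp (c' ha' h0').1.aff k hk
  obtain ⟨w, τC, τF, e0, e1, e2, e3⟩ := hN X δ _ _ _ _ ha ha' h0 h0' f f' _ s₀ l _ _ hX kZ kZ' H.sp
    (End.mk X.Y X.D K o).sg_cases hf hf' H.ceq
  obtain ⟨rC, rF, r1, r2, r3, r4⟩ := H.n.rc ha h0 _ f (c ha h0).1 (c ha h0).2 hf _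
    (H.r.trans h1) h2
  have eθ : ∀ z : X.Y.M × ℝ, (End.mk X.Y X.D K' o).θZ (s + 1) (z.1, z.2 + l) =
      (End.mk X.Y X.D K o).θZ (s - (End.mk X.Y X.D K o).sg * l + 1) z := fun z =>
    congrArg Real.smoothTransition (show (End.mk X.Y X.D K o).sg * _ - _ = _ by ring)
  have hi : ∀ z : X.Y.M × ℝ, (End.mk X.Y X.D K o).θZ (s - (End.mk X.Y X.D K o).sg * l + 1) z = 0 ∨
      s - (End.mk X.Y X.D K o).sg * l + 1 < (End.mk X.Y X.D K o).sg * z.2 := fun z =>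
    (le_or_gt _ _).imp_left hc_zero
  have m : ∀ z : X.Y.M × ℝ, s - (End.mk X.Y X.D K o).sg * l + 1 < (End.mk X.Y X.D K o).sg * z.2 →
      A.p.φ.symm (K'.ψ (z.1, z.2 + l)) = K.ψ z ∧ A.p.U (K.ψ z) = (fun i j => X.D.B.P i j z) ∧
        A.w (K.ψ z) = csL h'.o.m.J A.ζ ∘L w z.1 := fun z hz => by
    have hz' : s₀ < _ := (h1.trans (lt_add_one _).le).trans_lt hz
    exact ⟨by rw [← (H.m z hz').2.1, A.p.φ.left_inv (H.m z hz').1], (H.m z hz').2.2.1,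
      congrArg (csL h'.o.m.J A.ζ ∘L ·) (e0 z hz')⟩
  have key : ∀ {V V' : Type} [NormedAddCommGroup V] [NormedSpace ℝ V] [NormedAddCommGroup V']
      [NormedSpace ℝ V'] (Λ : (Option κ → Option κ → ℝ) → CL h.o.m.V h'.o.m.V → V →L[ℝ] V')
      (g : Z.M → V) (z : X.Y.M × ℝ), Λ (fun i j => X.D.B.P i j z) (csL h'.o.m.J A.ζ ∘L w z.1)
        ((End.mk X.Y X.D K o).θZ (s - (End.mk X.Y X.D K o).sg * l + 1) z • g (K.ψ z)) =
      (End.mk X.Y X.D K' o).θZ (s + 1) (z.1, z.2 + l) •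
        Λ (A.p.U (A.p.φ.symm (K'.ψ (z.1, z.2 + l)))) (A.w (A.p.φ.symm (K'.ψ (z.1, z.2 + l))))
          (g (A.p.φ.symm (K'.ψ (z.1, z.2 + l)))) := fun Λ g z => by
    rw [map_smul, eθ]
    rcases hi z with e | e
    · rw [e, zero_smul, zero_smul]
    · obtain ⟨m1, m2, m3⟩ := m _ e
      rw [m1, m2, m3]
  have sur : Surjective fun z : X.Y.M × ℝ => (z.1, z.2 + l) := fun z' =>
    ⟨(z'.1, z'.2 - l), by simp⟩
  refine ⟨ha', h0', _, f', (c' ha' h0').1, (c' ha' h0').2, hf', .inr ⟨one, τC ∘L rC, τF ∘L rF,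
    fun u => sur.forall.2 fun z => ?_, fun u => sur.forall.2 fun z => ?_, cq_tr r4 fun u => (r3 u).elim fun u' e =>
      (congrArg (fun v => TT k f' (yZ δ ha' h0') (τC v)) e.1).trans ((e3 u' fun z => (hi z).imp
        (fun e' => (e.2 z).trans (by rw [e', zero_smul])) fun e =>
          ⟨by linarith, by rw [mul_add]; linarith⟩).trans
        (congrArg (fun v => τF (TT k f (yZ δ ha h0) v)) e.1.symm))⟩⟩
  · rw [ContinuousLinearMap.comp_apply, e1, r1]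
    exact key ΛC _ z
  · rw [ContinuousLinearMap.comp_apply, e2, r2]
    exact key ΛF _ z

end Mh
end core

theorem sub_U {h : Cht98.IC b O k δ} {P : End h.g.𝔉} {e : Nd18.En b.B b.G} (n : Ni h P)
    (p : Pk h P e) (s₁ : ℝ) : ∀ᶠ s in atTop, P.U s ⊆ e.U s₁ := by
  obtain ⟨K, rfl, -, ⟨s₂, e2⟩, -⟩ := p
  filter_upwards [eventually_ge_atTop s₁, eventually_ge_atTop s₂] with s h1 h2 y hy
  obtain ⟨z, hz, rfl⟩ := n.ok.exists_ψ hy
  exact ⟨z, ⟨trivial, h1.trans_lt hz⟩, (e2 z (h2.trans_lt hz)).symm⟩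

/-- **IX-EC** -/
theorem ec (hk : 7 ≤ k) (hN : NatZ κ lam k) : EcStmt κ lam k := by
  intro Z Z' b b' O O' δ h h' A hb hb' a'
  have n' := ni hk h' (h'.g.f a')
  have p' := pk hb' h' a'
  generalize h'.g.X.P (h'.g.f a') = P' at n' p' ⊢
  obtain ⟨s₁, e | ⟨e, a, X, K₁, K₁', o, e1, e2, s₂, l, hM⟩⟩ := A.en' a'
  · filter_upwards [sub_U n' p' s₁] with s hs
    obtain ⟨K', rfl, hX, -, c'⟩ := p'
    have ha' := n'.lit.adm h'.g.X.ok n'.ok h'.ch.lit.le h'.g.ht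
    have h0' := End.off (o := h'.o) (t := h'.g.t) h'.g.X.ok n'.ok h'.ch.lit.le
    obtain ⟨f', hf'⟩ := (adj_rem (ok_famZ (T := T0) hX.ok (b'.E a').X.Y.dim.le h.g.X.δ0.le
      End.isClopen_O')).rp (c' ha' h0').1.aff k hk
    exact ⟨ha', h0', _, f', (c' ha' h0').1, (c' ha' h0').2, hf', .inl fun y hy => e y (hs hy)⟩
  have n := ni hk h (h.g.f a)
  have p := pk hb h a
  generalize h.g.X.P (h.g.f a) = P at n p
  have u := sub_U n' p' s₁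
  rw [e1] at p
  rw [e2] at p'
  obtain ⟨K, rfl, hX, ⟨s₃, e3⟩, c⟩ := p
  obtain ⟨K', rfl, -, ⟨s₄, e4⟩, c'⟩ := p'
  obtain ⟨s₀, q1, q2, q3, q4, q5⟩ := ((eventually_ge_atTop h.R).and ((eventually_ge_atTop
    (h'.R - (End.mk X.Y X.D K o).sg * l)).and ((eventually_ge_atTop s₂).and
    ((eventually_ge_atTop s₃).and (eventually_ge_atTop
      (s₄ - (End.mk X.Y X.D K o).sg * l)))))).exists
  have H : Mh A o K K' s₀ l := ⟨n, n', q1, sub_le_iff_le_add.1 q2, fun z hz => by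
    rw [e3 z (q4.trans_lt hz), e4 (z.1, z.2 + l) ((sub_le_iff_le_add.1 q5).trans_lt
      ((add_lt_add_left hz _).trans_eq (mul_add _ _ _).symm))]
    exact hM z ⟨trivial, q3.trans_lt hz⟩⟩
  filter_upwards [u, eventually_ge_atTop (s₀ + (End.mk X.Y X.D K o).sg * l),
    eventually_ge_atTop (1 + (End.mk X.Y X.D K o).sg * l), eventually_ge_atTop 0] with s hs h1 h2 h3
  exact H.tr hN hX c c' hk (le_sub_iff_add_le.2 h1) (le_sub_iff_add_le.2 h2) h3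
    fun y hy => e y (hs hy)

end Crest.Agent.X212.Ulc97
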