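import Crest.Agent.X212.Ulc97.MvB
import Crest.Agent.X212.Nt93.MvD
import Crest.Agent.X212.Ncm43.Cmp
import Crest.Agent.X212.Wrd81.Loc

/-! Row 212, NT-MV: the moving parts of two charts agree up to a decaying term. -/

set_option autoImplicit false
set_option linter.unusedSectionVars false
noncomputable section
open scoped Manifold ContDiff Topology InnerProductSpace
open Set Function Filter

namespace Crest.Agent.X212.Ulc97.Mv
open An M Nd18 Mod61 Nk89 Cht98 Rf65 Pte3 Nt93 Prm93 Sob92 Eqv71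
open Grp76 (Nice)
open Sym93 (ex)

variable {Wi : Type} {X : Mf 4} {A κ lam : Type} [Fintype A] [Fintype κ] [Fintype lam]
  [DecidableEq lam] {M : Mark X A κ} {W : World M} {N : ML M lam} {Λ : Lns W N}
  {A' h : Type} [Fintype A'] [DecidableEq A'] [Fintype h] {r n : ℕ}
  {J : Job Wi Λ A' h r n} {c : M.Cl} {σ : Cel A'} {δ : ℝ} {p p' : Prt A A' h} {U U' : Type}
  [Fintype U] [Fintype U'] {b b' : Bp J c} {E : EC b p U δ} {E' : EC b' p' U' δ} (H : CS σ E)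
  {i : Ed c}
include H

theorem same (E' : EC b' p' U' δ) (i : Ed c) : Wrd81.SameN (en E i).K (en E' i).K :=
  H.ok.end_eq ⟨i.1.2.2, b.br, b.O, i.1.2.1⟩ ⟨i.1.2.2, b'.br, b'.O, i.1.2.1⟩

theorem U_sub (E' : EC b' p' U' δ) (i : Ed c) {L L' : ℝ} (k : L' ≤ L) :
    (en E i).U L ⊆ (en E' i).U L' := fun _ hz =>
  ⟨(same H E' i).tgt ▸ hz.1, k.trans_lt (((same H E' i).tm hz.1).symm ▸ hz.2)⟩

theorem b_none (hi : i ∈ EdP c p.P) (e : E.μ i = none) {t₀ : Tq p U} (h0 : t₀ ∈ (b.F p U δ).Q)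
    (τ : Tq p U) : ∀ z ∈ (en E i).U E.R, E.o.b τ z = 0 :=
  Ncm43.b_end H.F (H.ee.okP i) H.eo.R5 (H.eo.lit i) ⟨t₀, h0⟩ (β := E.lim i 0) (v := E.v i)
    (fun t ht => by
      have := H.eo.mov i hi t ht
      have e' : E.lm i t = E.lm i 0 := by simp only [EC.lm, e, Option.elim]
      unfold EC.lim at this ⊢
      exact e' ▸ this) τ

theorem b_some (hi : i ∈ EdP c p.P) {u₀ : U} (e : E.μ i = some u₀) {t₀ : Tq p U}
    (h0 : t₀ ∈ (b.F p U δ).Q) {ν : κ → (J.xs i.1).Y.M → ℝ} {ρ : ℝ}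
    (S : Psc (J.xs i.1).D.F (fun _ : Fin 1 => ν) ρ) : ∃ f : (J.xs i.1).Y.M → E.o.m.A,
    (∀ t ∈ (b.F p U δ).Q, ParY (en E i).D ((en E i).sl E.o (E.R + 1) t) f) ∧ f ≠ 0 ∧
      ∀ τ, ∀ z ∈ (en E i).H E.R, ∀ a, E.o.b τ ((en E i).K.ψ z) a =
        (τ.2 u₀ * a.elim 0 fun k => ν k z.1) • f z.1 := by
  obtain ⟨h1, h2, h3⟩ := H.eo.har i hi (by simp [e])
  exact b_har H.F (H.ee.okP i) H.eo.R5 (H.eo.lit i) h0 h1 h2 h3 S
    (lm := LinearMap.proj u₀ ∘ₗ .snd ℝ _ _) (v := E.v i) fun t ht => by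
      have := H.eo.mov i hi t ht
      have e' : E.lm i t = (LinearMap.proj u₀ ∘ₗ .snd ℝ _ _ : Tq p U →ₗ[ℝ] ℝ) t := by
        simp only [EC.lm, e, Option.elim]; rfl
      unfold EC.lim at this
      exact e' ▸ this

variable (H' : CS σ E') {x : Pnt E.o r} {x' : Pnt E'.o r} {u : _} {ζ : Circle}
  (θ : Tq p' U' →L[ℝ] Tq p U) (τ : Tq p' U') (hp : p'.P ⊆ p.P)
include H' hp

theorem nB_zero (hi : i ∈ EdP c p'.P → E.μ i = none ∧ E'.μ i = none) {z : (W.Z c).M}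
    (hz : z ∈ (en E i).U (max E.R E'.R)) : nB x' x u θ τ z = 0 := by
  have hz' := U_sub H E' i (le_max_right _ _) hz
  show mA x' x u z _ - _ = 0
  rcases (H'.ee.okP i).dich H'.F.Om le_rfl with k | k
  · have k1 := (H'.act_iff H'.eo.d0 H'.eo.d1).1 k
    rw [b_none H' k1 (hi k1).2 x'.ht τ z hz', map_zero, indicator_apply_eq_zero.2 fun _ =>
      b_none H (k1.imp fun _ k => ⟨hp k.1, k.2⟩) (hi k1).1 x.ht _ z
        (End.U_mono _ (le_max_left _ _) hz), sub_zero]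
  · have k1 := k (End.U_mono _ H'.eo.R5 hz')
    rw [idx_off (b_P1 τ z) k1, map_zero, indicator_of_notMem k1, sub_zero]

omit H H' hp in
variable (J c) in
/-- **NT-MV** -/
theorem mv : MvStmt J c := by
  intro pj σ δ p p' U U' _ _ b b' E E' x x' u ζ H H' Z hp h1 hd
  by_cases hex : ∀ i ∈ EdP c p'.P, E.μ i = none
  · exact ⟨0, fun θ _ τ => hs_nB Z H.ee (L := max E.R E'.R) fun a => ⟨fun _ => 0,
      .of_hcs contMDiff_const .zero, fun i z hz => by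
        rw [nB_zero H H' θ τ hp (fun k => ⟨hex i k, (hd i k).1.1 (hex i k)⟩) hz]; rfl⟩⟩
  obtain ⟨i, hi, h2⟩ : ∃ i ∈ EdP c p'.P, E.μ i ≠ none := by push Not at hex; exact hex
  have hi' : i ∈ EdP c p.P := hi.imp fun _ k => ⟨hp k.1, k.2⟩
  obtain ⟨u₀, e⟩ := Option.ne_none_iff_exists'.1 h2
  obtain ⟨u₁, e'⟩ := Option.ne_none_iff_exists'.1 (mt (hd i hi).1.2 h2)
  obtain ⟨m, py⟩ := pj.py i.1 i.1.2
  obtain ⟨ν, ρ, S⟩ := py.psc
  obtain ⟨k1, k2, k3⟩ := H.eo.har i hi' h2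
  obtain rfl | rfl := Nat.le_one_iff_eq_zero_or_eq_one.1 py.b1
  · exact (k3 (funext₂ fun k y => ((Sym93.har_dec S k1 k2).2 k y).trans (Fin.sum_univ_zero _))).elim
  obtain ⟨ν, rfl⟩ : ∃ ν', ν = fun _ => ν' := ⟨ν 0, funext fun i => congrArg ν (i.eq_zero)⟩
  obtain ⟨f, f1, f2, f3⟩ := b_some H hi' e x.ht S
  obtain ⟨f', g1, -, g3⟩ := b_some H' hi e' x'.ht S
  have act : H'.ee.Act i := (H'.act_iff H'.eo.d0 H'.eo.d1).2 hi
  have l1 := le_max_left E.R E'.R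
  have l2 := le_max_right E.R E'.R
  have l3 := H.eo.R5
  have l4 := H'.eo.R5
  obtain ⟨s, d, d1, d2⟩ := tw_end Z H.ee H'.ee H.lit H'.lit (a := i) (L := max E.R E'.R + 1) act
    (by linarith) (U_sub H E' i (by linarith)) g1 (f1 _ x.ht) f2 (hd i hi).2
  classical
  refine ⟨(ContinuousLinearMap.single ℝ (fun _ => ℝ) u₀) ∘L (s • .proj u₁), fun θ hθ τ =>
    hs_nB Z H.ee (L := max E.R E'.R + 1 + 1) fun a => ⟨fun z => (τ.2 u₁ * ex (H.ee.P i) E.R
      (fun y => a.elim 0 fun k => ν k y) z) • d z, d1.bil (ContinuousLinearMap.lsmul ℝ ℝ)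
      (Cb_smul (Cb_const (τ.2 u₁)) (cb_ex H.ee i l3 (by
        cases a; exacts [contMDiff_const, S.sm 0 _]))), fun j z hz => ?_⟩⟩
  rcases eq_or_ne j i with rfl | ne
  · obtain ⟨w, hw, rfl⟩ := (H.ee.okP j).exists_ψ hz
    have hw' : max E.R E'.R + 1 + 1 < (en E j).sg * w.2 := hw
    have e1 : (en E' j).K.ψ w = (en E j).K.ψ w :=
      (same H E' j).ψ ((H.ee.okP j).src (show 5 ≤ (en E j).sg * w.2 by linarith))
    have hz' := U_sub H E' j (show (5 : ℝ) ≤ _ by linarith) hz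
    have e2 := mA_end Z (H.ee.okP j) (H'.ee.okP j) (End.U_mono _ (show (5 : ℝ) ≤ _ by linarith) hz)
      hz' (act hz') (b_P1 τ _) a
    have e3 := (congrArg (E'.o.b τ · a) e1).symm.trans
      (g3 τ w (show E'.R < (en E j).sg * w.2 by linarith) a)
    have e4 := (congrArg (ex (en E' j) E'.R f') e1).symm.trans
      (ex_hi H'.ee j l4 f' (z := w) (show E'.R + 1 < (en E j).sg * w.2 by linarith))
    have e5 := (congrArg (fun η : Fm (Option κ) E.o.m.A => η a) (indicator_of_mem (act hz') _)).trans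
      (f3 (θ τ) w (show E.R < (en E j).sg * w.2 by linarith) a)
    have e6 := ex_hi H.ee j l3 (fun y => a.elim 0 fun k => ν k y) (z := w)
      (show E.R + 1 < (en E j).sg * w.2 by linarith)
    refine (congrArg₂ (· - ·) (e2.trans (congrArg _ e3)) e5).trans (.trans ?_ (congrArg₂ (· • ·)
      (congrArg (τ.2 u₁ * ·) e6) ((d2 w hw).trans (congrArg (· - _) (congrArg _ e4)))).symm)
    rw [show (θ τ).2 u₀ = s * τ.2 u₁ by rw [hθ]; simp, map_smul, smul_sub, smul_smul,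
      mul_assoc s, mul_comm s]
  · rw [nB_zero H H' θ τ hp (fun k => (ne (h1 k hi)).elim) (End.U_mono _ (by linarith) hz)]
    exact (smul_eq_zero_of_left (mul_eq_zero_of_right _ (ex_ne H.ee ne l3 _
      (End.U_mono _ (show (5 : ℝ) ≤ _ by linarith) hz))) _).symm

end Crest.Agent.X212.Ulc97.Mv
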