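import Crest.Agent.X212.Rad94.Lin
import Crest.Agent.X212.Cht98.Dp
import Crest.Agent.X212.Nd18.Api

/-!
# Row 212, RAD-UL (helper97): heights, radial functions, Fubini on the ends
-/

set_option autoImplicit false
set_option linter.unusedSectionVars false
noncomputable section
open scoped Manifold ContDiff Topology InnerProductSpace
open MeasureTheory Set Function Filter Real

namespace Crest.Agent.X212.Ulc97
open An Cyf70 Ell97 Sob92 Rad94
open Nd18 (YD BD)
open M (Mf pm)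

variable {κ lam A : Type} [Fintype κ] [Fintype lam] [Fintype A] {X : Mf 4}
  {N : Type} [NormedAddCommGroup N] [NormedSpace ℝ N] {g : Gm X κ lam A} {s s' : A}
  {τ b T : ℝ} {x : X.M} {S : Set ℝ}

theorem sg_cases (g : Gm X κ lam A) (s : A) : g.sg s = 1 ∨ g.sg s = -1 := by
  unfold Gm.sg pm; split_ifs <;> simp

theorem sg_sq (g : Gm X κ lam A) (s : A) : g.sg s * g.sg s = 1 := by
  rcases sg_cases g s with h | h <;> simp [h]

theorem abs_sg (g : Gm X κ lam A) (s : A) : |g.sg s| = 1 := by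
  rcases sg_cases g s with h | h <;> simp [h]

theorem mem_J {t : ℝ} : t ∈ (g.K s).J ↔ -1 < g.sg s * (t - g.o s) - 1 := by
  unfold Nd18.Nk.J Gm.sg pm
  rw [g.hp, g.hq]
  cases g.sd s <;> simp [Nd18.Jv]

theorem mem_tgt : x ∈ (g.K s).ψ.target ↔ -1 < g.ht s x := by
  rw [(g.K s).tgt]; exact mem_J

theorem sg_tt (τ : ℝ) : g.sg s * (g.tt s τ - g.o s) - 1 = τ := by
  rw [Gm.tt, add_sub_cancel_left, ← mul_assoc, sg_sq]; ring

theorem tt_sg (t : ℝ) : g.tt s (g.sg s * (t - g.o s) - 1) = t := by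
  rw [Gm.tt, sub_add_cancel, ← mul_assoc, sg_sq]; ring

theorem mem_src (h : -1 < τ) (y : (g.Y s).M) : (y, g.tt s τ) ∈ (g.K s).ψ.source :=
  (g.K s).mem_src.2 (mem_J.2 (by rwa [sg_tt]))

theorem ht_pt (h : -1 < τ) (y : (g.Y s).M) : g.ht s (g.pt s τ y) = τ := by
  rw [Gm.ht, Gm.pt, (g.K s).tm_ψ _ (mem_src h y), sg_tt]

theorem pt_ht (hx : -1 < g.ht s x) : g.pt s (g.ht s x) ((g.K s).ψ.symm x).1 = x := by
  rw [Gm.pt, Gm.ht, tt_sg, ← (g.K s).snd_symm (mem_tgt.2 hx)]
  exact (g.K s).ψ.right_inv (mem_tgt.2 hx)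

theorem exists_pt (hx : -1 < g.ht s x) : ∃ y, g.pt s (g.ht s x) y = x := ⟨_, pt_ht hx⟩

theorem cont_ht (g : Gm X κ lam A) (s : A) : Continuous (g.ht s) :=
  (continuous_const.mul ((g.K s).cont.sub continuous_const)).sub continuous_const

theorem ht_ne (h : g.OK) (hs : s ≠ s') (hx : -1 < g.ht s x) : g.ht s' x ≤ -1 :=
  not_lt.1 fun e => Set.disjoint_left.1 (h.dj hs) (mem_tgt.2 hx) (mem_tgt.2 e)

theorem mem_cor (h : g.OK) (hx : -1 < g.ht s x) (hT : g.ht s x ≤ T) : x ∈ g.cor T := fun s' => by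
  rcases eq_or_ne s s' with rfl | e
  · exact hT
  · linarith [ht_ne h e hx]

theorem cor_mono {T T' : ℝ} (h : T ≤ T') : g.cor T ⊆ g.cor T' := fun _ hx s => (hx s).trans h

theorem isClosed_cor (g : Gm X κ lam A) (T : ℝ) : IsClosed (g.cor T) := by
  simp only [Gm.cor, ofPred_forall]
  exact isClosed_iInter fun s => isClosed_le (cont_ht g s) continuous_const

theorem exists_cor (x : X.M) : ∃ T, ∀ T' ≥ T, x ∈ g.cor T' :=
  ⟨∑ s, |g.ht s x|, fun _ h s => (le_abs_self _).trans ((Finset.single_le_sum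
    (f := fun s => |g.ht s x|) (fun _ _ => abs_nonneg _) (Finset.mem_univ s)).trans h)⟩

variable (g s) in
/-- the coordinates of the end -/
def Ψ (z : (g.Y s).M × ℝ) : X.M := g.pt s z.2 z.1

theorem sm_tt (g : Gm X κ lam A) (s : A) : ContDiff ℝ ∞ (g.tt s) := by
  unfold Gm.tt; fun_prop

theorem smAt_Ψ {z : (g.Y s).M × ℝ} (h : -1 < z.2) : ContMDiffAt (IC (g.Y s).I) X.I ∞ (Ψ g s) z :=
  (iso_smAt (g.K s).iso (mem_src h z.1)).comp z
    (contMDiffAt_fst.prodMk ((sm_tt g s).contMDiff.contMDiffAt.comp z contMDiffAt_snd))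

theorem contOn_Ψ (hS : S ⊆ Ioi (-1)) : ContinuousOn (Ψ g s) (univ ×ˢ S) := fun _ hz =>
  (smAt_Ψ (hS hz.2)).continuousAt.continuousWithinAt

theorem sm_pt (h : -1 < τ) : ContMDiff (g.Y s).I X.I ∞ (g.pt s τ) := fun y =>
  ContMDiffAt.comp (g := Ψ g s) (f := fun y => (y, τ)) y (smAt_Ψ h)
    (contMDiffAt_id.prodMk contMDiffAt_const)

theorem cont_pt (h : -1 < τ) : Continuous (g.pt s τ) := (sm_pt h).continuous

theorem img_Ψ (hS : S ⊆ Ioi (-1)) : Ψ g s '' (univ ×ˢ S) = g.ht s ⁻¹' S := by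
  ext x
  refine ⟨?_, fun hx => ⟨(_, g.ht s x), ⟨trivial, hx⟩, pt_ht (hS hx)⟩⟩
  rintro ⟨z, hz, rfl⟩
  exact mem_preimage.2 ((ht_pt (g := g) (hS hz.2) z.1).symm ▸ hz.2)

theorem isCompact_ht (hc : IsCompact S) (hS : S ⊆ Ioi (-1)) : IsCompact (g.ht s ⁻¹' S) :=
  img_Ψ (g := g) (s := s) hS ▸ (isCompact_univ.prod hc).image_of_continuousOn (contOn_Ψ hS)

theorem Icc_sub (h : -1 < τ) (b : ℝ) : Icc τ b ⊆ Ioi (-1) := fun _ e => h.trans_le e.1

theorem isCompact_slab (h : -1 < τ) : IsCompact (g.slab s τ) :=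
  isCompact_ht isCompact_Icc (Icc_sub h _)

theorem smAt_ht (hx : -1 < g.ht s x) : ContMDiffAt X.I 𝓘(ℝ, ℝ) ∞ (g.ht s) x := by
  have h := mem_tgt.2 hx
  have h1 : ContMDiffAt X.I 𝓘(ℝ, ℝ) ∞ (g.K s).tm x :=
    (contMDiffAt_snd.comp x (iso_smAt (iso_symm (g.K s).iso) h)).congr_of_eventuallyEq
      (((g.K s).ψ.open_target.eventually_mem h).mono fun y hy => ((g.K s).snd_symm hy).symm)
  exact (contMDiffAt_const.mul (h1.sub contMDiffAt_const)).sub contMDiffAt_const

/-! ### derivatives on the ends -/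

theorem hasDerivAt_pt {u : X.M → N} (hu : Sm X.I u) (h : -1 < τ) (y : (g.Y s).M) :
    HasDerivAt (fun t => u (g.pt s t y)) (g.sg s • g.F.D none u (g.pt s τ y)) τ := by
  have h1 := (hu _).comp _ (iso_smAt (g.K s).iso (mem_src h y))
  have h2 := iso_D_comp (g.K s).iso (mem_src h y) (hu.mdifferentiableAt (by simp)) none
  have h3 := D_none_at (g.D s).F.toPre (h1.mdifferentiableAt (by simp))
  have h4 : DifferentiableAt ℝ (fun t => u ((g.K s).ψ (y, t))) (g.tt s τ) :=
    (contMDiffAt_iff_contDiffAt.1 (h1.comp (g.tt s τ)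
      (contMDiffAt_const.prodMk contMDiffAt_id))).differentiableAt (by simp)
  have h5 : HasDerivAt (g.tt s) (g.sg s) τ := by
    have := (((hasDerivAt_id τ).add_const 1).const_mul (g.sg s)).const_add (g.o s)
    rwa [mul_one] at this
  exact (h2.symm.trans h3).symm ▸ h4.hasDerivAt.scomp τ h5

theorem D_some_pt {u : X.M → N} (hu : Sm X.I u) (h : -1 < τ) (a : κ) (y : (g.Y s).M) :
    g.F.D (some a) u (g.pt s τ y) = (g.D s).F.D a (fun y => u (g.pt s τ y)) y :=
  (iso_D_comp (g.K s).iso (mem_src h y) (hu.mdifferentiableAt (by simp)) (some a)).symm.trans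
    (D_some_at (g.D s).F.toPre (((hu _).comp _
      (iso_smAt (g.K s).iso (mem_src h y))).mdifferentiableAt (by simp)) a)

theorem D_none_of {u : X.M → N} (hu : Sm X.I u) (h : -1 < τ) {y : (g.Y s).M} {c : ℝ → N}
    (e : ∀ᶠ t in 𝓝 τ, u (g.pt s t y) = c t) :
    g.F.D none u (g.pt s τ y) = g.sg s • deriv c τ := by
  rw [← EventuallyEq.deriv_eq e, (hasDerivAt_pt hu h y).deriv, smul_smul, sg_sq, one_smul]

theorem D_some_of {u : X.M → N} (hu : Sm X.I u) (h : -1 < τ) {c : N}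
    (e : ∀ y, u (g.pt s τ y) = c) (a : κ) (y : (g.Y s).M) :
    g.F.D (some a) u (g.pt s τ y) = 0 := by
  rw [D_some_pt hu h, funext e, Pre.D_def, dv_const]; rfl

section rad
variable {c : ℝ → N}

theorem ev_rad (h0 : ∀ t < b, c t = 0) (hx : g.ht s x < b) :
    (fun x => c (g.ht s x)) =ᶠ[𝓝 x] 0 :=
  ((cont_ht g s).continuousAt.eventually (gt_mem_nhds hx)).mono fun _ h => h0 _ h

theorem sm_rad' (hb : -1 < b) (hc : ContDiffOn ℝ ∞ c (Ioi (-1))) (h0 : ∀ t < b, c t = 0) :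
    Sm X.I fun x => c (g.ht s x) := fun x => by
  rcases lt_or_ge (-1) (g.ht s x) with h | h
  · exact (hc.contDiffAt (Ioi_mem_nhds h)).contMDiffAt.comp x (smAt_ht h)
  · exact contMDiffAt_const.congr_of_eventuallyEq (ev_rad h0 (h.trans_lt hb))

theorem sm_rad (hb : -1 < b) (hc : ContDiff ℝ ∞ c) (h0 : ∀ t < b, c t = 0) :
    Sm X.I fun x => c (g.ht s x) := sm_rad' hb hc.contDiffOn h0

theorem deriv_zero (h0 : ∀ t < b, c t = 0) : ∀ t < b, deriv c t = 0 := fun _ ht => by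
  rw [EventuallyEq.deriv_eq (f := fun _ => 0) ((gt_mem_nhds ht).mono h0), deriv_const]

theorem D_rad_none (hb : -1 < b) (hc : ContDiffOn ℝ ∞ c (Ioi (-1))) (h0 : ∀ t < b, c t = 0) :
    g.F.D none (fun x => c (g.ht s x)) = fun x => g.sg s • deriv c (g.ht s x) := funext fun x => by
  rcases lt_or_ge (-1) (g.ht s x) with h | h
  · obtain ⟨y, hy⟩ := exists_pt h
    conv_lhs => rw [← hy]
    exact D_none_of (sm_rad' hb hc h0) h ((lt_mem_nhds h).mono fun t ht => by rw [ht_pt ht])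
  · rw [Pre.D_def, dv_congr (ev_rad h0 (h.trans_lt hb)), dv_zero, deriv_zero h0 _ (h.trans_lt hb),
      smul_zero]; rfl

theorem D_rad_some (hb : -1 < b) (hc : ContDiffOn ℝ ∞ c (Ioi (-1))) (h0 : ∀ t < b, c t = 0)
    (a : κ) : g.F.D (some a) (fun x => c (g.ht s x)) = 0 := funext fun x => by
  rcases lt_or_ge (-1) (g.ht s x) with h | h
  · obtain ⟨y, hy⟩ := exists_pt h
    conv_lhs => rw [← hy]
    exact D_some_of (sm_rad' hb hc h0) h (fun y => by rw [ht_pt h]) a y
  · rw [Pre.D_def, dv_congr (ev_rad h0 (h.trans_lt hb)), dv_zero]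

theorem CBs_rad {c : ℝ → ℝ} {C : ℕ → ℝ} (hb : -1 < b) (hc : BD c C) (h0 : ∀ t < b, c t = 0) :
    g.F.CBs (fun x => c (g.ht s x)) fun k => |C k| := by
  have h1 : BD (fun t => c (g.sg s * (t - g.o s) - 1)) C := by
    rcases sg_cases g s with h | h <;> rw [h]
    · convert hc.shift (-g.o s - 1) using 3; ring
    · convert hc.refl (g.o s - 1) using 3; ring
  exact (Cht98.nck (g.K s)).CBs_tm (S := {t | b ≤ g.sg s * (t - g.o s) - 1})
    (isClosed_le continuous_const (by fun_prop)) (fun t ht => mem_J.2 (hb.trans_le ht))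
    (fun t ht => h0 _ (not_le.1 ht)) (h1.cyl (g.D s).F.toPre)

end rad

section rd
variable {c : A → ℝ → ℝ}

theorem Rd.lt (h : Rd c) (s : A) : ∀ t < 0, c s t = 0 := fun t ht => (h s).2 t ht.le

theorem sm_rd (h : Rd c) : Sm X.I (g.rd c) :=
  contMDiff_finsetSum fun s _ => sm_rad neg_one_lt_zero (h s).1 (Rd.lt h s)

theorem rd_eq (hg : g.OK) (h : ∀ s, ∀ t ≤ -1, c s t = 0) (hx : -1 < g.ht s x) :
    g.rd c x = c s (g.ht s x) :=
  Finset.sum_eq_single s (fun _ _ e => h _ _ (ht_ne hg e.symm hx)) (by simp)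

theorem rd_pt (hg : g.OK) (h : Rd c) (hτ : -1 < τ) (y : (g.Y s).M) :
    g.rd c (g.pt s τ y) = c s τ := by
  rw [rd_eq (s := s) hg (fun s t ht => (h s).2 t (by linarith)) (by rwa [ht_pt hτ]), ht_pt hτ]

theorem rd_cor (h : Rd c) (hx : x ∈ g.cor 0) : g.rd c x = 0 :=
  Finset.sum_eq_zero fun s _ => (h s).2 _ (hx s)

theorem Rd.deriv (h : Rd c) (r : A → ℝ) : Rd fun s t => r s * deriv (c s) t := fun s => by
  have h1 := (contDiff_infty_iff_deriv.1 (h s).1).2
  refine ⟨contDiff_const.mul h1, fun t ht => ?_⟩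
  have : Iio (0 : ℝ) ⊆ {t | _root_.deriv (c s) t = 0} := deriv_zero (Rd.lt h s)
  have := closure_minimal this (isClosed_eq h1.continuous continuous_const)
  rw [closure_Iio] at this
  exact mul_eq_zero_of_right _ (this ht)

theorem D_rd_none (h : Rd c) :
    g.F.D none (g.rd c) = g.rd fun s t => g.sg s * deriv (c s) t := funext fun x => by
  rw [Pre.D_def, show g.rd c = fun x => ∑ s, c s (g.ht s x) from rfl, dv_sum _ fun s _ =>
    (sm_rad neg_one_lt_zero (h s).1 (Rd.lt h s)).mdifferentiableAt (by simp)]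
  exact Finset.sum_congr rfl fun s _ =>
    congrFun (D_rad_none neg_one_lt_zero (h s).1.contDiffOn (Rd.lt h s)) x

theorem D_rd_some (h : Rd c) (a : κ) : g.F.D (some a) (g.rd c) = 0 := funext fun x => by
  rw [Pre.D_def, show g.rd c = fun x => ∑ s, c s (g.ht s x) from rfl, dv_sum _ fun s _ =>
    (sm_rad neg_one_lt_zero (h s).1 (Rd.lt h s)).mdifferentiableAt (by simp)]
  exact Finset.sum_eq_zero fun s _ =>
    congrFun (D_rad_some neg_one_lt_zero (h s).1.contDiffOn (Rd.lt h s) a) x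

theorem CBs_rd {C : ℕ → ℝ} (h : Rd c) (hc : ∀ s, BD (c s) C) :
    g.F.CBs (g.rd c) fun k => Fintype.card A * |C k| := ⟨sm_rd h, fun k => by
  have := CB_sum (F := g.F.toPre) Finset.univ (k := k)
    (fun s _ => sm_rad neg_one_lt_zero (h s).1 (Rd.lt h s))
    fun s _ => (CBs_rad (g := g) (s := s) neg_one_lt_zero (hc s) (Rd.lt h s)).2 k
  rwa [Finset.sum_const, Finset.card_univ, nsmul_eq_mul] at this⟩

theorem Cb_rd (h : Rd c) (hc : ∀ s, ∃ C, BD (c s) C) : g.F.Cb (g.rd c) :=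
  Cb_sum Finset.univ fun s _ => let ⟨_, e⟩ := hc s; ⟨_, CBs_rad neg_one_lt_zero e (Rd.lt h s)⟩

end rd

/-! ### Fubini -/

theorem aem_Ψ (hm : MeasurableSet S) (hS : S ⊆ Ioi (-1)) :
    AEMeasurable (Ψ g s) ((g.D s).F.μ.prod (volume.restrict S)) := by
  rw [← Measure.restrict_univ (μ := (g.D s).F.μ), Measure.prod_restrict]
  exact (contOn_Ψ hS).aemeasurable (MeasurableSet.univ.prod hm)

theorem mp_tt (g : Gm X κ lam A) (s : A) : MeasurePreserving (g.tt s) volume volume := by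
  rcases sg_cases g s with h | h
  · convert measurePreserving_add_left volume (g.o s + 1) using 2; rw [Gm.tt, h]; ring
  · convert Measure.measurePreserving_sub_left volume (g.o s - 1) using 2; rw [Gm.tt, h]; ring

theorem map_Ψ (hm : MeasurableSet S) (hS : S ⊆ Ioi (-1)) :
    ((g.D s).F.μ.prod (volume.restrict S)).map (Ψ g s) = g.F.μ.restrict (g.ht s ⁻¹' S) := by
  have m0 := (g.K s).ψ.open_source.measurableSet
  have h1 := ((MeasurePreserving.id (g.D s).F.μ).prod (mp_tt g s)).restrict_preimage m0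
  have h2 : Prod.map id (g.tt s) ⁻¹' (g.K s).ψ.source = univ ×ˢ Ioi (-1) := by
    ext z; simp [(g.K s).mem_src, mem_J, sg_tt]
  have h3 : ((g.D s).F.μ.prod (volume.restrict (Ioi (-1)))).map (Ψ g s) =
      g.F.μ.restrict (g.K s).ψ.target := by
    rw [← (g.K s).iso.μ, ← Measure.restrict_univ (μ := (g.D s).F.μ), Measure.prod_restrict, ← h2]
    change _ = Measure.map _ (((g.D s).F.μ.prod volume).restrict _)
    rw [← h1.map_eq, AEMeasurable.map_map_of_aemeasurable
      (h1.map_eq.symm ▸ (g.K s).ψ.continuousOn.aemeasurable m0) h1.aemeasurable]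
    rfl
  have m1 : MeasurableSet (g.ht s ⁻¹' S) := (cont_ht g s).measurable hm
  have h4 := congrArg (·.restrict (g.ht s ⁻¹' S)) h3
  beta_reduce at h4
  rw [Measure.restrict_restrict m1, inter_eq_left.2 (show g.ht s ⁻¹' S ⊆ _ from
    fun x hx => mem_tgt.2 (hS hx)),
    Measure.restrict_map_of_aemeasurable (aem_Ψ measurableSet_Ioi subset_rfl) m1] at h4
  rw [← h4, ← Measure.restrict_univ (μ := (g.D s).F.μ), Measure.prod_restrict,
    Measure.prod_restrict, Measure.restrict_restrict' (MeasurableSet.univ.prod measurableSet_Ioi)]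
  congr 2
  ext z
  exact ⟨fun h => ⟨show g.ht s (g.pt s z.2 z.1) ∈ S from (ht_pt (g := g) (hS h.2) z.1).symm ▸ h.2,
    trivial, hS h.2⟩, fun h => ⟨trivial, ht_pt (g := g) h.2.2 z.1 ▸ h.1⟩⟩

variable (g s) in
/-- the integral over the slice -/
def sl (f : X.M → ℝ) (τ : ℝ) : ℝ := ∫ y, f (g.pt s τ y) ∂(g.D s).F.μ

theorem n2_eq (u : X.M → N) : g.n2 s u = sl g s fun x => ‖u x‖ ^ 2 := rfl

theorem n2_nn (u : X.M → N) (τ : ℝ) : 0 ≤ g.n2 s u τ := integral_nonneg fun _ => by positivity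

variable {f f' : X.M → ℝ}

theorem int_pt (hf : Continuous f) (h : -1 < τ) :
    Integrable (fun y => f (g.pt s τ y)) (g.D s).F.μ :=
  (hf.comp (cont_pt h)).integrable_of_hasCompactSupport (HasCompactSupport.of_compactSpace _)

theorem contOn_sl (hf : Continuous f) : ContinuousOn (sl g s f) (Ioi (-1)) :=
  continuousOn_integral_of_compact_support (k := univ) isCompact_univ
    (hf.comp_continuousOn ((contOn_Ψ subset_rfl).comp continuous_swap.continuousOn
      fun _ h => ⟨trivial, h.1⟩)) fun _ _ _ h => absurd trivial h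

theorem sl_mono (hf : Continuous f) (hf' : Continuous f') (h : -1 < τ)
    (e : ∀ y, f (g.pt s τ y) ≤ f' (g.pt s τ y)) : sl g s f τ ≤ sl g s f' τ :=
  integral_mono (int_pt hf h) (int_pt hf' h) e

theorem sl_add (hf : Continuous f) (hf' : Continuous f') (h : -1 < τ) :
    sl g s (fun x => f x + f' x) τ = sl g s f τ + sl g s f' τ :=
  integral_add (int_pt hf h) (int_pt hf' h)

theorem sl_mul (r : ℝ) (f : X.M → ℝ) : sl g s (fun x => r * f x) τ = r * sl g s f τ :=
  integral_const_mul _ _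

theorem sl_const (r : ℝ) : sl g s (fun _ => r) τ = (g.D s).F.μ.real univ * r := by simp [sl]

theorem sl_rad (c : ℝ → ℝ) (h : -1 < τ) :
    sl g s (fun x => c (g.ht s x) * f x) τ = c τ * sl g s f τ := by
  simp only [sl, ht_pt h, integral_const_mul]

theorem intOn_iff (hm : MeasurableSet S) (hS : S ⊆ Ioi (-1)) (hf : Continuous f) :
    IntegrableOn f (g.ht s ⁻¹' S) g.F.μ ↔ IntegrableOn (sl g s fun x => ‖f x‖) S := by
  rw [IntegrableOn, ← map_Ψ hm hS, integrable_map_measure hf.aestronglyMeasurable (aem_Ψ hm hS),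
    integrable_prod_iff' (hf.measurable.comp_aemeasurable (aem_Ψ hm hS)).aestronglyMeasurable]
  exact and_iff_right ((ae_restrict_mem hm).mono fun t ht => int_pt hf (hS ht))

/-- **Fubini on an end** -/
theorem int_ht (hm : MeasurableSet S) (hS : S ⊆ Ioi (-1)) (hf : Continuous f)
    (hi : IntegrableOn f (g.ht s ⁻¹' S) g.F.μ) :
    ∫ x in g.ht s ⁻¹' S, f x ∂g.F.μ = ∫ t in S, sl g s f t := by
  rw [IntegrableOn, ← map_Ψ hm hS, integrable_map_measure hf.aestronglyMeasurable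
    (aem_Ψ hm hS)] at hi
  rw [← map_Ψ hm hS, integral_map (aem_Ψ hm hS) hf.aestronglyMeasurable]
  exact integral_prod_symm _ hi

theorem int_Icc (h : -1 < τ) (hf : Continuous f) (b : ℝ) :
    ∫ x in g.ht s ⁻¹' Icc τ b, f x ∂g.F.μ = ∫ t in Icc τ b, sl g s f t :=
  int_ht measurableSet_Icc (Icc_sub h b) hf
    (hf.continuousOn.integrableOn_compact (isCompact_ht isCompact_Icc (Icc_sub h b)))

theorem intOn_sl (h : -1 < τ) (hf : Continuous f) (b : ℝ) : IntegrableOn (sl g s f) (Icc τ b) :=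
  ((contOn_sl hf).mono (Icc_sub h b)).integrableOn_compact isCompact_Icc

/-- the core and the ends -/
theorem cor_compl (g : Gm X κ lam A) (T : ℝ) : (g.cor T)ᶜ = ⋃ s, g.ht s ⁻¹' Ioi T := by
  ext x; simp [Gm.cor]

theorem int_all (hg : g.OK) (hT : -1 ≤ T) (hf : Continuous f) (hi : Integrable f g.F.μ) :
    ∫ x, f x ∂g.F.μ = ∫ x in g.cor T, f x ∂g.F.μ + ∑ s, ∫ t in Ioi T, sl g s f t := by
  rw [← integral_add_compl (isClosed_cor g T).measurableSet hi, cor_compl, integral_iUnion_fintype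
    (fun s => (cont_ht g s).measurable measurableSet_Ioi) (fun s s' e => Set.disjoint_left.2
      fun x h h' => absurd (ht_ne hg e (hT.trans_lt h)) (not_le.2 (hT.trans_lt h')))
    fun _ => hi.integrableOn]
  exact congrArg _ (Finset.sum_congr rfl fun s _ =>
    int_ht measurableSet_Ioi (Ioi_subset_Ioi hT) hf hi.integrableOn)

theorem integrable_iff (hg : g.OK) (hT : -1 ≤ T) (hf : Continuous f) :
    Integrable f g.F.μ ↔ ∀ s, IntegrableOn (sl g s fun x => ‖f x‖) (Ioi T) := by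
  refine ⟨fun h s => (intOn_iff measurableSet_Ioi (Ioi_subset_Ioi hT) hf).1 h.integrableOn,
    fun h => ?_⟩
  rw [← integrableOn_univ, ← union_compl_self (g.cor T), cor_compl]
  exact (hf.continuousOn.integrableOn_compact (hg.cpt T)).union (integrableOn_finite_iUnion.2
    fun s => (intOn_iff measurableSet_Ioi (Ioi_subset_Ioi hT) hf).2 (h s))

theorem hasDerivAt_sl (hf : Sm X.I f) (h : -1 < τ) :
    HasDerivAt (sl g s f) (g.sg s * sl g s (g.F.D none f) τ) τ := by
  have hD := (g.F.sm_D hf none).continuous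
  have h1 : -1 < (τ - 1) / 2 := by linarith
  obtain ⟨C, hC⟩ := (isCompact_ht (g := g) (s := s) isCompact_Icc
    (Icc_sub h1 (τ + 1))).exists_bound_of_continuousOn hD.continuousOn
  rw [← sl_mul]
  refine (hasDerivAt_integral_of_dominated_loc_of_deriv_le (s := Icc ((τ - 1) / 2) (τ + 1))
    (F := fun t y => f (g.pt s t y)) (F' := fun t y => g.sg s * g.F.D none f (g.pt s t y))
    (bound := fun _ => C) (Icc_mem_nhds (by linarith) (by linarith))
    ((lt_mem_nhds h).mono fun t ht => (int_pt hf.continuous ht).1) (int_pt hf.continuous h)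
    ((int_pt hD h).const_mul _).1 (.of_forall fun y t ht => ?_) (integrable_const C)
    (.of_forall fun y t ht => hasDerivAt_pt hf (h1.trans_le ht.1) y)).2
  rw [norm_mul, Real.norm_eq_abs, abs_sg, one_mul]
  exact hC _ (by rwa [mem_preimage, ht_pt (h1.trans_le ht.1)])

theorem sm_sl (hf : Sm X.I f) : ContDiffOn ℝ ∞ (sl g s f) (Ioi (-1)) := by
  refine contDiffOn_infty.2 fun n => ?_
  induction n generalizing f with
  | zero => exact contDiffOn_zero.2 (contOn_sl hf.continuous)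
  | succ n ih =>
    rw [Nat.cast_succ, contDiffOn_succ_iff_deriv_of_isOpen isOpen_Ioi]
    refine ⟨fun t ht => (hasDerivAt_sl hf ht).differentiableAt.differentiableWithinAt, by simp, ?_⟩
    exact (contDiffOn_const.mul (ih (g.F.sm_D hf none))).congr fun t ht => (hasDerivAt_sl hf ht).deriv

end Crest.Agent.X212.Ulc97
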