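import Crest.Agent.X212.Ulc97.Rad
import Crest.Agent.X212.Sw21.Tool

/-!
# Row 212, RAD-UL (helper97): limits; `UlStmt`
-/

set_option autoImplicit false
set_option linter.unusedSectionVars false
noncomputable section
open scoped Manifold ContDiff Topology InnerProductSpace NNReal
open MeasureTheory Set Function Filter Real

namespace Crest.Agent.X212.Ulc97
open An Cyf70 Ell97 Sob92 Rad94 Lw78
open M (Mf pm)

section gen
variable {E : Type} [NormedAddCommGroup E] [NormedSpace ℝ E] [FiniteDimensional ℝ E]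
  [MeasurableSpace E] [BorelSpace E]
  {HM : Type} [TopologicalSpace HM] {I : ModelWithCorners ℝ E HM} [I.Boundaryless]
  {M : Type} [TopologicalSpace M] [ChartedSpace HM M] [IsManifold I ∞ M]
  [MeasurableSpace M] {ι : Type} [Fintype ι] [T2Space M] [BorelSpace M] [SecondCountableTopology M]
  {N : Type} [NormedAddCommGroup N] [NormedSpace ℝ N] [FiniteDimensional ℝ N] {F : Pre I M ι}

/-- Arzelà–Ascoli in `C^∞_loc` along an ultrafilter -/
theorem aa {α : Type} (𝒰 : Ultrafilter α) {u : α → M → N} {C : ℕ → ℝ} (hu : ∀ n, F.CBs (u n) C) :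
    ∃ v, F.CBs v C ∧ ∀ w, TendstoLocallyUniformly (fun n => F.Dw w (u n)) (F.Dw w v) 𝒰 := by
  have := FiniteDimensional.proper_real N
  choose G _ hG using fun (w : List ι) x => (isCompact_closedBall (0 : N) (C w.length)).ultrafilter_le_nhds
    (𝒰.map fun n => F.Dw w (u n) x) (le_principal_iff.2 (mem_map.2 (univ_mem' fun n =>
      mem_closedBall_zero_iff.2 ((hu n).2 _ w le_rfl x))))
  have md := fun w n x => (sm_Dw (F := F) (hu n).1 w).mdifferentiableAt (x := x) (by simp)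
  have h1 : ∀ w x, TendstoUniformlyOnFilter (fun n => F.Dw w (u n)) (G w) 𝒰 (𝓝 x) := fun w x =>
    Sw21.unif_loc F univ_mem (C := C (w.length + 1)) (.of_forall fun n z _ => ⟨md w n z, fun a => by
      rw [← Dw_concat]; exact (hu n).2 _ _ (by simp) z⟩) fun z _ => hG w z
  have h2 := fun w x => Sw21.mdiff_loc F (l := 𝒰) (u := fun n => F.Dw w (u n)) (f := G w)
    (g := fun a => G (w ++ [a])) (x₀ := x) (.of_forall fun p => md w _ _) (.of_forall (hG w))
    fun a => by simpa only [Dw_concat] using h1 (w ++ [a]) x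
  have h3 : ∀ w w' : List ι, F.Dw w (G w') = G (w' ++ w) := by
    intro w
    induction w with
    | nil => exact fun w' => by rw [List.append_nil]; rfl
    | cons a w ih =>
      intro w'
      rw [Pre.Dw, show F.D a (G w') = G (w' ++ [a]) from funext fun x => (h2 w' x).2 a, ih]; simp
  refine ⟨G [], ⟨contMDiff_infty.2 fun n => contMDiff_of_class F.sm (span_coef F)
    (fun _ f => ∃ w, f = G w) ?_ ?_ n _ ⟨[], rfl⟩, fun k w hw x => ?_⟩, fun w => ?_⟩
  · rintro _ ⟨w, rfl⟩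
    exact continuous_iff_continuousAt.2 fun x => (h2 w x).1.continuousAt
  · rintro _ _ ⟨w, rfl⟩
    exact ⟨fun x => (h2 w x).1, fun a => ⟨_, funext fun x => (h2 w x).2 a⟩⟩
  · rw [h3]
    exact le_of_tendsto' (Tendsto.norm (hG w x)) fun n => (hu n).2 k w hw x
  · rw [h3]
    exact tendstoLocallyUniformly_iff_filter.2 (h1 w)

end gen

variable {κ lam A : Type} [Fintype κ] [Fintype lam] [Fintype A] {X : Mf 4}
  {V : Type} [NormedAddCommGroup V] [NormedSpace ℝ V] [FiniteDimensional ℝ V] {g : Gm X κ lam A}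

theorem ul_lim (hg : g.OK) {u : ℕ → X.M → V} {C : ℕ → ℝ} {ε : ℝ} (hε : 0 < ε)
    (hu : ∀ n, g.F.CBs (u n) C)
    (hc : ∀ δ > 0, ∃ N, ∀ n ≥ N, ∀ m ≥ N, g.Q (fun _ => ε) (u n - u m) ≤ δ) :
    ∃ v, g.F.CBs v C ∧ (∀ x, Tendsto (fun n => u n x) atTop (𝓝 (v x))) ∧
      Tendsto (fun n => g.Q (fun _ => ε) (u n - v)) atTop (𝓝 0) := by
  obtain ⟨K, K0, hK⟩ := q_small (N := V) hg hε
  have b : ∀ {f f' : X.M → V}, g.F.CBs f C → g.F.CBs f' C → ∀ x, ‖(f - f') x‖ ≤ C 0 + C 0 :=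
    fun h h' x => norm_sub_le_of_le (CB_bound (h.2 0) x) (CB_bound (h'.2 0) x)
  have c : ∀ {f f' : X.M → V}, g.F.CBs f C → g.F.CBs f' C → Continuous (f - f') :=
    fun h h' => h.1.continuous.sub h'.1.continuous
  have fi : ∀ {f f' : X.M → V}, g.F.CBs f C → g.F.CBs f' C → g.Fi (fun _ => ε) (f - f') :=
    fun h h' => (hK _ 0 _ _ le_rfl (c h h') (fun x _ => b h h' x) (b h h')).1
  have tri : ∀ {f f' f'' : X.M → V}, g.F.CBs f C → g.F.CBs f' C → g.F.CBs f'' C →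
      g.Q (fun _ => ε) (f - f') ≤ 2 * 1 ^ 2 * (g.Q (fun _ => ε) (f'' - f) +
        g.Q (fun _ => ε) (f'' - f')) := fun {f f' f''} h h' h'' =>
    (q_le hg (c h'' h) (c h'' h') (c h h') (fun x => by
      rw [one_mul, Pi.sub_apply, Pi.sub_apply, Pi.sub_apply, norm_sub_rev (f'' x)]
      exact norm_sub_le_norm_sub_add_norm_sub _ _ _) (fi h'' h) (fi h'' h')).2
  have key : ∀ 𝒰 : Ultrafilter ℕ, (𝒰 : Filter ℕ) ≤ atTop → ∃ v, g.F.CBs v C ∧
      (∀ x, Tendsto (fun n => u n x) 𝒰 (𝓝 (v x))) ∧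
      Tendsto (fun n => g.Q (fun _ => ε) (u n - v)) atTop (𝓝 0) := fun 𝒰 h𝒰 => by
    obtain ⟨v, hv, hl⟩ := aa 𝒰 hu
    replace hl : TendstoLocallyUniformly u v 𝒰 := hl []
    refine ⟨v, hv, fun x => hl.tendstoLocallyUniformlyOn.tendsto_at (mem_univ x),
      tendsto_order.2 ⟨fun a ha => .of_forall fun _ => ha.trans_le (Q_nn _), fun δ hδ => ?_⟩⟩
    have t1 : Tendsto (fun p : ℝ × ℝ => K * (p.1 ^ 2 + (C 0 + C 0) ^ 2 * exp (-ε * p.2)))
        (𝓝[>] 0 ×ˢ atTop) (𝓝 (K * (0 ^ 2 + (C 0 + C 0) ^ 2 * 0))) :=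
      (((tendsto_fst.mono_right nhdsWithin_le_nhds).pow 2).add ((tendsto_exp_atBot.comp
        (tendsto_snd.const_mul_atTop_of_neg (neg_lt_zero.2 hε))).const_mul _)).const_mul K
    obtain ⟨p, h1, h2, h3⟩ := ((t1.eventually (gt_mem_nhds (show _ < δ / 4 by simpa using hδ))).and
      (Eventually.prod_mk (eventually_mem_nhdsWithin (a := (0 : ℝ)) (s := Ioi 0))
        (eventually_ge_atTop (0 : ℝ)))).exists
    obtain ⟨N, hN⟩ := hc (δ / 4) (by positivity)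
    obtain ⟨m, h4, h5⟩ := ((Metric.tendstoUniformlyOn_iff.1
      ((tendstoLocallyUniformlyOn_iff_tendstoUniformlyOn_of_compact (hg.cpt p.2)).1
        hl.tendstoLocallyUniformlyOn) p.1 h2).and (h𝒰 (eventually_ge_atTop N))).exists
    refine (eventually_ge_atTop N).mono fun n hn => (tri (hu n) hv (hu m)).trans_lt ?_
    have := (hK _ _ _ _ h3 (c (hu m) hv) (fun x hx => by
      rw [Pi.sub_apply, ← dist_eq_norm, dist_comm]; exact (h4 x hx).le) (b (hu m) hv)).2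
    linarith [hN m h5 n hn]
  obtain ⟨v, hv, -, h1⟩ := key (Ultrafilter.of atTop) (Ultrafilter.of_le _)
  refine ⟨v, hv, fun x => (tendsto_iff_ultrafilter _ _ _).2 fun 𝒰 h𝒰 => ?_, h1⟩
  obtain ⟨v', hv', h2, h3⟩ := key 𝒰 h𝒰
  have h4 := (h1.add h3).const_mul (2 * 1 ^ 2)
  rw [add_zero, mul_zero] at h4
  rw [sub_eq_zero.1 (q_sep hg (c hv hv') (fi hv hv') (le_antisymm
    (ge_of_tendsto' h4 fun n => tri hv hv' (hu n)) (Q_nn _)))]
  exact h2 x

theorem ulC (hg : g.OK) : g.UlC where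
  el _ _ _ _ _ _ _ _ _ := ul_el hg
  sup _ _ _ _ := ul_sup hg
  cb _ _ _ _ := ul_cb hg
  mul U V W _ _ _ _ _ _ _ _ _ _ := ul_prod U V W hg
  l4 U V W _ _ _ _ _ _ _ _ _ := ul_l4 U V W hg
  rad _ _ _ _ _ := ul_rad hg
  lim _ _ _ _ _ _ _ := ul_lim hg
  sep _ _ _ _ _ := q_sep hg
  le _ _ _ _ _ _ _ _ _ _ _ := q_le hg
  alg _ _ _ _ _ _ _ _ c hu hv h h' := ⟨ul_add hg hu ((contMDiff_const (I' := 𝓘(ℝ, ℝ))).smul hv) h
    (ul_smul hg hv h' c), fun _ hj _ => ul_mono h hj⟩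
  q _ hε := ⟨_, fun _ _ _ _ _ => q_ul hg hε⟩
  n _ _ _ _ _ := ul_n hg

variable (κ lam) in
/-- **LEAF UL** -/
theorem ulStmt : UlStmt κ lam := fun _ _ _ _ => ulC

end Crest.Agent.X212.Ulc97
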