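import Crest.Agent.X212.Ulc97.Rad
import Crest.Agent.X212.Rad94.Leaf

/-!
# Row 212, RAD-REG (helper97): bootstraps
-/

set_option autoImplicit false
set_option linter.unusedSectionVars false
noncomputable section
open scoped Manifold ContDiff Topology InnerProductSpace NNReal
open MeasureTheory Set Function Filter Real

namespace Crest.Agent.X212.Ulc97
open An Cyf70 Ell97 Sob92 Rad94 Sw Sw.En3
open M (Mf pm)

variable {κ lam ν : Type} [Fintype κ] [Fintype lam] [Fintype ν] [DecidableEq ν]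
  {X : Mf 4} {nc k : ℕ}

theorem ul_absorb {A N : Type} [Fintype A] [NormedAddCommGroup N] [NormedSpace ℝ N]
    {g : Gm X κ lam A} {u : X.M → N} {R C : ℝ} (h0 : g.Ul k u R)
    (h : ∀ r, g.Ul k u r → g.Ul k u (C + r / 2)) : g.Ul k u (2 * C) := by
  have hb : BddAbove (range fun j => nS g.F.toPre (S0 g j) k u) :=
    ⟨R, forall_mem_range.2 (ul_iff.1 h0)⟩
  have h1 := ul_iff.2 (le_ciSup hb)
  exact ul_mono h1 le_rfl (by linarith [ciSup_le (ul_iff.1 (h _ h1))])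

theorem ul_congr {A N : Type} [Fintype A] [NormedAddCommGroup N] [NormedSpace ℝ N]
    {g : Gm X κ lam A} {u v : X.M → N} {r : ℝ} (h : g.Ul k u r) (e : ∀ x, v x = u x) : g.Ul k v r :=
  (funext e : v = u) ▸ h

theorem sm_rdu {A V : Type} [Fintype A] [NormedAddCommGroup V] [InnerProductSpace ℝ V]
    {g : Gm X κ lam A} {β : A → ℝ → ℝ} (hβ : ∀ s, ContDiff ℝ ∞ (β s)) {u : X.M → V}
    (hu : Sm X.I u) : Sm X.I (g.rd fun s τ => χ τ * β s (g.n2 s u τ)) :=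
  contMDiff_finsetSum fun s _ => sm_H (hβ s) hu

variable {e : Bool → En3 κ lam ν} {Z : Pz X nc e} {z : Two Z} {β : Bool → ℝ → ℝ}

theorem a1_zero : A1 Z.bg 0 :=
  ⟨⟨fun _ => contMDiff_const, fun _ _ => by simp⟩, fun _ => Cb_const 0⟩

/-- one step of the bootstrap -/
theorem reg_step (hD : DirStmt κ lam ν) (hZ : Z.OK) (hg : z.gm.OK)
    {B : X.M → Fm (Option κ) ℝ →L[ℝ] Eu ν →L[ℝ] Eu ν} (hB : Sm X.I B)
    (h : ∀ a a' u x, S1 Z.bg a → S1 Z.bg a' → Sc Z.bg.pp u →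
      Z.bg.eD ⟨a, u⟩ x = Z.bg.eD ⟨a', u⟩ x + B x (vc (a - a') x) (u x))
    (hβ : ∀ s, ContDiff ℝ ∞ (β s)) (i : ℕ) (M M' : ℝ) : ∃ C, ∃ K ≥ 0, ∀ a u r, S1 Z.bg a →
      Sm X.I (vc a) → Sc Z.bg.pp u → Dz Z.bg z.gm a (cm z.gm β u) u = 0 →
      (∀ s τ, 0 ≤ τ → z.gm.n2 s u τ ≤ M') → z.gm.Ul i u M →
      z.gm.Ul i (fun x => B x (vc a x) (u x)) r → z.gm.Ul (i + 1) u (C + K * r) := by
  obtain ⟨L, hL⟩ := hD X nc e Z z 0 hZ a1_zero fun _ δ hδ => ⟨0, fun _ _ _ => by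
    simpa [show ∀ x, vc (0 : Fo X κ) x = 0 from fun _ => rfl] using hδ.le⟩
  obtain ⟨K, hK⟩ := ul_el hg hL.ok.good hL.ok.cl.1 i
  obtain ⟨c, hc⟩ := hL.ok.good
  obtain ⟨C, hC⟩ := ul_rad (V := Eu ν) hg hβ i (max M M')
  let C1 := cK (Option κ) i * ‖ContinuousLinearMap.id ℝ (Eu ν →L[ℝ] Eu ν)‖ * c i * C
  refine ⟨|K| * (C1 + M), |K|, abs_nonneg K, fun a u r ha hs hu he hn h1 h2 => ?_⟩
  have s1 := (sm_rdu (g := z.gm) hβ hu.1).smul hu.1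
  have k1 := ul_mul hg (ContinuousLinearMap.id ℝ (Eu ν →L[ℝ] Eu ν)) (hc.σ none).1 s1
    ((hc.σ none).2 i) (hC u hu.1 (ul_mono h1 le_rfl (le_max_left _ _))
      fun s τ hτ => (hn s τ hτ).trans (le_max_right _ _))
  have s2 := (hB.clm_apply hs).clm_apply hu.1
  have k2 := ul_add hg ((hc.σ none).1.clm_apply s1) ((contMDiff_const (I' := 𝓘(ℝ, ℝ))).smul s2) k1
    (ul_smul hg s2 h2 (-1))
  have p1 := ul_nn k1
  have p2 := ul_nn h1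
  have p3 := ul_nn h2
  rw [abs_neg, abs_one, one_mul] at k2
  refine ul_mono (hK u (C1 + M + r) (hL.p ▸ hu) (ul_mono (r := C1 + r) ?_ le_rfl (by linarith))
    (ul_mono h1 le_rfl (by linarith))) le_rfl ?_
  · refine ul_congr k2 fun x => (congrFun (hL.app u hu) x).trans ?_
    have e1 := h a 0 u x ha a1_zero.1 hu
    have e2 : Z.bg.eD ⟨a, u⟩ x = _ := sub_eq_zero.1 (congrFun he x)
    rw [sub_zero, e2] at e1
    rw [eq_sub_of_add_eq e1.symm]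
    simp only [Pi.add_apply, Pi.smul_apply, Pi.smul_apply', map_smul, hL.σ, neg_smul, one_smul,
      mul_apply_eq_comp, hu.2 x, sub_eq_add_neg]
    rfl
  · rw [← mul_add]
    exact mul_le_mul_of_nonneg_right (le_abs_self K) (by linarith)

theorem reg_hi (hA : AlgStmt κ lam ν) (hD : DirStmt κ lam ν) (hZ : Z.OK)
    (hβ : ∀ s, ContDiff ℝ ∞ (β s)) {j : ℕ} (hj : 7 ≤ j) (M : ℝ) : ∀ i ≤ j + 1, ∃ C, ∀ a u,
      A1 Z.bg a → z.gm.Ul j (vc a) M → Sc Z.bg.pp u → Dz Z.bg z.gm a (cm z.gm β u) u = 0 →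
      z.gm.q0 u ≤ M → (∀ s τ, 0 ≤ τ → z.gm.n2 s u τ ≤ M) → z.gm.Ul i u C := by
  obtain ⟨hg, al⟩ := hA X nc e Z z hZ
  obtain ⟨B, ⟨c, hB⟩, h⟩ := al.bil
  obtain ⟨P, hP⟩ := ul_prod (Fm (Option κ) ℝ) (Eu ν) (Eu ν) hg hj
  intro i
  induction i with
  | zero => exact fun _ => ⟨_, fun a u _ h1 hu _ h2 h3 => ul_n hg hu.1.continuous (sqrt_nonneg M)
      (by rwa [sq_sqrt (ul_nn h1)]) (by rwa [sq_sqrt (ul_nn h1)])⟩
  | succ i ih =>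
    intro hi
    obtain ⟨C, hC⟩ := ih (by omega)
    obtain ⟨C', K, -, hs⟩ := reg_step hD hZ hg hB.1 h hβ i C M
    refine ⟨C' + K * (P * c j * M * C), fun a u ha h1 hu he h2 h3 => ?_⟩
    have sa := ((al.vc a).1 ha).1.choose_spec.1
    exact hs a u _ ha.1 sa hu he h3 (hC a u ha h1 hu he h2 h3)
      (hP B _ u _ _ _ i (by omega) hB.1 sa hu.1 (hB.2 j) h1 (hC a u ha h1 hu he h2 h3))

variable (z β) in
/-- the hypotheses of the second bootstrap -/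
structure Lo (a₀ : Fo X κ) (G : (X.M → F2 κ) → Fo X κ) (C₀ δ w : ℝ) (a : Fo X κ) (u : X.M → Eu ν)
    (τ f : X.M → F2 κ) : Prop where
  hw : w ∈ Icc 0 δ
  a1 : A1 Z.bg a
  sc : Sc Z.bg.pp u
  cb : Z.bg.F.Cb u
  bd : ∀ x, ‖u x‖ ≤ C₀
  eq : Dz Z.bg z.gm a (cm z.gm β u) u = 0
  sτ : SD Z.bg τ
  sf : SD Z.bg f
  ef : ∀ x, f x = w • Z.bg.p2 x (Z.bg.qd x (u x) (u x)) + τ x
  ea : a - a₀ = G f

variable {a₀ : Fo X κ} {G : (X.M → F2 κ) → Fo X κ} {ϖ : Fin k → X.M → F2 κ} {ε : ℝ}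
  {S : (X.M → F2 κ) → Fin k → ℝ}

theorem lo_f (hg : z.gm.OK) (al : Alg Z.bg z.gm) (C₀ : ℝ) (i : ℕ) (R : ℝ) : ∃ K ≥ 0, ∀ δ w a u τ f,
    Lo z β a₀ G C₀ δ w a u τ f → Z.bg.F.CB i τ δ → z.gm.Ul i u R → z.gm.Ul i f (K * δ) := by
  obtain ⟨B, ⟨c, hB⟩, h⟩ := al.qd
  obtain ⟨P, hP⟩ := ul_l4 (Eu ν) (Eu ν) (F2 κ) hg i
  obtain ⟨Q, hQ⟩ := ul_cb (N := F2 κ) hg i
  refine ⟨|P * c i * max R C₀ * max R C₀| + |Q|, by positivity, fun δ w a u τ f H h1 h2 => ?_⟩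
  have k1 := ul_mono h2 le_rfl (le_max_left R C₀)
  have k2 := fun x => (H.bd x).trans (le_max_right R C₀)
  have s1 := (hB.1.clm_apply H.sc.1).clm_apply H.sc.1
  have s2 := H.sτ.1.choose_spec.1
  have k3 := ul_add hg ((contMDiff_const (I' := 𝓘(ℝ, ℝ))).smul s1) s2 (ul_smul hg s1
    ((hP B u u _ _ _ hB.1 H.sc.1 H.sc.1 (hB.2 i)).2 k1 k2 k1 k2) w) (hQ τ δ s2 h1)
  have d := H.hw.1.trans H.hw.2
  refine ul_mono (r := |w| * (P * c i * max R C₀ * max R C₀) + Q * δ) ?_ le_rfl ?_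
  · exact ul_congr k3 fun x => by rw [H.ef, h]; rfl
  · rw [add_mul, abs_of_nonneg H.hw.1, mul_comm w]
    exact add_le_add (mul_le_mul (le_abs_self _) H.hw.2 H.hw.1 (abs_nonneg _))
      (mul_le_mul_of_nonneg_right (le_abs_self Q) d)

theorem lo_u (hD : DirStmt κ lam ν) (hZ : Z.OK) (hg : z.gm.OK) (al : Alg Z.bg z.gm)
    (h₀ : A1 Z.bg a₀) (hH : Hdg Z.bg z.gm ϖ ε G S) (hβ : ∀ s, ContDiff ℝ ∞ (β s)) (C₀ : ℝ) (i : ℕ)
    (R : ℝ) : ∃ C, ∃ d > 0, ∀ δ ≤ d, ∀ w a u τ f, Lo z β a₀ G C₀ δ w a u τ f → Z.bg.F.CB i τ δ →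
      z.gm.Ul i u R → z.gm.Ul (i + 1) u C ∧ z.gm.Ul (i + 1) (vc a) C := by
  obtain ⟨B, ⟨c, hB⟩, h⟩ := al.bil
  obtain ⟨K, K0, hK⟩ := lo_f (β := β) (a₀ := a₀) (G := G) hg al C₀ i R
  obtain ⟨T, hT⟩ := hH.ul i
  obtain ⟨P, hP⟩ := ul_l4 (Fm (Option κ) ℝ) (Eu ν) (Eu ν) hg i
  obtain ⟨Q, hQ⟩ := ul_cb (N := Fm (Option κ) ℝ) hg (i + 1)
  obtain ⟨Q', hQ'⟩ := ul_cb (N := Eu ν) hg (i + 1)
  obtain ⟨c₀, hc⟩ := ((al.vc a₀).1 h₀).1
  obtain ⟨C, L, L0, hs⟩ := reg_step hD hZ hg hB.1 h hβ i R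
    ((∑ s, (z.gm.D s).F.μ.real univ) * C₀ ^ 2)
  have s0 := hB.1.clm_apply hc.1
  obtain ⟨c2, -, b0⟩ := Cb_app ⟨c, hB⟩ ⟨c₀, hc⟩
  replace b0 := b0 i
  generalize c2 i = c1 at b0
  let r0 := cK (Option κ) i * ‖ContinuousLinearMap.id ℝ (Eu ν →L[ℝ] Eu ν)‖ * c1 * R
  let q := L * |P * c i * (T * K)|
  have q0 : 0 ≤ q := mul_nonneg L0 (abs_nonneg _)
  refine ⟨max (2 * (C + L * r0)) (Q * c₀ (i + 1) + |T * K|), (2 * (q + 1))⁻¹, by positivity,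
    fun δ hδ w a u τ f H h1 h2 => ?_⟩
  have d := H.hw.1.trans H.hw.2
  have d1 : δ ≤ 1 := hδ.trans (inv_le_one_of_one_le₀ (by linarith))
  have k1 := (hT f _ H.sf (hK δ w a u τ f H h1 h2)).1
  have s1 := ((al.vc _).1 (hH.a1 f H.sf)).1.choose_spec.1
  have e1 : vc a = vc a₀ + vc (G f) := by
    rw [← H.ea]; funext x; ext i; simp [vc]
  refine ⟨ul_mono ?_ le_rfl (le_max_left _ _), ul_mono (e1 ▸ ul_add hg hc.1 s1
    (hQ _ _ hc.1 (hc.2 _)) k1) le_rfl (le_max_of_le_right (add_le_add le_rfl ?_))⟩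
  · obtain ⟨cu, hu⟩ := H.cb
    refine ul_absorb (hQ' u _ hu.1 (hu.2 _)) fun r hr => ul_mono (hs a u
      (r0 + P * c i * (T * (K * δ)) * r) H.a1.1 (e1 ▸ hc.1.add s1) H.sc H.eq (fun s t ht => ?_) h2 ?_)
      le_rfl ?_
    · refine (sl_mono (hu.1.continuous.norm.pow 2) continuous_const (by linarith) fun y =>
        pow_le_pow_left₀ (norm_nonneg _) (H.bd _) 2).trans ((sl_const _).trans_le
        (mul_le_mul_of_nonneg_right (Finset.single_le_sum (f := fun s => (z.gm.D s).F.μ.real univ)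
          (fun _ _ => by positivity) (Finset.mem_univ s)) (sq_nonneg _)))
    · exact ul_congr (ul_add hg (s0.clm_apply hu.1) ((hB.1.clm_apply s1).clm_apply hu.1)
        (ul_mul hg (ContinuousLinearMap.id ℝ (Eu ν →L[ℝ] Eu ν)) s0 hu.1 b0 h2)
        ((hP B _ u _ _ _ hB.1 s1 hu.1 (hB.2 i)).1 k1 hr)) fun x => by
          rw [e1, Pi.add_apply, map_add]; rfl
    · have a1 : q * δ ≤ 1 / 2 := (mul_le_mul_of_nonneg_left hδ q0).trans (by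
        rw [← div_eq_mul_inv, div_le_div_iff₀ (by positivity) two_pos]; linarith)
      have a2 := mul_le_mul_of_nonneg_right (mul_le_mul_of_nonneg_left
        (le_abs_self (P * c i * (T * K))) L0) (mul_nonneg d (ul_nn hr))
      nlinarith [mul_le_mul_of_nonneg_right a1 (ul_nn hr)]
  · rw [← mul_assoc]
    exact (mul_le_mul_of_nonneg_right (le_abs_self _) d).trans (mul_le_of_le_one_right (abs_nonneg _) d1)

theorem lo_ind (hD : DirStmt κ lam ν) (hZ : Z.OK) (hg : z.gm.OK) (al : Alg Z.bg z.gm)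
    (h₀ : A1 Z.bg a₀) (hH : Hdg Z.bg z.gm ϖ ε G S) (hβ : ∀ s, ContDiff ℝ ∞ (β s)) (C₀ : ℝ) (i : ℕ) :
    ∃ C, ∃ d > 0, ∀ δ ≤ d, ∀ w a u τ f, Lo z β a₀ G C₀ δ w a u τ f → Z.bg.F.CB i τ δ →
      z.gm.Ul (i + 1) u C ∧ z.gm.Ul (i + 1) (vc a) C := by
  induction i with
  | zero =>
    obtain ⟨Q, hQ⟩ := ul_cb (N := Eu ν) hg 0
    obtain ⟨C, d, d0, h⟩ := lo_u hD hZ hg al h₀ hH hβ C₀ 0 (Q * C₀)
    exact ⟨C, d, d0, fun δ hδ w a u τ f H h1 => h δ hδ w a u τ f H h1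
      (hQ u _ H.sc.1 (CB_zero.2 H.bd))⟩
  | succ i ih =>
    obtain ⟨R, d', d0', h'⟩ := ih
    obtain ⟨C, d, d0, h⟩ := lo_u hD hZ hg al h₀ hH hβ C₀ (i + 1) R
    exact ⟨C, min d d', lt_min d0 d0', fun δ hδ w a u τ f H h1 => h δ (hδ.trans (min_le_left _ _))
      w a u τ f H h1 (h' δ (hδ.trans (min_le_right _ _)) w a u τ f H (CB_of_le h1 i.le_succ)).1⟩

/-- **LEAF REG** -/
theorem regStmt (hA : AlgStmt κ lam ν) (hD : DirStmt κ lam ν) : RegStmt κ lam ν where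
  hi _ _ _ _ _ hZ _ hβ _ hj M := reg_hi hA hD hZ hβ hj M _ le_rfl
  lo X nc k e Z z ϖ a₀ ε G S hZ h₀ hH β hβ C₀ δ hδ := by
    obtain ⟨hg, al⟩ := hA X nc e Z z hZ
    obtain ⟨M, d, d0, h⟩ := lo_ind hD hZ hg al h₀ hH hβ C₀ 0
    obtain ⟨R, d', d0', h'⟩ := lo_ind hD hZ hg al h₀ hH hβ C₀ 6
    obtain ⟨K, K0, hK⟩ := lo_f (β := β) (a₀ := a₀) (G := G) hg al C₀ 7 R
    refine ⟨M, min (min d d') (δ / (K + 1)), by positivity,
      fun w hw a u τ f h1 h2 h3 h4 h5 h6 h7 h8 h9 h10 h11 => ?_⟩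
    have H : Lo z β a₀ G C₀ _ w a u τ f := ⟨hw, h1, h2, h3, h4, h5, h6, h7, h10, h11⟩
    have k1 := h _ ((min_le_left _ _).trans (min_le_left _ _)) w a u τ f H (CB_zero.2 h8)
    have k2 := h9 k1.2 k1.1
    refine ul_mono (hK _ w a u τ f H k2 (h' _ ((min_le_left _ _).trans (min_le_right _ _)) w a u τ f H
      (CB_of_le k2 (by norm_num))).1) le_rfl
      ((mul_le_mul_of_nonneg_left (min_le_right _ _) K0).trans ?_)
    rw [mul_div_assoc', div_le_iff₀ (by positivity)]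
    nlinarith

end Crest.Agent.X212.Ulc97
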