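import Crest.Agent.X212.Ulc97.Trm3

/-!
# Row 212, RAD-TRM (helper97): bounds of the terms
-/

set_option autoImplicit false
set_option linter.unusedSectionVars false
noncomputable section
open scoped Manifold ContDiff Topology InnerProductSpace NNReal
open MeasureTheory Set Function Filter Real

namespace Crest.Agent.X212.Ulc97
open An Cyf70 Ell97 Sob92 Rad94 Sw Sw.En3 Dl42
open Nd18 (BD)
open M (Mf pm)

theorem evq {W : Type} (C : W → ℝ) {δ : ℝ} (hδ : 0 < δ) {p : (W →₀ ℝ) → Prop}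
    (h : ∀ q : W →₀ ℝ, ∑ v ∈ q.support, |q v| * C v ≤ δ → p q) : EvQ p :=
  ⟨fun v => C v / δ, fun q hq => h q (by
    simp only [Finsupp.sum, ← mul_div_assoc, ← Finset.sum_div] at hq
    exact ((div_lt_one hδ).1 hq).le)⟩

theorem sq_add_le {x y : ℂ} {r r' q : ℝ} (h0 : 0 ≤ r) (h0' : 0 ≤ r') (hq : 0 ≤ q)
    (h : ‖x‖ ^ 2 ≤ r ^ 2 * q) (h' : ‖y‖ ^ 2 ≤ r' ^ 2 * q) : ‖x + y‖ ^ 2 ≤ (r + r') ^ 2 * q := by
  have k : ∀ {x : ℂ} {r : ℝ}, 0 ≤ r → ‖x‖ ^ 2 ≤ r ^ 2 * q → ‖x‖ ≤ r * √q := fun h0 h =>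
    abs_le_of_sq_le_sq' (by rwa [mul_pow, sq_sqrt hq]) (by positivity) |>.2
  refine (pow_le_pow_left₀ (norm_nonneg _) ((norm_add_le _ _).trans
    (add_le_add (k h0 h) (k h0' h'))) 2).trans_eq ?_
  rw [← add_mul, mul_pow, sq_sqrt hq]

variable {κ lam ν : Type} [Fintype κ] [Fintype lam] [Fintype ν] [DecidableEq ν]
  {X : Mf 4} {nc k : ℕ}

section rb
variable {b : Bg X.I X.M κ lam ν nc} {g : Gm X κ lam Bool} {j : Fin nc} {Ξ : R4 → X.M}
  {η η' : R4 → Eu ν} {r r' : ℝ}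

theorem tst_lin (h : b.Tst Ξ η) (h' : b.Tst Ξ η') (r r' : ℝ) : b.Tst Ξ (r • η + r' • η') :=
  ⟨(h.sm.const_smul r).add (h'.sm.const_smul r'),
    (h.cpt.smul_left (f := fun _ => r)).add (h'.cpt.smul_left (f := fun _ => r')),
    fun y => by simp [h.pos, h'.pos]⟩

theorem tst_zero : b.Tst Ξ 0 := ⟨contDiff_const, .zero, fun _ => map_zero _⟩

theorem rb_mono (h : RB b g j η r) (e : |r| ≤ r') : RB b g j η r' := by
  have k : r ^ 2 ≤ r' ^ 2 := sq_le_sq.2 (e.trans (le_abs_self _))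
  have q := fun {N : Type} [NormedAddCommGroup N] [NormedSpace ℝ N] (u : X.M → N) => q0_nn (g := g) u
  exact ⟨fun a u h1 h2 => (h.bd a u h1 h2).trans (mul_le_mul_of_nonneg_right k (q _)),
    fun a a' u δ h1 h2 h3 h4 => (h.sup a a' u δ h1 h2 h3 h4).trans (by have := q u; gcongr),
    fun a a' u δ h1 h2 h3 h4 => (h.l2 a a' u δ h1 h2 h3 h4).trans
      (by have := q (vc (a - a')); gcongr)⟩

theorem rb_sum (hA : Alg b g) {W : Type} (t : Finset W) {η : W → R4 → Eu ν} {r : W → ℝ}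
    (h : ∀ v, b.Tst (b.ct j).Ξ (η v) ∧ RB b g j (η v) (r v)) :
    b.Tst (b.ct j).Ξ (∑ v ∈ t, η v) ∧ RB b g j (∑ v ∈ t, η v) (∑ v ∈ t, |r v|) := by
  classical
  induction t using Finset.induction_on with
  | empty =>
    have z : ∀ c, b.lη j 0 c = 0 := fun c => by
      simp [Bg.lη, hm, show (⟨0, 0⟩ : ℂ) = 0 from rfl]
    exact ⟨tst_zero, fun _ _ _ _ => by simp [z], fun _ _ _ _ _ _ _ _ => by simp [z],
      fun _ _ _ _ _ _ _ _ => by simp [z]⟩
  | insert v t hv ih =>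
    simp only [Finset.sum_insert hv]
    have T : b.Tst (b.ct j).Ξ (η v + ∑ v ∈ t, η v) := by simpa using tst_lin (h v).1 ih.1 1 1
    have e : ∀ {a u}, S1 b a → Sm X.I u → b.lη j (η v + ∑ v ∈ t, η v) ⟨a, u⟩ =
        b.lη j (η v) ⟨a, u⟩ + b.lη j (∑ v ∈ t, η v) ⟨a, u⟩ := fun h1 h2 => by
      rw [← sub_eq_iff_eq_add, ← hA.lη j _ _ _ _ T ih.1 h1 h2, add_sub_cancel_right]
    have k := rb_mono (h v).2 le_rfl
    have s0 : 0 ≤ ∑ v ∈ t, |r v| := Finset.sum_nonneg fun _ _ => abs_nonneg _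
    refine ⟨T, fun a u h1 h2 => ?_, fun a a' u δ h1 h2 h3 h4 => ?_, fun a a' u δ h1 h2 h3 h4 => ?_⟩
    · rw [e h1 h2]
      exact sq_add_le (abs_nonneg _) s0 (q0_nn u) (k.bd a u h1 h2) (ih.2.bd a u h1 h2)
    · rw [e h1 h3, e h2 h3, add_sub_add_comm, mul_assoc]
      exact sq_add_le (abs_nonneg _) s0 (mul_nonneg (sq_nonneg _) (q0_nn u))
        (mul_assoc _ _ (g.q0 u) ▸ k.sup a a' u δ h1 h2 h3 h4)
        (mul_assoc _ _ (g.q0 u) ▸ ih.2.sup a a' u δ h1 h2 h3 h4)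
    · rw [e h1 h3, e h2 h3, add_sub_add_comm, mul_assoc]
      exact sq_add_le (abs_nonneg _) s0 (mul_nonneg (sq_nonneg _) (q0_nn _))
        (mul_assoc _ _ (g.q0 (vc (a - a'))) ▸ k.l2 a a' u δ h1 h2 h3 h4)
        (mul_assoc _ _ (g.q0 (vc (a - a'))) ▸ ih.2.l2 a a' u δ h1 h2 h3 h4)

end rb

variable {e : Bool → En3 κ lam ν} {Z : Pz X nc e} {z : Two Z}

variable (z) in
/-- the difference of the averaged levels -/
def lam2 (c c' : Cfg X.M κ ν) (s : Bool) (t : ℝ) : ℝ := χ t * |lbt z s c t - lbt z s c' t|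

theorem ms_bd {s : Bool} (he : (e s).OK) (T : (e s).YT) : ∃ C, ∀ c x, ‖(z.K s).ms T c x‖ ≤ C ∧
    ∀ c', ‖(z.K s).ms T c x - (z.K s).ms T c' x‖ ≤ C * lam2 z c c' s (z.gm.ht s x) := by
  obtain ⟨A, hA⟩ := bd_cs T.sb (.of_support_subset_isCompact he.S T.S)
  obtain ⟨B, hB⟩ := (HasCompactSupport.of_compactSpace T.fo).exists_bound_of_continuous
    T.sf.continuous
  have A0 := hA.nonneg 1
  refine ⟨A 1 * B, fun c x => ?_⟩
  have h1 : ∀ r, ‖(θ (z.gm.ht s x) * r) • (z.K s).ext T.fo x‖ ≤ |r| * (χ (z.gm.ht s x) * B) := fun r => by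
    rw [norm_smul, Nd18.Nk.ext, norm_smul, show (z.K s).χ x = _ from chi_eq (g := z.gm) x, norm_mul,
      Real.norm_of_nonneg (θ_mem _).1, Real.norm_of_nonneg (smoothTransition.nonneg _)]
    exact mul_le_mul (mul_le_of_le_one_left (norm_nonneg _) (θ_mem _).2) (mul_le_mul_of_nonneg_left
      (hB _) (smoothTransition.nonneg _)) (mul_nonneg (smoothTransition.nonneg _) (norm_nonneg _))
      (abs_nonneg r)
  have B0 : 0 ≤ B := (norm_nonneg _).trans (hB ((z.K s).ψ.symm x).1)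
  have c0 := smoothTransition.nonneg (z.gm.ht s x)
  simp only [ms_eq, ← sub_smul, ← mul_sub]
  refine ⟨(h1 _).trans (mul_le_mul (hA.2 1 0 zero_le_one _)
    (mul_le_of_le_one_left B0 (smoothTransition.le_one _)) (by positivity) A0), fun c' =>
    (h1 _).trans ((mul_le_mul_of_nonneg_right (BD.lip hA _ _) (by positivity)).trans_eq ?_)⟩
  rw [lam2]; ring

theorem Q_lam (he : ∀ s, (e s).OK) (hg : z.gm.OK) (M : ℝ) {ε : ℝ} (hε : ε ∈ Ioc (0 : ℝ) 1) :
    ∃ C ≥ 0, ∀ c c', Z.bg.Adm c → Z.bg.Adm c' → Z.bg.F.CB 1 (vc c.a) M → Z.bg.F.CB 1 c.Φ M →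
      Z.bg.F.CB 1 (vc c'.a) M → Z.bg.F.CB 1 c'.Φ M → Continuous (z.gm.rd (lam2 z c c')) ∧
      z.gm.Fi (fun _ => ε) (z.gm.rd (lam2 z c c')) ∧ z.gm.Q (fun _ => ε) (z.gm.rd (lam2 z c c')) ≤
        C * (z.gm.Q (fun _ => ε) (vc (c.a - c'.a)) + z.gm.Q (fun _ => ε) (c.Φ - c'.Φ)) := by
  choose C C0 hC using fun s => lip_lbt (he s) hg M hε
  refine ⟨∑ s, (e s).D.F.μ.real univ * C s, Finset.sum_nonneg fun s _ =>
    mul_nonneg measureReal_nonneg (C0 s), fun c c' hc hc' a1 p1 a2 p2 => ?_⟩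
  have k := fun s {c} hc => ((kn_ok (sg_cases z.gm s)).cd
    (cont_cut (cont_L (z := z) (c := c) (he s) hc))).continuous
  have c1 : ∀ s, Continuous (lam2 z c c' s) := fun s =>
    smoothTransition.continuous.mul ((k s hc).sub (k s hc')).abs
  refine ⟨continuous_finsetSum _ fun s _ => (c1 s).comp (cont_ht _ s), ?_⟩
  simp only [Finset.sum_mul, mul_assoc]
  refine Q_rd hg (fun s t ht => by rw [lam2, χ, smoothTransition.zero_of_nonpos ht, zero_mul])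
    fun s => ?_
  obtain ⟨i, h⟩ := hC s c c' hc hc' a1 p1 a2 p2
  have l : ∀ t, lam2 z c c' s t ^ 2 * exp (-(2 * ε) * t) ≤
      (lbt z s c t - lbt z s c' t) ^ 2 * exp (-(2 * ε) * t) := fun t => by
    rw [lam2, mul_pow, sq_abs]
    exact mul_le_mul_of_nonneg_right (mul_le_of_le_one_left (sq_nonneg _) (pow_le_one₀
      (smoothTransition.nonneg t) (smoothTransition.le_one t))) (exp_pos _).le
  have p : ∀ t, 0 ≤ lam2 z c c' s t ^ 2 * exp (-(2 * ε) * t) := fun t => by positivity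
  have i' := i.mono' (((c1 s).fun_pow 2).mul (show Continuous fun σ => exp (-(2 * ε) * σ) by
    fun_prop)).aestronglyMeasurable (.of_forall fun t => (Real.norm_of_nonneg (p t)).trans_le (l t))
  exact ⟨i'.integrableOn, (setIntegral_le_integral i' (.of_forall p)).trans
    ((integral_mono i' i l).trans h)⟩

variable {ϖ : Fin k → X.M → F2 κ} {φ : (Fin k → ℝ) → Fin k → ℝ} {Dm : Set (Fin k → ℝ)} {w : ℝ}
  {β : Bool → ℝ → ℝ} {W : Type} (L : z.Lv ϖ φ Dm w β W) {t : Fin k → ℝ}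

/-- the necks of the level -/
def zl : Two (Z.re w β L.S L.ψ) :=
  ⟨fun s => (z.K s).re w (β s) (L.S s) (L.ψ s), fun s => by simp [Pz.re, z.hK], z.o, z.hp, z.hq⟩

/-- the terms on the necks -/
def mz (v : W) (c : Cfg X.M κ ν) (s : Bool) (x : X.M) : F2 κ :=
  (L.yt v s).elim 0 fun T => ((zl L).K s).ms T c x

theorem tm_eq (ht : t ∈ Dm) (v : W) (c : Cfg X.M κ ν) (x : X.M) :
    (L.P t).tm v c x = (L.P t).fo v x + ∑ s, mz L v c s x := by
  refine congrArg _ (Finset.sum_congr rfl fun s _ => ?_)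
  obtain ⟨K, h1, h2⟩ := L.ng t ht s
  have h3 : K.ng = ((zl L).K s).ng := h2
  rw [Option.mem_def.1 h1, Option.elim_some]
  refine Pb50.elim_congr fun T _ => ?_
  simp only [Nk.ms, Nk.pb, Nd18.Nk.ext, Nd18.Nk.χ, Nd18.Nk.cut, Pb50.ng_ψ h3, Pb50.ng_tm h3,
    Pb50.ng_p h3, Pb50.ng_q h3]

theorem tau_eq (h : z.OK ϖ) (q : W →₀ ℝ) (t : Fin k → ℝ) (c : Cfg X.M κ ν) :
    L.tau q t c = fun x => ∑ v ∈ q.support, q v • (L.P t).tm v c x := funext fun x => by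
  refine (congrArg (· + _) (Finset.sum_eq_zero fun s _ => Pb50.elim_zero fun K _ => ?_)).trans
    (zero_add _)
  refine smul_eq_zero_of_left (neg_eq_zero.2 ?_) _
  exact (congrArg (deriv · _) (h.en s).f).trans (deriv_const _ _)

theorem tm_bd (v : W) : ∃ C, ∀ t ∈ Dm, ∀ c x, ‖(L.P t).tm v c x‖ ≤ C ∧ ∀ t' ∈ Dm, ∀ c',
    ‖(L.P t).tm v c x - (L.P t').tm v c' x‖ ≤
      C * (‖‖t - t'‖‖ + ‖z.gm.rd (lam2 (zl L) c c') x‖) := by
  obtain ⟨⟨A, hA⟩, ⟨B, hB⟩⟩ := And.intro ((L.fo v).1 0) (L.fo v).2.2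
  have l0 : ∀ c c' s r, 0 ≤ lam2 (zl L) c c' s r := fun c c' s r =>
    mul_nonneg (smoothTransition.nonneg _) (abs_nonneg _)
  have : ∀ s, ∃ C ≥ 0, ∀ c x, ‖mz L v c s x‖ ≤ C ∧
      ∀ c', ‖mz L v c s x - mz L v c' s x‖ ≤ C * lam2 (zl L) c c' s (z.gm.ht s x) := fun s => by
    simp only [mz]
    cases L.yt v s with
    | none => exact ⟨0, le_rfl, by simp⟩
    | some T =>
      obtain ⟨C, hC⟩ := ms_bd (z := zl L) (L.gok s).ok T
      exact ⟨|C|, abs_nonneg C, fun c x => ⟨(hC c x).1.trans (le_abs_self C), fun c' =>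
        ((hC c x).2 c').trans (mul_le_mul_of_nonneg_right (le_abs_self C) (l0 _ _ _ _))⟩⟩
  choose C C0 hC using this
  have S0 : 0 ≤ ∑ s, C s := Finset.sum_nonneg fun s _ => C0 s
  refine ⟨|A| + |B| + ∑ s, C s, fun t ht c x => ⟨?_, fun t' ht' c' => ?_⟩⟩
  · rw [tm_eq L ht]
    refine (norm_add_le _ _).trans (add_le_add (((CB_bound (hA t ht) x).trans (le_abs_self A)).trans
      (le_add_of_nonneg_right (abs_nonneg B))) (norm_sum_le_of_le _ fun s _ => (hC s c x).1))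
  · have r0 : 0 ≤ z.gm.rd (lam2 (zl L) c c') x := Finset.sum_nonneg fun s _ => l0 _ _ _ _
    rw [tm_eq L ht, tm_eq L ht', add_sub_add_comm, ← Finset.sum_sub_distrib, norm_norm,
      Real.norm_of_nonneg r0, mul_add]
    refine (norm_add_le _ _).trans (add_le_add ((hB t ht t' ht' x).trans (mul_le_mul_of_nonneg_right
      (by linarith [abs_nonneg A, le_abs_self B]) (norm_nonneg _))) ((norm_sum_le_of_le _ fun s _ =>
        ((hC s c x).2 c').trans (mul_le_mul_of_nonneg_left (Finset.single_le_sum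
          (f := fun s => lam2 (zl L) c c' s (z.gm.ht s x)) (fun _ _ => l0 _ _ _ _)
          (Finset.mem_univ s)) (C0 s))).trans ?_))
    rw [← Finset.sum_mul]
    exact mul_le_mul_of_nonneg_right (by linarith [abs_nonneg A, abs_nonneg B]) r0

theorem tm_cb (hg : z.gm.OK) (M : ℝ) (v : W) : ∃ C, ∀ t ∈ Dm, ∀ c : Cfg X.M κ ν, S1 Z.bg c.a →
    Sc Z.bg.pp c.Φ → z.gm.Ul 1 (vc c.a) M → z.gm.Ul 1 c.Φ M → Z.bg.F.CBs ((L.P t).tm v c) C := by
  choose A hA using (L.fo v).1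
  have : ∀ s, ∃ C, ∀ c : Cfg X.M κ ν, S1 Z.bg c.a → Sc Z.bg.pp c.Φ → z.gm.Ul 1 (vc c.a) M →
      z.gm.Ul 1 c.Φ M → Z.bg.F.CBs (fun x => mz L v c s x) C := fun s => by
    simp only [mz]
    cases L.yt v s with
    | none => exact ⟨_, fun _ _ _ _ _ => ⟨contMDiff_const, fun j => CB_const j 0⟩⟩
    | some T =>
      exact (cb_ms (z := zl L) (L.gok s).ok hg T M).imp fun _ H _ h1 h2 => H _ ⟨h1.1, h2.1, h1.2, h2.2⟩
  choose C hC using this
  refine ⟨fun j => A j + ∑ s, C s j, fun t ht c h1 h2 h3 h4 => ?_⟩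
  have s1 := fun s (_ : s ∈ Finset.univ) => (hC s c h1 h2 h3 h4).1
  rw [funext (tm_eq L ht v c)]
  exact ⟨((L.ok t ht).sf v).add (contMDiff_finsetSum s1), fun j => CB_add ((L.ok t ht).sf v)
    (contMDiff_finsetSum s1) (hA j t ht) (CB_sum _ s1 fun s _ => (hC s c h1 h2 h3 h4).2 j)⟩

theorem tau_cb (h : z.OK ϖ) (hg : z.gm.OK) (M : ℝ) : ∃ C : W → ℕ → ℝ, ∀ q : W →₀ ℝ, ∀ t ∈ Dm,
    ∀ c : Cfg X.M κ ν, S1 Z.bg c.a → Sc Z.bg.pp c.Φ → z.gm.Ul 1 (vc c.a) M → z.gm.Ul 1 c.Φ M →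
      Z.bg.F.CBs (L.tau q t c) fun j => ∑ v ∈ q.support, |q v| * |C v j| := by
  choose C hC using tm_cb L hg M
  refine ⟨C, fun q t ht c h1 h2 h3 h4 => ?_⟩
  have s1 := fun v (_ : v ∈ q.support) =>
    (show Sm X.I fun _ => q v from contMDiff_const).smul (hC v t ht c h1 h2 h3 h4).1
  rw [tau_eq L h]
  refine ⟨contMDiff_finsetSum s1, fun j => CB_sum _ s1 fun v _ => CB_mono (CB_clm (q v • .id ℝ _)
    (hC v t ht c h1 h2 h3 h4).1 (CB_abs ((hC v t ht c h1 h2 h3 h4).2 j))) ?_⟩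
  exact mul_le_mul_of_nonneg_right (ContinuousLinearMap.opNorm_le_bound _ (abs_nonneg _)
    fun u => (norm_smul (q v) u).le) (abs_nonneg _)

/-- **RAD-TRM** -/
theorem trmStmt (hA : AlgStmt κ lam ν) (hR : RbStmt κ lam ν) : TrmStmt κ lam ν := by
  intro X nc k e Z z ϖ φ Dm w β W L h
  obtain ⟨hg, al⟩ := hA X nc e Z z h.ok
  choose C hC using tm_bd L
  refine ⟨fun δ hδ => evq C hδ fun q hq t ht c x => ?_, fun δ hδ j M => ?_, fun q j M => ?_,
    fun δ hδ M ε hε => ?_, fun δ hδ => ?_⟩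
  · rw [tau_eq L h]
    exact (norm_sum_le_of_le _ fun v _ => (norm_smul _ _).trans_le
      (mul_le_mul_of_nonneg_left (hC v t ht c x).1 (abs_nonneg _))).trans hq
  · obtain ⟨B, hB⟩ := tau_cb L h hg M
    exact evq (fun v => |B v j|) hδ fun q hq t ht c h1 h2 h3 h4 =>
      CB_mono ((hB q t ht c h1 h2 h3 h4).2 j) hq
  · obtain ⟨B, hB⟩ := tau_cb L h hg M
    exact ⟨_, fun t ht c h1 h2 h3 h4 => (hB q t ht c h1 h2 h3 h4).2 j⟩
  · obtain ⟨A, A0, hQ⟩ := Q_lam (z := zl L) (fun s => (L.gok s).ok) hg M hε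
    obtain ⟨K, K0, hK⟩ := q_small (N := ℝ) hg hε.1
    obtain ⟨U1, u1⟩ := ul_cb (N := Fm (Option κ) ℝ) hg 1
    obtain ⟨U2, u2⟩ := ul_cb (N := Eu ν) hg 1
    obtain ⟨B, hB⟩ := tau_cb L h hg (max (U1 * M) (U2 * M))
    have d0 : 0 < δ / (2 * (2 * K + A + 1)) := by positivity
    refine evq C (sqrt_pos.2 d0) fun q hq t ht t' ht' c c' s1 s2 s3 s4 a1 p1 a2 p2 => ?_
    have cτ := fun {t} (ht : t ∈ Dm) {c : Cfg X.M κ ν} (s1 : S1 Z.bg c.a) (s2 : Sc Z.bg.pp c.Φ) a p =>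
      (hB q t ht c s1 s2 (ul_mono (u1 _ _ (Lw78.sm_fm s1.1) a) le_rfl (le_max_left _ _))
        (ul_mono (u2 _ _ s2.1 p) le_rfl (le_max_right _ _))).1.continuous
    obtain ⟨c1, f1, q1⟩ := hQ c c' ⟨s1.1, s2.1, s1.2, s2.2⟩ ⟨s3.1, s4.1, s3.2, s4.2⟩ a1 p1 a2 p2
    obtain ⟨f2, q2⟩ := hK (fun _ => ‖t - t'‖) 0 _ _ le_rfl continuous_const (fun _ _ => le_rfl)
      fun _ => le_rfl
    refine (q_le hg (c := √(δ / (2 * (2 * K + A + 1)))) continuous_const c1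
      ((cτ ht s1 s2 a1 p1).sub (cτ ht' s3 s4 a2 p2)) (fun x => ?_) f2 f1).2.trans ?_
    · simp only [tau_eq L h, Pi.sub_apply, ← Finset.sum_sub_distrib, ← smul_sub]
      refine (norm_sum_le_of_le _ fun v _ => (norm_smul _ _).trans_le (mul_le_mul_of_nonneg_left
        ((hC v t ht c x).2 t' ht' c') (abs_nonneg _))).trans ?_
      simp only [← mul_assoc, ← Finset.sum_mul]
      exact mul_le_mul_of_nonneg_right hq (by positivity)
    · rw [mul_zero, exp_zero, mul_one, norm_norm] at q2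
      have n1 := Q_nn (g := z.gm) (ϖ := fun _ => ε) (vc (c.a - c'.a))
      have n2 := Q_nn (g := z.gm) (ϖ := fun _ => ε) (c.Φ - c'.Φ)
      refine (mul_le_mul_of_nonneg_left ((add_le_add q2 q1).trans (show _ ≤ (2 * K + A + 1) *
        (z.gm.Q (fun _ => ε) (vc (c.a - c'.a)) + z.gm.Q (fun _ => ε) (c.Φ - c'.Φ) + ‖t - t'‖ ^ 2)
        from ?_)) (by positivity)).trans_eq ?_
      · change _ + A * (z.gm.Q _ _ + z.gm.Q _ _) ≤ _
        nlinarith [mul_nonneg K0 n1, mul_nonneg K0 n2, mul_nonneg A0 (sq_nonneg ‖t - t'‖),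
          sq_nonneg ‖t - t'‖]
      · rw [sq_sqrt d0.le]; field_simp
  · choose A R hη using L.η
    choose B hB using hR X nc k e Z z ϖ h
    have T : ∀ t ∈ Dm, ∀ v j, Z.bg.Tst (Z.bg.ct j).Ξ ((L.P t).η v j) := fun t ht v j => by
      have := (L.ok t ht).η v j
      rw [L.bg t ht] at this
      exact ⟨this.sm, this.cpt, this.pos⟩
    refine evq (fun v => ∑ j, |B j (R v j)| * |A v j|) hδ fun q hq t ht j => ?_
    have key : ∀ (η : W → R4 → Eu ν) (m : ℝ), 0 ≤ m → (∀ v, Z.bg.Tst (Z.bg.ct j).Ξ (η v)) →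
        (∀ v y, R v j < ‖y‖ → η v y = 0) → (∀ v y, ‖η v y‖ ≤ A v j * m) →
        Z.bg.Tst (Z.bg.ct j).Ξ (∑ v ∈ q.support, q v • η v) ∧
          RB Z.bg z.gm j (∑ v ∈ q.support, q v • η v) (δ * m) := fun η m m0 h1 h2 h3 => by
      have T1 : ∀ v, Z.bg.Tst (Z.bg.ct j).Ξ (q v • η v) := fun v => by
        simpa using tst_lin (h1 v) (h1 v) (q v) 0
      have R1 := fun v => (hB j (R v j) _ (|q v| * (A v j * m)) (T1 v)
        (fun y hy => by simp [h2 v y hy]) fun y => (norm_smul (q v) (η v y)).trans_le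
          (mul_le_mul_of_nonneg_left (h3 v y) (abs_nonneg _))).1
      refine (rb_sum al q.support fun v => ⟨T1 v, R1 v⟩).imp_right fun k => rb_mono k ?_
      rw [abs_of_nonneg (Finset.sum_nonneg fun _ _ => abs_nonneg _)]
      refine le_trans ?_ (mul_le_mul_of_nonneg_right hq m0)
      rw [Finset.sum_mul]
      refine Finset.sum_le_sum fun v _ => ?_
      rw [abs_mul, abs_mul, abs_mul, abs_abs, abs_of_nonneg m0, mul_left_comm, ← mul_assoc |B _ _|,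
        mul_assoc |q v|]
      gcongr
      exact Finset.single_le_sum (f := fun j => |B j (R v j)| * |A v j|)
        (fun _ _ => by positivity) (Finset.mem_univ j)
    have e1 : ∀ t, L.et q t j = ∑ v ∈ q.support, q v • (L.P t).η v j := fun t => funext fun y => by
      simp [Two.Lv.et, Finsupp.sum]
    have k1 := key _ 1 zero_le_one (T t ht · j) (fun v y => (hη v j t ht y).1)
      fun v y => (hη v j t ht y).2.1.trans_eq (mul_one _).symm
    rw [mul_one, ← e1] at k1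
    refine ⟨k1.1, k1.2, fun t' ht' => ?_⟩
    have k2 := (key (fun v => (L.P t).η v j - (L.P t').η v j) _ (norm_nonneg (t - t'))
      (fun v => by simpa [sub_eq_add_neg] using tst_lin (T t ht v j) (T t' ht' v j) 1 (-1))
      (fun v y hy => by simp [(hη v j t ht y).1 hy, (hη v j t' ht' y).1 hy])
      fun v y => (hη v j t ht y).2.2 t' ht').2
    simpa only [smul_sub, Finset.sum_sub_distrib, ← e1] using k2

end Crest.Agent.X212.Ulc97
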