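import Crest.Agent.X212.Hd82.Defs
import Crest.Agent.X212.Wrd81.Loc2
import Crest.Agent.X212.Pte3.Bas
import Crest.Agent.X212.Top36.Kap
import Crest.Agent.X212.Nk89.Frd

/-!
# Row 212, HD-CHX (helper97): from a good chart to the index of a standard configuration
-/

set_option autoImplicit false
set_option linter.unusedSectionVars false
noncomputable section
open scoped Manifold ContDiff Topology
open MeasureTheory Set Function Filter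

namespace Crest.Agent.X212.Ulc97.Chx
open An M Nd18 Mod61 Nk89 Cht98 Rf65 Pte3 Fk18 Add46 Eqv71 Wrd81
open An.Job (SolOn)

variable {Wi : Type} {X : Mf 4} {A κ lam : Type} [Fintype A] [Fintype κ] [Fintype lam]
  [DecidableEq lam] {M : Mark X A κ} {W : World M} {N : ML M lam} {Λ : Lns W N}
  {A' h : Type} [Fintype A'] [DecidableEq A'] [Fintype h] {r n : ℕ}
  {J : Job Wi Λ A' h r n} {c : M.Cl} {σ : Cel A'} {p : Prt A A' h} {δ : ℝ} (H : PG J c σ p)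
include H

section tr
variable {b b' : Bp J c} (o : J.Ov σ c b.s) (o' : J.Ov σ c b'.s) (e : ∀ a ∈ p.V, b.s a = b'.s a)

/-- two base parameters with the same live coordinates -/
def gp : GP (jBG b p.P) (jBG b' p.P) where
  φ := .ofSet _ H.cl.2
  U x i j := (J.B c).P i j x
  v := (J.B c).l
  g := LG.geq (φ := .ofSet _ H.cl.2) (H.pok.kt2 H.ok H.mem o o' e).toLG contMDiffOn_id
    (H.pok.kt2 H.ok H.mem o o' e).μ
  sub := subset_rfl
  sub' := subset_rfl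

theorem mk (i : EdP c p.P) : (gp H o o' e).Mk (X := jX J i.1.1) (J.K c i.1.1 _ _ (act b i.1))
    (J.K c i.1.1 _ _ (act b' i.1)) (!i.1.2) := ⟨0, 0, fun z hz =>
  have k := (J.K c i.1.1 _ _ (act b i.1)).mem_src.2 ((jE_ok H.ok b).ht i.1 le_rfl hz.2)
  ⟨H.ok.end_sub (act b i.1) H.pok.pc i.2 ((J.K c i.1.1 _ _ (act b i.1)).ψ.map_source k),
    by rw [add_zero]; exact ((H.ok.end_eq (act b i.1) (act b' i.1)).ψ k).symm,
    funext₂ fun a a' => (J.K c i.1.1 _ _ (act b i.1)).P a a' z k,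
    (J.K c i.1.1 _ _ (act b i.1)).l z k⟩⟩

theorem gl : (gp H o o' e).Gl (.refl _) :=
  ⟨rfl, rfl, fun i => ⟨_, _, _, _, rfl, rfl, mk H o o' e i⟩⟩

include o o' e in
/-- **transport** of a standard configuration with its index and its levels -/
theorem tr (L : IxL κ (lam ⊕ lam) 8) {f : Bool} (hf : p.P' = spO f p.P) (d0 : 0 < δ) (d1 : δ ≤ dl0)
    {γ : ∀ i : Ed c, (jX J i.1).C} (hγ : ∀ i ∈ EdP c p.P, Fz κ (lam ⊕ lam) 8 (jX J i.1) f (γ i) δ)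
    {x x₀ : C0 (W.Z c) κ (lam ⊕ lam)} (a₀ : x₀.Adm (J.B c) (J.G c b'.s)) {d : ℤ}
    (s : (jBG b p.P).Std x fun i => γ i.1) (l : (jBG b p.P).Ix (W.un c p.P') x 8 δ d) :
    ∃ x', (jBG b' p.P).Std x' (fun i => γ i.1) ∧ (jBG b' p.P).Ix (W.un c p.P') x' 8 δ d ∧
      ∀ π ∈ p.P, (jBG b' p.P).kap (W.pc c π) x' = (jBG b p.P).kap (W.pc c π) x := by
  have ok := fun (b : Bp J c) P' hs => jBG_ok (P' := P') H.ok H.pok.pc hs b
  have ok0 : ∀ b : Bp J c, (jBG b p.P).OK ∅ := fun b =>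
    (biUnion_empty _ : W.un c ∅ = ∅) ▸ ok b ∅ (empty_subset _)
  obtain ⟨x', u, a', ce, -⟩ := L.trp _ _ _ _ (gp H o o' e) _ x x₀ (ok0 b) (ok0 b') (gl H o o' e) s.1 a₀
  have s' : (jBG b' p.P).Std x' fun i => γ i.1 := ⟨a', fun i =>
    (L.std.1 _ _ _ _ (gp H o o' e) _ _ _ _ x x' u 1 _ (jX_ok H.ok _) (ok0 b) (ok0 b') (mk H o o' e i)
      ⟨0, (jE_ok H.ok b).ht i.1 le_rfl, (jE_ok H.ok b').ht i.1 le_rfl⟩ s.1 a' ce).1 (s.2 i)⟩
  obtain ⟨d', l'⟩ := L.rz _ _ _ x' _ δ (ok b' _ H.pok.sub) s' d0 d1 fun i => ⟨f, 0, fun z hz => by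
    rw [hf]
    cases f
    · exact iff_of_false (fun k => (biUnion_empty _ : W.un c ∅ = ∅).le k) nofun
    · exact iff_of_true (H.ok.end_sub (act b' i.1) H.pok.pc i.2
        ((jE_ok H.ok b').U_sub i.1 le_rfl hz)) rfl, hγ _ i.2⟩
  refine ⟨x', s', L.geq _ _ _ _ (gp H o o' e) _ _ _ x x' u 1 δ d d' (ok b _ H.pok.sub)
    (ok b' _ H.pok.sub) (gl H o o' e) (fun _ _ => Iff.rfl) s.1 a' ce l l' ▸ l', fun π hπ => ?_⟩
  have k := singleton_subset_iff.2 hπ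
  rw [← un_one]
  exact ((L.top.1 _ _ _ _ (gp H o o' e) _ _ _ (ok b _ k) (ok b' _ k) (gl H o o' e)
    fun _ _ => Iff.rfl).2.2 x x' u 1 s.1 a' ce).2.symm

end tr

variable {a : A} {q : Wi →₀ ℝ} {y : J.Obc c} {d : ℤ} {b : Bp J c} {E : EC b p Empty δ}
  {x : Pnt E.o r} {ψ : E.K} (S : SolOn p σ q y) (ca : CA a σ q y d E x ψ)

/-- the base parameter of the point -/
@[reducible] def bx : Bp J c :=
  ⟨b.θ p Empty x.t, H.ok.memBr H.mem (H.ov ca.ga.ov x.ht), H.ok.memO H.mem (H.ov ca.ga.ov x.ht)⟩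

/-- the family of the chart -/
def gr : (jBG (bx H ca) p.P).GR (W.un c p.P') δ :=
  EB.gr (e := jE (bx H ca)) (K := fun i => J.K c i.1 _ _ (act b i))
    (endIn_J H.ok b.br b.O (sm_θ b) H.cl
    (Job.isClopen_un fun π k => H.pok.pc π (H.pok.sub k)) (un_sub H.pok)) ca.ga.ok.d0 ca.ga.ok.d1
    (jE_ok H.ok _).X (jE_ls H.ok _ H.pok.pc)
    (fun i => (H.ok.end_eq (act (bx H ca) i) (act b i)).tgt) x.t x.ht rfl fun i _ hz =>
      (H.ok.end_eq (act (bx H ca) i) (act b i)).ψ ((J.K c i.1 _ _ (act (bx H ca) i)).mem_src.2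
        ((jE_ok H.ok _).ht i le_rfl hz.2))

theorem ch : (gr H ca).Ch 8 E.o E.R (EC.tot b p Empty δ q) :=
  ⟨⟨ca.ga.ok.R5, ca.ga.ok.lit⟩, ca.sm.aff.tot (gr H ca).X.ok ca.sm.sm q,
    fun i k k0 => ca.fr q x.t x.ht i.1 i.2 k k0⟩

include S in
/-- the standard configuration of the chart -/
theorem base (hβ : ∀ i ∈ EdP c p.P, (J.xs i.1).D.Adm (y.β i.1 i.2)) :
    ∃ x₀, (jBG (bx H ca) p.P).Std x₀ (fun i => y.β i.1.1 i.1.2) ∧
      (jBG (bx H ca) p.P).Ix (W.un c p.P') x₀ 8 δ d ∧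
      ∀ π ∈ p.P, (jBG (bx H ca) p.P).kap (W.pc c π) x₀ = y.kap (W.pc c π) := by
  obtain ⟨u, ζ, e, -⟩ := ca.rep.e
  have o := H.ov ca.ga.ov x.ht
  have ev := θ_eq (b := b) ca.rep.s
  have g := H.pok.kt2 H.ok H.mem S.ov o ev
  have F := (gr H ca).X.ok
  have a₀ := ad0 S.adm
  have a' := x.ad0 F
  have e' := ceq_on (F := (J.G c (b.θ p Empty x.t)).F) e fun z hz a =>
    (H.pok.fr_eq H.ok H.mem S.ov o ev z hz a).1.symm
  obtain ⟨x₀, k1, k2, k3⟩ := Ixc61.chStmt (by norm_num) (fun _ _ _ _ _ X => X.fred) Top36.kapStmt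
    _ _ δ (gr H ca) E.o E.R _ _ _ _ x x.cfg (fun i => y.β i.1.1 i.1.2) d
    (jBG_ok H.ok H.pok.pc H.pok.sub _) (ch H ca) rfl ⟨_, _, ceq_refl F.B (F.G _ x.ht) a' H.cl.2⟩
    ca.idx (fun i => ⟨hβ _ i.2, y.ζ i.1.1 i.1.2 * ζ⁻¹, by
      have h1 := H.ok.act_end H.mem S.ov (act b i.1)
      have := (H.ok.end_eq h1 (act (bx H ca) i.1)).lim_pre g.hB g.hG'
        (H.pok.agr H.ok H.mem S.ov o ev) H.cl (H.ok.end_sub h1 H.pok.pc i.2) (hβ _ i.2) a' a₀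
        (ceq_symm2 g.toLG H.cl.2 a₀ a' e') (S.lim _ _ h1 i.2)
      obtain ⟨⟨_, _ | _⟩, _⟩ := i <;> exact this⟩) a'.adm0 fun z hz => x.off F z hz.2
  refine ⟨x₀, k1, k2, fun π hπ => ?_⟩
  have cl := Cyl58.isClopen_pc W.toCaps (H.pok.pc π hπ)
  have sb : W.pc c π ⊆ W.un c p.P := fun z hz => mem_un.2 ⟨π, hπ, hz⟩
  refine (k3 _ cl sb).trans ((setIntegral_congr_fun cl.2.measurableSet fun z hz =>
    (g.toLG.of_ceq a₀ a' e').kd (sb hz)).trans ?_)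
  exact congrArg (fun μ => ∫ z, y.kd z ∂μ) ((Measure.restrict_restrict_of_subset sb).symm.trans
    ((congrArg (Measure.restrict · (W.pc c π)) (H.pok.μ_eq H.ok H.mem S.ov o ev).symm).trans
      (Measure.restrict_restrict_of_subset sb)))

omit H in
variable (J c) in
/-- **LEAF CHX** -/
theorem chx (L : IxL κ (lam ⊕ lam) 8) : Hd82.ChxL J c := by
  rintro a σ p δ q y d b f γ H S ⟨b', E, x, ψ, ca⟩ hb hf hγ
  have hβ : ∀ i ∈ EdP c p.P, (J.xs i.1).D.Adm (y.β i.1 i.2) := fun i hi =>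
    ⟨(S.crit _ i.1.2 _ hi).sol.toAdm, (S.crit _ i.1.2 _ hi).tmp⟩
  obtain ⟨x₀, k1, k2, k3⟩ := base H S ca hβ
  have ok0 : (jBG (bx H ca) p.P).OK ∅ :=
    (biUnion_empty _ : W.un c ∅ = ∅) ▸ jBG_ok H.ok H.pok.pc (empty_subset _) _
  obtain ⟨x', l1, l2, l3⟩ := tr H (b := bx H ca) (b' := b) (H.ov ca.ga.ov x.ht) (hb ▸ S.ov)
    (fun a k => (θ_eq ca.rep.s a k).symm.trans (congrFun hb a).symm) L hf ca.ga.ok.d0 ca.ga.ok.d1
    (fun i hi => (hγ i hi).2.2) (x₀ := noz y.x)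
    (hb ▸ ⟨S.adm.ok, S.adm.conn, S.adm.sm, S.adm.pos, .inl rfl⟩)
    ⟨k1.1, fun i => L.std.2 _ (jBG (bx H ca) p.P) _ _ _ _ (jX_ok H.ok _) ok0 k1.1 (k1.2 i)
      (hγ _ i.2).1 (hγ _ i.2).2.1⟩ k2
  refine ⟨x', l1, ?_, fun π hπ => (l3 π hπ).trans (k3 π hπ)⟩
  rwa [hf, show W.un c (spO f p.P) = spO f (W.un c p.P) by
    cases f; exacts [biUnion_empty _, rfl]] at l2

omit H in
/-- **LEAF CHX** for all jobs -/
theorem chxA (L : IxL κ (lam ⊕ lam) 8) : Hd82.AllJ κ lam Hd82.ChxL :=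
  fun _ _ _ _ _ _ _ _ _ _ _ _ _ _ _ J c => chx J c L

end Crest.Agent.X212.Ulc97.Chx
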