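import Crest.Agent.X212.Ulc97.Geo

/-!
# Row 212, RAD-UL (helper97): local norms, weighted norms
-/

set_option autoImplicit false
set_option linter.unusedSectionVars false
noncomputable section
open scoped Manifold ContDiff Topology InnerProductSpace NNReal
open MeasureTheory Set Function Filter Real

namespace Crest.Agent.X212.Ulc97
open An Cyf70 Ell97 Sob92 Rad94
open Nd18 (YD BD)
open M (Mf pm)

section gen
variable {E : Type} [NormedAddCommGroup E] [NormedSpace ℝ E] [FiniteDimensional ℝ E]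
  [MeasurableSpace E] [BorelSpace E]
  {HM : Type} [TopologicalSpace HM] {I : ModelWithCorners ℝ E HM}
  {M : Type} [TopologicalSpace M] [ChartedSpace HM M] [IsManifold I ∞ M]
  [MeasurableSpace M] {ι : Type} [Fintype ι] [T2Space M] [BorelSpace M] [SecondCountableTopology M]
  {N : Type} [NormedAddCommGroup N] [NormedSpace ℝ N] {F : Pre I M ι} {S T : Set M} {k : ℕ}
  {u v : M → N} {r : ℝ}

theorem nS_le : nS F S k u ≤ r ↔ 0 ≤ r ∧ NS F S k u ≤ r ^ 2 := Real.sqrt_le_iff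

theorem nS_sq : nS F S k u ^ 2 = NS F S k u := Real.sq_sqrt (n2_nonneg k u)

theorem FS0 (hS : IsCompact S) (hu : Continuous u) : FS F S 0 u :=
  (memLp_two_iff_integrable_sq_norm hu.aestronglyMeasurable).2
    ((hu.norm.pow 2).continuousOn.integrableOn_compact hS)

theorem NS_zero (k : ℕ) : NS F S k (0 : M → N) = 0 := by
  induction k with
  | zero => simp [n2]
  | succ k ih => simp [n2, dv_zero, ih]

theorem NS_one (k : ℕ) : NS F S k (fun _ => (1 : ℝ)) = F.μ.real S := by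
  cases k <;> simp [n2, dv_const, NS_zero]

theorem NS_cover {α : Type} [Fintype α] {R : α → Set M} (hT : FS F T k u) (hR : ∀ a, FS F (R a) k u)
    (h : S ⊆ T ∪ ⋃ a, R a) : NS F S k u ≤ NS F T k u + ∑ a, NS F (R a) k u := by
  classical
  have : ∀ t : Finset α, FS F (T ∪ ⋃ a ∈ t, R a) k u ∧
      NS F (T ∪ ⋃ a ∈ t, R a) k u ≤ NS F T k u + ∑ a ∈ t, NS F (R a) k u := by
    refine Finset.induction (by simpa using hT) fun a t ha ih => ?_
    rw [Finset.set_biUnion_insert, union_left_comm, Finset.sum_insert ha]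
    exact ⟨(NS_union_le (hR a) ih.1).1, (NS_union_le (hR a) ih.1).2.trans (by linarith [ih.2])⟩
  exact (NS_mono (this Finset.univ).1 (by simpa using h)).trans (this _).2

theorem NS_le_of_zero (hS : IsCompact S) (hT : IsCompact T) (hu : Sm I u)
    (h : ∀ x ∈ S, x ∉ T → u =ᶠ[𝓝 x] 0) : NS F S k u ≤ NS F T k u := by
  have h1 := NS_union_le (FS_of_compact (F := F) hT k hu) (ML_mono_measure
    (Measure.restrict_mono (sdiff_subset (t := T)) le_rfl) k (FS_of_compact (F := F) hS k hu))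
  rw [NS_congr (hS.measurableSet.diff hT.measurableSet) k fun x hx => h x hx.1 hx.2, NS_zero,
    add_zero] at h1
  exact (NS_mono h1.1 fun x hx => or_iff_not_imp_left.2 fun e => ⟨hx, e⟩).trans h1.2

theorem NS_add_le {t : ℝ} (ht : 0 < t) (hS : IsCompact S) (k : ℕ) : ∀ {u v : M → N}, Sm I u →
    Sm I v → NS F S k (u + v) ≤ (1 + t) * NS F S k u + (1 + t⁻¹) * NS F S k v := by
  have h0 : ∀ {u v : M → N}, Sm I u → Sm I v →
      NS F S 0 (u + v) ≤ (1 + t) * NS F S 0 u + (1 + t⁻¹) * NS F S 0 v := fun {u v} hu hv => by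
    have i1 := (int_sq (FS0 (F := F) hS hu.continuous)).const_mul (1 + t)
    have i2 := (int_sq (FS0 (F := F) hS hv.continuous)).const_mul (1 + t⁻¹)
    simp only [n2]
    rw [← integral_const_mul, ← integral_const_mul, ← integral_add i1 i2]
    refine integral_mono (int_sq (FS0 hS (hu.add hv).continuous)) (i1.add i2) fun x =>
      (pow_le_pow_left₀ (norm_nonneg _) (norm_add_le (u x) (v x)) 2).trans ?_
    have : 0 ≤ (t * ‖u x‖ - ‖v x‖) ^ 2 / t := by positivity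
    rw [show (t * ‖u x‖ - ‖v x‖) ^ 2 / t = (1 + t) * ‖u x‖ ^ 2 + (1 + t⁻¹) * ‖v x‖ ^ 2 -
      (‖u x‖ + ‖v x‖) ^ 2 by field_simp; ring] at this
    exact sub_nonneg.1 this
  induction k with
  | zero => exact h0
  | succ k ih =>
    intro u v hu hv
    have h1 := Finset.sum_le_sum fun a (_ : a ∈ Finset.univ) => ih (F.sm_D hu a) (F.sm_D hv a)
    simp only [← F.D_add hu hv, Finset.sum_add_distrib, ← Finset.mul_sum] at h1
    have h2 := h0 hu hv
    simp only [NS, n2_succ, ← Pre.D_def] at h1 h2 ⊢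
    linarith

/-- Minkowski -/
theorem nS_add_le (hS : IsCompact S) (hu : Sm I u) (hv : Sm I v) :
    nS F S k (u + v) ≤ nS F S k u + nS F S k v := by
  refine le_of_forall_pos_le_add fun ε hε => ?_
  have a := nS_nonneg (F := F) (S := S) (k := k) u
  have b := nS_nonneg (F := F) (S := S) (k := k) v
  have h := NS_add_le (F := F) (t := (nS F S k v + ε / 2) / (nS F S k u + ε / 2)) (by positivity)
    hS k hu hv
  refine nS_le.2 ⟨by positivity, h.trans ?_⟩
  rw [← nS_sq, ← nS_sq]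
  generalize nS F S k u = x, nS F S k v = y at *
  calc _ ≤ (1 + (y + ε / 2) / (x + ε / 2)) * (x + ε / 2) ^ 2 +
        (1 + ((y + ε / 2) / (x + ε / 2))⁻¹) * (y + ε / 2) ^ 2 := by gcongr <;> linarith
    _ = _ := by field_simp; ring

theorem nS_smul_le (hS : IsCompact S) (hu : Sm I u) (c : ℝ) :
    nS F S k (c • u) ≤ |c| * nS F S k u := by
  refine nS_le.2 ⟨mul_nonneg (abs_nonneg c) (nS_nonneg u), (n2_clm_le F.sm
    (c • ContinuousLinearMap.id ℝ N) k hu (FS_of_compact hS k hu)).trans ?_⟩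
  rw [mul_pow, nS_sq]
  refine mul_le_mul_of_nonneg_right (pow_le_pow_left₀ (norm_nonneg _) ?_ 2) (n2_nonneg k u)
  exact ContinuousLinearMap.opNorm_le_bound _ (abs_nonneg c) fun x => by simp [norm_smul]

theorem Dw_congr (w : List ι) : ∀ {u v : M → N} {x : M}, u =ᶠ[𝓝 x] v → F.Dw w u x = F.Dw w v x := by
  induction w with
  | nil => exact fun h => h.self_of_nhds
  | cons a w ih => exact fun h => ih (h.eventuallyEq_nhds.mono fun _ => dv_congr)

theorem Dw_concat (w : List ι) (a : ι) : ∀ u : M → N, F.Dw (w ++ [a]) u = F.D a (F.Dw w u) := by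
  induction w with
  | nil => exact fun _ => rfl
  | cons b w ih => exact fun u => ih _

end gen

theorem geo_int {φ : ℝ → ℝ} {R a : ℝ} (ha : 0 < a) (hc : ContinuousOn φ (Ici 0))
    (h0 : ∀ t, 0 ≤ φ t) (h : ∀ τ, 0 ≤ τ → ∫ t in Icc τ (τ + 1), φ t ≤ R) :
    IntegrableOn (fun t => φ t * exp (-a * t)) (Ioi 0) ∧
      ∫ t in Ioi 0, φ t * exp (-a * t) ≤ R * (1 - exp (-a))⁻¹ := by
  have hR : 0 ≤ R := (integral_nonneg h0).trans (h 0 le_rfl)
  have c1 : ContinuousOn (fun t => φ t * exp (-a * t)) (Ici 0) := hc.mul (by fun_prop)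
  have i1 : ∀ {ψ : ℝ → ℝ} {p q : ℝ}, ContinuousOn ψ (Ici 0) → 0 ≤ p → IntegrableOn ψ (Icc p q) :=
    fun h hp => (h.mono fun _ e => hp.trans e.1).integrableOn_compact isCompact_Icc
  have key : ∀ n : ℕ, ∫ t in (0 : ℝ)..n, φ t * exp (-a * t) ≤ R * (1 - exp (-a))⁻¹ := fun n => by
    have h1 := intervalIntegral.sum_integral_adjacent_intervals (μ := volume) (n := n)
      (f := fun t => φ t * exp (-a * t)) (a := fun k => (k : ℝ)) fun k _ =>
      (intervalIntegrable_iff_integrableOn_Icc_of_le (by simp)).2 (i1 c1 k.cast_nonneg)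
    have e1 : exp (-a) < 1 := exp_lt_one_iff.2 (by linarith)
    rw [← Nat.cast_zero, ← h1, ← tsum_geometric_of_lt_one (exp_pos _).le e1]
    refine le_trans ?_ (mul_le_mul_of_nonneg_left ((summable_geometric_of_lt_one (exp_pos _).le
      e1).sum_le_tsum (Finset.range n) fun _ _ => by positivity) hR)
    rw [Finset.mul_sum]
    refine Finset.sum_le_sum fun k _ => ?_
    rw [intervalIntegral.integral_of_le (by simp), ← integral_Icc_eq_integral_Ioc, Nat.cast_succ]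
    refine le_trans ?_ (mul_le_mul_of_nonneg_right (h k k.cast_nonneg) (by positivity))
    rw [← integral_mul_const]
    refine setIntegral_mono_on (i1 c1 k.cast_nonneg) ((i1 hc k.cast_nonneg).mul_const _)
      measurableSet_Icc fun t ht => mul_le_mul_of_nonneg_left ?_ (h0 t)
    rw [← exp_nat_mul]
    exact exp_le_exp.2 (by nlinarith [ht.1])
  have hi := integrableOn_Ioi_of_intervalIntegral_norm_bounded (l := atTop) (μ := volume) _ 0
    (fun n : ℕ => (i1 c1 le_rfl).mono_set Ioc_subset_Icc_self) tendsto_natCast_atTop_atTop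
    (.of_forall fun n => by
      simp only [Real.norm_of_nonneg (mul_nonneg (h0 _) (exp_pos _).le)]; exact key n)
  exact ⟨hi, le_of_tendsto' (intervalIntegral_tendsto_integral_Ioi 0 hi
    tendsto_natCast_atTop_atTop) key⟩

variable {κ lam A : Type} [Fintype κ] [Fintype lam] [Fintype A] {X : Mf 4}
  {N N' : Type} [NormedAddCommGroup N] [NormedSpace ℝ N] [NormedAddCommGroup N'] [NormedSpace ℝ N']
  {g : Gm X κ lam A} {s s' : A} {τ r : ℝ} {x : X.M} {u u' : X.M → N} {k : ℕ} {ϖ : A → ℝ}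

theorem contOn_n2 (hu : Continuous u) : ContinuousOn (g.n2 s u) (Ioi (-1)) :=
  contOn_sl (hu.norm.pow 2)

theorem NS0_Icc (h : -1 < τ) (hu : Continuous u) (b : ℝ) :
    NS g.F.toPre (g.ht s ⁻¹' Icc τ b) 0 u = ∫ t in Icc τ b, g.n2 s u t := int_Icc h (hu.norm.pow 2) b

variable (g) in
/-- the pieces -/
def S0 : Option (A × ℝ≥0) → Set X.M
  | none => g.cor 1
  | some p => g.slab p.1 p.2

theorem ul_iff : g.Ul k u r ↔ ∀ j, nS g.F.toPre (S0 g j) k u ≤ r := by
  refine ⟨fun h j => ?_, fun h => ⟨h none, fun s τ hτ => h (some (s, ⟨τ, hτ⟩))⟩⟩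
  cases j with
  | none => exact h.1
  | some p => exact h.2 _ _ p.2.2

theorem nn_lt (t : ℝ≥0) : (-1 : ℝ) < t := neg_one_lt_zero.trans_le t.2

theorem cpt_S0 (hg : g.OK) : ∀ j, IsCompact (S0 g j)
  | none => hg.cpt 1
  | some p => isCompact_slab (nn_lt p.2)

theorem exists_S0 (x : X.M) : ∃ j, x ∈ S0 g j := by
  by_cases h : x ∈ g.cor 1
  · exact ⟨none, h⟩
  · obtain ⟨s, hs⟩ := not_forall.1 h
    exact ⟨some (s, ⟨g.ht s x, by linarith [not_le.1 hs]⟩), le_rfl, le_add_of_nonneg_right zero_le_one⟩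

theorem ul_nn (h : g.Ul k u r) : 0 ≤ r := (nS_nonneg u).trans h.1

theorem ul_NS (h : g.Ul k u r) (j : Option (A × ℝ≥0)) : NS g.F.toPre (S0 g j) k u ≤ r ^ 2 :=
  (nS_le.1 (ul_iff.1 h j)).2

theorem ul_of (h0 : 0 ≤ r) (h : ∀ j, NS g.F.toPre (S0 g j) k u ≤ r ^ 2) : g.Ul k u r :=
  ul_iff.2 fun j => nS_le.2 ⟨h0, h j⟩

theorem ul_mono {j : ℕ} {r' : ℝ} (h : g.Ul k u r) (hj : j ≤ k) (hr : r ≤ r') : g.Ul j u r' :=
  ul_iff.2 fun i => (nS_mono hj u).trans ((ul_iff.1 h i).trans hr)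

theorem ul_add (hg : g.OK) {r' : ℝ} (hu : Sm X.I u) (hu' : Sm X.I u') (h : g.Ul k u r)
    (h' : g.Ul k u' r') : g.Ul k (u + u') (r + r') := ul_iff.2 fun j =>
  (nS_add_le (cpt_S0 hg j) hu hu').trans (add_le_add (ul_iff.1 h j) (ul_iff.1 h' j))

theorem ul_smul (hg : g.OK) (hu : Sm X.I u) (h : g.Ul k u r) (c : ℝ) :
    g.Ul k (c • u) (|c| * r) := ul_iff.2 fun j => (nS_smul_le (cpt_S0 hg j) hu c).trans
  (mul_le_mul_of_nonneg_left (ul_iff.1 h j) (abs_nonneg c))

theorem ul_sum (hg : g.OK) {α : Type} (t : Finset α) {f : α → X.M → N} {r : α → ℝ}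
    (hf : ∀ a, Sm X.I (f a)) (h : ∀ a, g.Ul k (f a) (r a)) :
    g.Ul k (fun x => ∑ a ∈ t, f a x) (∑ a ∈ t, r a) := by
  classical
  induction t using Finset.induction_on with
  | empty => exact ul_of le_rfl fun j => (NS_zero k).le.trans (sq_nonneg _)
  | insert a t ha ih =>
    simp only [Finset.sum_insert ha]
    exact ul_add hg (hf a) (contMDiff_finsetSum fun i _ => hf i) (h a) ih

theorem ul_n (hg : g.OK) (hu : Continuous u) (h0 : 0 ≤ r) (hq : g.q0 u ≤ r ^ 2)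
    (h : ∀ s τ, 0 ≤ τ → g.n2 s u τ ≤ r ^ 2) : g.Ul 0 u ((Fintype.card A + 1) * r) := by
  have h1 : ∀ s τ, 0 ≤ τ → NS g.F.toPre (g.slab s τ) 0 u ≤ r ^ 2 := fun s τ hτ => by
    have e : -1 < τ := by linarith
    refine (NS0_Icc e hu _).trans_le ((setIntegral_mono_on (intOn_sl e (hu.norm.pow 2) _)
      (continuous_const.continuousOn.integrableOn_compact isCompact_Icc) measurableSet_Icc
      fun t ht => h s t (hτ.trans ht.1)).trans_eq (by simp))
  have h2 : (0 : ℝ) ≤ Fintype.card A := Nat.cast_nonneg _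
  refine ul_of (by positivity) fun j => ?_
  cases j with
  | some p => exact (h1 _ _ p.2.2).trans (by rw [mul_pow]; nlinarith [sq_nonneg r, mul_nonneg h2 h2])
  | none =>
    refine (NS_cover (R := fun s => g.slab s 0) (FS0 (hg.cpt 0) hu)
      (fun s => FS0 (isCompact_slab neg_one_lt_zero) hu) fun x hx => ?_).trans
      ((add_le_add hq (Finset.sum_le_sum fun s _ => h1 s 0 le_rfl)).trans ?_)
    · refine or_iff_not_imp_left.2 fun e => ?_
      obtain ⟨s, hs⟩ := not_forall.1 e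
      exact mem_iUnion.2 ⟨s, (not_le.1 hs).le, by simpa using hx s⟩
    · rw [Finset.sum_const, Finset.card_univ, nsmul_eq_mul, mul_pow]
      nlinarith [mul_nonneg (sq_nonneg r) h2, mul_nonneg (sq_nonneg r) (mul_nonneg h2 h2)]

/-! ### weighted norms -/

theorem Ioi_sub : Ioi (0 : ℝ) ⊆ Ioi (-1) := Ioi_subset_Ioi neg_one_lt_zero.le

theorem q0_nn (u : X.M → N) : 0 ≤ g.q0 u := integral_nonneg fun _ => by positivity

theorem end_nn (u : X.M → N) (a : ℝ) : 0 ≤ ∫ τ in Ioi 0, g.n2 s u τ * exp (a * τ) :=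
  integral_nonneg fun τ => mul_nonneg (n2_nn u τ) (exp_pos _).le

theorem Q_nn (u : X.M → N) : 0 ≤ g.Q ϖ u :=
  add_nonneg (q0_nn u) (Finset.sum_nonneg fun _ _ => end_nn u _)

theorem cont_w (hu : Continuous u) (a : ℝ) : Continuous fun x => exp (a * g.ht s x) * ‖u x‖ ^ 2 :=
  (continuous_exp.comp (continuous_const.mul (cont_ht g s))).mul (hu.norm.pow 2)

theorem sl_w (a : ℝ) : EqOn (sl g s fun x => exp (a * g.ht s x) * ‖u x‖ ^ 2)
    (fun τ => g.n2 s u τ * exp (a * τ)) (Ioi 0) := fun _ h =>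
  (sl_rad (fun t => exp (a * t)) (Ioi_sub h)).trans (mul_comm _ _)

theorem fi_iff (hu : Continuous u) (a : ℝ) :
    IntegrableOn (fun τ => g.n2 s u τ * exp (a * τ)) (Ioi 0) ↔
      IntegrableOn (fun x => exp (a * g.ht s x) * ‖u x‖ ^ 2) (g.ht s ⁻¹' Ioi 0) g.F.μ := by
  rw [intOn_iff measurableSet_Ioi Ioi_sub (cont_w hu a), funext fun x => Real.norm_of_nonneg
    (show 0 ≤ exp (a * g.ht s x) * ‖u x‖ ^ 2 by positivity),
    integrableOn_congr_fun (sl_w a) measurableSet_Ioi]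

theorem end_eq (hu : Continuous u) {a : ℝ}
    (h : IntegrableOn (fun τ => g.n2 s u τ * exp (a * τ)) (Ioi 0)) :
    ∫ τ in Ioi 0, g.n2 s u τ * exp (a * τ) =
      ∫ x in g.ht s ⁻¹' Ioi 0, exp (a * g.ht s x) * ‖u x‖ ^ 2 ∂g.F.μ := by
  rw [int_ht measurableSet_Ioi Ioi_sub (cont_w hu a) ((fi_iff hu a).1 h),
    setIntegral_congr_fun measurableSet_Ioi (sl_w a)]

theorem q_sep (hg : g.OK) (hu : Continuous u) (hF : g.Fi ϖ u) (h : g.Q ϖ u = 0) : u = 0 := by
  obtain ⟨h1, h2⟩ := (add_eq_zero_iff_of_nonneg (q0_nn u)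
    (Finset.sum_nonneg fun _ _ => end_nn u _)).1 h
  rw [Finset.sum_eq_zero_iff_of_nonneg fun _ _ => end_nn u _] at h2
  have := openPos g.F.toPre
  refine (Continuous.ae_eq_iff_eq g.F.μ hu continuous_zero).1 ?_
  rw [← Measure.restrict_univ (μ := g.F.μ), ← union_compl_self (g.cor 0), cor_compl, EventuallyEq,
    ae_restrict_union_iff, ae_restrict_iUnion_iff]
  refine ⟨((integral_eq_zero_iff_of_nonneg (fun _ => by positivity)
    (int_sq (FS0 (hg.cpt 0) hu))).1 h1).mono fun x hx => by simpa using hx, fun s => ?_⟩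
  exact ((integral_eq_zero_iff_of_nonneg (fun _ => by positivity) ((fi_iff hu _).1 (hF s))).1
    ((end_eq hu (hF s)).symm.trans (h2 s (Finset.mem_univ s)))).mono fun x hx => by simpa using hx

theorem q_le (hg : g.OK) {f : X.M → N'} {c : ℝ} (hu : Continuous u) (hu' : Continuous u')
    (hf : Continuous f) (h : ∀ x, ‖f x‖ ≤ c * (‖u x‖ + ‖u' x‖)) (hF : g.Fi ϖ u) (hF' : g.Fi ϖ u') :
    g.Fi ϖ f ∧ g.Q ϖ f ≤ 2 * c ^ 2 * (g.Q ϖ u + g.Q ϖ u') := by
  have h1 : ∀ x, ‖f x‖ ^ 2 ≤ 2 * c ^ 2 * (‖u x‖ ^ 2 + ‖u' x‖ ^ 2) := fun x =>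
    (pow_le_pow_left₀ (norm_nonneg _) (h x) 2).trans (by
      nlinarith [mul_nonneg (sq_nonneg c) (sq_nonneg (‖u x‖ - ‖u' x‖))])
  have h2 : ∀ s, ∀ τ ∈ Ioi (0 : ℝ), g.n2 s f τ * exp (-(2 * ϖ s) * τ) ≤ 2 * c ^ 2 *
      (g.n2 s u τ * exp (-(2 * ϖ s) * τ) + g.n2 s u' τ * exp (-(2 * ϖ s) * τ)) := fun s τ hτ => by
    have := sl_mono (g := g) (s := s) (hf.norm.pow 2) (continuous_const.mul
      ((hu.norm.pow 2).add (hu'.norm.pow 2))) (Ioi_sub hτ) fun y => h1 _
    rw [← add_mul, ← mul_assoc]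
    exact mul_le_mul_of_nonneg_right (this.trans_eq ((sl_mul _ _).trans (congrArg _
      (sl_add (hu.norm.pow 2) (hu'.norm.pow 2) (Ioi_sub hτ))))) (exp_pos _).le
  have h3 : g.Fi ϖ f := fun s => (((hF s).add (hF' s)).const_mul _).mono'
    ((((contOn_n2 hf).mono Ioi_sub).mul (by fun_prop)).aestronglyMeasurable measurableSet_Ioi)
    ((ae_restrict_mem measurableSet_Ioi).mono fun τ hτ =>
      (Real.norm_of_nonneg (mul_nonneg (n2_nn f τ) (exp_pos _).le)).trans_le (h2 s τ hτ))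
  have i := fun {u : X.M → N} (hu : Continuous u) => int_sq (FS0 (F := g.F.toPre) (hg.cpt 0) hu)
  have h4 := integral_mono (int_sq (FS0 (hg.cpt 0) hf)) (((i hu).add (i hu')).const_mul _) h1
  have h5 := Finset.sum_le_sum fun s (_ : s ∈ Finset.univ) => (setIntegral_mono_on (h3 s)
    (((hF s).add (hF' s)).const_mul _) measurableSet_Ioi (h2 s)).trans_eq
    ((integral_const_mul _ _).trans (congrArg _ (integral_add (hF s) (hF' s))))
  replace h4 := h4.trans_eq ((integral_const_mul _ _).trans (congrArg _ (integral_add (i hu) (i hu'))))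
  rw [← Finset.mul_sum, Finset.sum_add_distrib] at h5
  refine ⟨h3, ?_⟩
  unfold Gm.Q Gm.q0
  linarith

theorem q_ul (hg : g.OK) {ε : ℝ} (hε : 0 < ε) (hu : Continuous u) (h : g.Ul 0 u r) :
    g.Fi (fun _ => ε) u ∧
      g.Q (fun _ => ε) u ≤ (1 + Fintype.card A * (1 - exp (-(2 * ε)))⁻¹) * r ^ 2 := by
  have h1 := fun s => geo_int (a := 2 * ε) (by positivity) ((contOn_n2 (g := g) (s := s) hu).mono
    fun _ e => mem_Ioi.2 (neg_one_lt_zero.trans_le e)) (n2_nn u) fun τ hτ =>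
    (NS0_Icc (by linarith) hu _).symm.trans_le (nS_le.1 (h.2 s τ hτ)).2
  have h2 := Finset.sum_le_sum fun s (_ : s ∈ Finset.univ) => (h1 s).2
  rw [Finset.sum_const, Finset.card_univ, nsmul_eq_mul] at h2
  have h3 : g.q0 u ≤ r ^ 2 :=
    (NS_mono (FS0 (hg.cpt 1) hu) (cor_mono zero_le_one)).trans (ul_NS h none)
  exact ⟨fun s => (h1 s).1, (add_le_add h3 h2).trans_eq (by ring)⟩

/-- small on a large part of `X` and bounded -/
theorem q_small (hg : g.OK) {ε : ℝ} (hε : 0 < ε) : ∃ K ≥ 0, ∀ (u : X.M → N) (T η B : ℝ), 0 ≤ T →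
    Continuous u → (∀ x ∈ g.cor T, ‖u x‖ ≤ η) → (∀ x, ‖u x‖ ≤ B) →
    g.Fi (fun _ => ε) u ∧ g.Q (fun _ => ε) u ≤ K * (η ^ 2 + B ^ 2 * exp (-ε * T)) := by
  refine ⟨g.F.μ.real (g.cor 0) + ∑ s, (g.D s).F.μ.real univ * ε⁻¹, by positivity,
    fun u T η B hT hu h1 h2 => ?_⟩
  set R := η ^ 2 + B ^ 2 * exp (-ε * T) with hR
  have e1 : η ^ 2 ≤ R := le_add_of_nonneg_right (by positivity)
  have h3 : ∀ s, ∀ τ ∈ Ioi (0 : ℝ), g.n2 s u τ * exp (-(2 * ε) * τ) ≤
      (g.D s).F.μ.real univ * R * exp (-ε * τ) := fun s τ hτ => by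
    rw [show -(2 * ε) * τ = -ε * τ + -ε * τ by ring, exp_add, ← mul_assoc, ← sl_const (τ := τ),
      mul_comm (g.n2 s u τ), n2_eq, ← sl_mul]
    refine mul_le_mul_of_nonneg_right (sl_mono (continuous_const.mul (hu.norm.pow 2))
      continuous_const (Ioi_sub hτ) fun y => ?_) (exp_pos _).le
    rcases le_total τ T with e | e
    · refine (mul_le_of_le_one_left (sq_nonneg _) (exp_le_one_iff.2 (by nlinarith [mem_Ioi.1 hτ]))).trans
        ((pow_le_pow_left₀ (norm_nonneg _) (h1 _ (mem_cor (s := s) hg ?_ ?_)) 2).trans e1) <;>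
        rw [ht_pt (Ioi_sub hτ)]
      exacts [Ioi_sub hτ, e]
    · refine le_add_of_nonneg_of_le (sq_nonneg η) ((mul_comm _ _).trans_le (mul_le_mul
        (pow_le_pow_left₀ (norm_nonneg _) (h2 _) 2) (exp_le_exp.2 (by nlinarith)) (exp_pos _).le
        (sq_nonneg B)))
  have i1 := exp_neg_integrableOn_Ioi 0 hε
  have h4 : g.Fi (fun _ => ε) u := fun s => (i1.const_mul _).mono'
    ((((contOn_n2 hu).mono Ioi_sub).mul (by fun_prop)).aestronglyMeasurable measurableSet_Ioi)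
    ((ae_restrict_mem measurableSet_Ioi).mono fun τ hτ =>
      (Real.norm_of_nonneg (mul_nonneg (n2_nn u τ) (exp_pos _).le)).trans_le (h3 s τ hτ))
  refine ⟨h4, ?_⟩
  rw [add_mul, Finset.sum_mul]
  refine add_le_add ((setIntegral_mono_on (int_sq (FS0 (hg.cpt 0) hu))
    (continuous_const.continuousOn.integrableOn_compact (hg.cpt 0)) (hg.cpt 0).measurableSet
    fun x hx => (pow_le_pow_left₀ (norm_nonneg _) (h1 x (cor_mono hT hx)) 2).trans e1).trans_eq
    (by simp)) (Finset.sum_le_sum fun s _ => (setIntegral_mono_on (h4 s) (i1.const_mul _)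
      measurableSet_Ioi (h3 s)).trans_eq ?_)
  rw [integral_const_mul, integral_exp_mul_Ioi (by linarith)]
  field_simp
  simp

end Crest.Agent.X212.Ulc97
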