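import Crest.Agent.X212.Sym93.Inf

/-! Row 212, NT-MV: asymptotically parallel sections on an end. -/

set_option autoImplicit false
set_option linter.unusedSectionVars false
noncomputable section
open scoped Manifold ContDiff Topology InnerProductSpace
open MeasureTheory Set Function Filter

namespace Crest.Agent.X212.Ulc97.Mv
open An An.Pre Sob92 Prm93 Mod61 Nd18 Eqv71 Nk89 Cyf70 Bki64 Cmp73 Neck67 Pj41
open Grp76 (Nice hs_iff)
open Wz78 (nab SA adcL)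
open Rf65 (ParY dz)
open Sym93 (ex ex_ψ ex_off)
open Tmp64 (sq)

section cyl
variable {E3 : Type} [NormedAddCommGroup E3] [NormedSpace ℝ E3] [FiniteDimensional ℝ E3]
  [MeasurableSpace E3] [BorelSpace E3]
  {H3 : Type} [TopologicalSpace H3] {I3 : ModelWithCorners ℝ E3 H3} [I3.Boundaryless]
  {Y : Type} [TopologicalSpace Y] [ChartedSpace H3 Y] [IsManifold I3 ∞ Y] [T2Space Y]
  [MeasurableSpace Y] [BorelSpace Y] [SecondCountableTopology Y] [CompactSpace Y]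
  {κ : Type} [Fintype κ] {lam : Type} [Fintype lam] {D : YD I3 Y κ lam} {β : YC Y κ lam}

/-- almost parallel sections on windows converge to a parallel section -/
theorem cyl_lim {V : Type} [NormedAddCommGroup V] [NormedSpace ℝ V] [FiniteDimensional ℝ V]
    {F : Pre I3 Y κ} {A : κ → Y → V →L[ℝ] V} (hA : ∀ k, Sm I3 (A k)) {α : Type}
    {𝒰 : Ultrafilter α} {t : α → ℝ} {S : Y × ℝ → V}
    (hb : ∀ k, BB (cylP F) 𝒰 (fun n => win Y (t n) 1) k fun _ => S)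
    (hz : ∀ a k, ZZ (cylP F) 𝒰 (fun n => win Y (t n) 1) k fun _ x =>
      (cylP F).D (some a) S x + A a x.1 (S x)) :
    ∃ ξ, Sm I3 ξ ∧ (∀ a y, F.D a ξ y + A a y (ξ y) = 0) ∧
      ∀ y, Tendsto (fun n => S (y, t n)) 𝒰 (𝓝 (ξ y)) := by
  have ho := win_op (Y := Y) 0 1
  have w : (fun n => sq (· + t n) ⁻¹' win Y (t n) 1) = fun _ => win Y 0 1 :=
    funext fun n => win_tr (zero_add _).symm 1
  obtain ⟨g, hg⟩ := MBOn.exists_cv (Ω := win Y 0 1) fun k x hx => (w ▸ (hb k).tr t).mb hx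
  have h0 : ∀ y : Y, (y, (0 : ℝ)) ∈ win Y 0 1 := fun y => ⟨trivial, by simp, by simp⟩
  have sg : ∀ y, FSm (IC I3) g (y, 0) := fun y => hg.smoothAt ho (h0 y)
  refine ⟨fun y => g (y, 0), fun y => sm_slice (sg y), fun k y => ?_, fun y => by
    simpa [Tmp64.sq] using hg.pt _ (h0 y)⟩
  have fx : Cv (IC I3) (𝒰 : Filter α) (win Y 0 1) (fun _ x => A k x.1) fun x => A k x.1 :=
    Cv.fixed' (sm_fst (hA k))
  rw [← D_some_at F (x := (y, 0)) (sg y).md k]
  refine ((hg.D ho (cylP F) (some k)).add (fx.app hg)).eq_of (ZZ.cv fun j => w ▸ (hz k j).tr t)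
    (h0 y) ((hb 0).sm.mono fun n hn => congrArg (· + _)
      ((Tmp64.D_sq F (Tmp64.sm_add (t n)) (hn _ ((congrFun w n).ge (h0 y))) (some k)).trans ?_))
  simp [Tmp64.sw]

end cyl

variable {E : Type} [NormedAddCommGroup E] [NormedSpace ℝ E] [FiniteDimensional ℝ E]
  [MeasurableSpace E] [BorelSpace E]
  {HM : Type} [TopologicalSpace HM] {I : ModelWithCorners ℝ E HM} [I.Boundaryless]
  {M : Type} [TopologicalSpace M] [ChartedSpace HM M] [IsManifold I ∞ M]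
  [MeasurableSpace M] [T2Space M] [BorelSpace M] [SecondCountableTopology M]
  {κ : Type} [Fintype κ] {lam : Type} [Fintype lam]
  {T : Type} [NormedAddCommGroup T] [NormedSpace ℝ T]
  {𝔉 : Fam I M (Option κ) lam T} {δ R L : ℝ} {o : Ref 𝔉} {t : T}
  {V : Type} [NormedAddCommGroup V] [NormedSpace ℝ V] (X : Ends 𝔉 δ)

theorem nice_of {f n : M → V} (hf : Sm I f) (hn : Nice 𝔉.F0.toPre n)
    (e : ∀ a, ∀ x ∈ (X.P a).U L, f x = n x) : Nice 𝔉.F0.toPre f := by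
  have := (Nice.of_hcs (F := 𝔉.F0.toPre) (hf.sub hn.sm) (.intro (X.cov' L) fun x hx =>
    let ⟨a, k⟩ := mem_iUnion.1 (not_not.1 hx); sub_eq_zero.2 (e a x k))).add hn
  simpa using this

theorem cb_ex (a : X.A) (hL : X.R ≤ L) {f : (X.P a).Y.M → V} (hf : Sm (X.P a).Y.I f) :
    𝔉.F0.Cb (ex (X.P a) L f) := by
  obtain ⟨C, hC⟩ := bd_hc
  obtain ⟨C', hC'⟩ := Cb_smul ⟨_, (hC _ L (X.P a).sg_cases).cyl (X.P a).D.F.toPre⟩
    (cb_inv (X.P a).D.F.toPre (sm_fst hf))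
  exact X.wt.toWtP.Cb.2 ⟨_, (Cht98.nck (X.P a).K).CBs_pull (S := {s | L ≤ (X.P a).sg * s})
    (isClosed_le continuous_const (by fun_prop)) (fun s hs => (X.okP a).J (hL.trans hs))
    (fun z hz => smul_eq_zero_of_left (hc_zero (not_le.1 hz).le) _) hC'⟩

theorem ex_hi (a : X.A) (hL : X.R ≤ L) (f : (X.P a).Y.M → V) {z : (X.P a).Y.M × ℝ}
    (hz : z ∈ (X.P a).H (L + 1)) : ex (X.P a) L f ((X.P a).K.ψ z) = f z.1 := by
  rw [ex_ψ ((X.okP a).src (by linarith [hz.out])), End.θZ, hc_one hz.le, one_smul]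

theorem ex_ne {a a' : X.A} (ne : a' ≠ a) (hL : X.R ≤ L) (f : (X.P a).Y.M → V) {x : M}
    (hx : x ∈ (X.P a').U X.R) : ex (X.P a) L f x = 0 :=
  ex_off fun k => disjoint_left.1 (X.dis ne) hx ((X.P a).U_mono hL k)

variable (hl : X.Lit o R) (ht : t ∈ 𝔉.Q) (hL : R ≤ L) {a : X.A}
include hl ht hL

theorem nab_ψ {S : (X.P a).Y.M × ℝ → o.m.A} {s : M → o.m.A} {z : (X.P a).Y.M × ℝ}
    (hz : z ∈ (X.P a).H L) (e : ∀ w ∈ (X.P a).H L, S w = s ((X.P a).K.ψ w)) (b : Option κ) :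
    nab (IC (X.P a).Y.I) (X.P a).D.Z.e ((cy ((X.P a).sl o (R + 1) t)).m.adW
      (cy ((X.P a).sl o (R + 1) t)).W) b S z =
      nab I 𝔉.F0.e (o.m.adW (o.A t)) b s ((X.P a).K.ψ z) := by
  have h := X.okP a
  have hz' : z ∈ (X.P a).H R := hL.trans_lt hz
  exact (End14.fRel0 X.ok h).nab (hl.le.trans_lt hz') b (congrArg adc ((((hl.lit a).at ht
    hz').2.2.2.1 b).symm.trans (End14.W0_end X.ok h ht (h.ψ_mem le_rfl (hl.le.trans_lt hz')) b)))
    (mem_of_superset (((X.P a).isOpen_H _).mem_nhds hz) e)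

/-- a section which tends to zero and is parallel up to a decaying term decays -/
theorem nice_dec {d : M → o.m.A} (sd : Sm I d) {n : Option κ → M → o.m.A}
    (hn : ∀ b, Nice 𝔉.F0.toPre (n b))
    (e : ∀ b, ∀ x ∈ (X.P a).U L, nab I 𝔉.F0.e (o.m.adW (o.A t)) b d x = n b x)
    (off : ∀ a' ≠ a, ∀ x ∈ (X.P a').U X.R, d x = 0)
    (h0 : ∀ y, ∀ ε > 0, ∃ᶠ s in atTop, ‖d ((X.P a).pt s y)‖ ≤ ε) : Nice 𝔉.F0.toPre d := by
  have H := X.ok
  have hR := hl.le.trans hL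
  have cA := fun b => Cb_clm adcL (o.cAt t b)
  have nb : ∀ b, Nice 𝔉.F0.toPre (nab I 𝔉.F0.e (o.m.adW (o.A t)) b d) := fun b => by
    refine nice_of X (L := L + 1) ((𝔉.F0.sm_D sd b).add ((Cb.sm (cA b)).clm_apply sd))
      ((hn b).bil (ContinuousLinearMap.lsmul ℝ ℝ) (X.cb_θ a hR)) fun a' x hx => ?_
    have hx' := (X.P a').U_mono (hR.trans (lt_add_one L).le) hx
    rcases eq_or_ne a' a with rfl | ne
    · rw [e b x ((X.P a').U_mono (lt_add_one L).le hx), ContinuousLinearMap.lsmul_apply, End.θ,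
        hc_one hx.2.le, one_smul]
    · rw [ContinuousLinearMap.lsmul_apply, X.θ_off ne hR hx', zero_smul,
        Wz78.nab_congr (v := fun _ => 0) b (mem_of_superset (((X.P a').isOpen_U _).mem_nhds hx')
          (off a' ne)), nab, dv_const, map_zero, add_zero]
      rfl
  refine Grp76.nice_of_fl H.tame.choose_spec sd (Grp76.fl_of_lin sd
    (End14.hardy X hR sd (nb none) (fun a' x hx => ?_) fun a' z ε hε => ?_)
    (fun b => Cb_clm (-adcL) (o.cAt t b)) nb fun b x => ?_)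
  · have h1 := End14.W0_end H (X.okP a') ht (o := o) ((X.P a').U_mono hR hx) none
    obtain ⟨s, z, hs, rfl⟩ := End14.exists_pt (X.okP a') hR hx
    rw [(End14.lit_eq (hl.lit a') ht (hL.trans_lt hs) z).2.2.2.1, (hl.lit a').tmp _ ht] at h1
    rw [nab, Md.adW, ← h1, ← Wz78.adcL_apply, map_zero, _root_.zero_apply, add_zero, Pre.D_def]
  · rcases eq_or_ne a' a with rfl | ne
    · exact h0 z ε hε
    · exact ((eventually_gt_atTop X.R).mono fun s hs => by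
        rw [off a' ne _ (End14.pt_U (X.okP a') le_rfl hs z), norm_zero]; exact hε.le).frequently
  · simp only [nab, Md.adW, ← Wz78.adcL_apply, _root_.neg_apply, Pre.D_def]
    abel

/-- **asymptotically parallel sections** converge to parallel sections -/
theorem asy {s : M → o.m.A} (cs : 𝔉.F0.Cb s) (ms : ∀ x ∈ (X.P a).U L, s x ∈ o.m.gS x)
    {n : Option κ → M → o.m.A} (hn : ∀ b, Nice 𝔉.F0.toPre (n b))
    (e : ∀ b, ∀ x ∈ (X.P a).U L, nab I 𝔉.F0.e (o.m.adW (o.A t)) b s x = n b x)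
    {f : (X.P a).Y.M → o.m.A} (pf : ParY (X.P a).D ((X.P a).sl o (R + 1) t) f) (f0 : f ≠ 0)
    (h1 : dz (X.P a).D ((X.P a).sl o (R + 1) t) = 1) : ∃ (c : ℝ) (d : M → o.m.A),
      Nice 𝔉.F0.toPre d ∧ ∀ z ∈ (X.P a).H (L + 1), d ((X.P a).K.ψ z) =
        s ((X.P a).K.ψ z) - c • f z.1 := by
  have H := X.ok
  have h := X.okP a
  have hR := hl.le.trans hL
  have hβ := (hl.lit a).adm H h hl.le ht
  have hi : ∀ᶠ m : ℕ in hyperfilter ℕ, ∀ z ∈ win (X.P a).Y.M ((X.P a).sg * m) 1,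
      z ∈ (X.P a).H L ∧ (m : ℝ) - 1 < (X.P a).sg * z.2 :=
    (End14.hyp_top.eventually_ge_atTop (L + 1)).mono fun m hm z hz => by
      have := (abs_lt.1 (End14.mem_win.1 hz)).1
      exact ⟨show L < _ by linarith, by linarith⟩
  have fr := fun (m : ℕ) (k : ∀ z ∈ win (X.P a).Y.M ((X.P a).sg * m) 1, z ∈ (X.P a).H L ∧
      (m : ℝ) - 1 < (X.P a).sg * z.2) =>
    (End14.fRel0 H h).mono (win_op _ _) fun z hz => hR.trans_lt (k z hz).1
  obtain ⟨ξ, x1, x2, x3⟩ := cyl_lim (F := (X.P a).D.F.toPre) (𝒰 := hyperfilter ℕ)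
    (A := Rdc90.A0 ((X.P a).sl o (R + 1) t)) (t := fun m => (X.P a).sg * m)
    (S := fun z => s ((X.P a).K.ψ z))
    (fun k y => SA.clm adcL (sm_slice (t := 0) (hβ.adm.conn.cc.sm (some k) _)))
    (fun k => ⟨cs.choose k, hi.mono fun m hm => ⟨win_op _ _, (End14.lb_iff (fr m hm)
      fun _ _ => rfl).2 (Lb.of_CB cs.choose_spec.1 (cs.choose_spec.2 k))⟩⟩)
    fun b k ε hε => (hi.and (((tendsto_atTop_add_const_right _ (-1) End14.hyp_top
      ).const_mul_atTop X.δ0).eventually (End14.nice_tail X k (hn (some b)) ε hε))).mono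
      fun m hm => ⟨win_op _ _, (End14.lb_iff (fr m hm.1) fun z hz => (nab_ψ X hl ht hL
        (hm.1 z hz).1 (fun _ _ => rfl) (some b)).trans (e _ _ (h.ψ_mem hR (hm.1 z hz).1))).2
        (hm.2.sub (forall_mem_image.2 fun z hz => by
          have k := hm.1 z hz
          rw [mem_ofPred_eq, h.wt _ (h.ψ_mem le_rfl (hR.trans_lt k.1)), h.tm (hR.trans k.1.le)]
          exact mul_lt_mul_of_pos_left k.2 X.δ0))⟩
  have px : ParY (X.P a).D ((X.P a).sl o (R + 1) t) ξ := ⟨x1, fun y =>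
    (Submodule.closed_of_finiteDimensional _).mem_of_tendsto (x3 y) (hi.mono fun m hm => by
      have k := (hm (y, (X.P a).sg * m) (End14.mem_win.2 (by simp [End.sg_sg]))).1
      obtain ⟨k1, k2, k3, -⟩ := (hl.lit a).at ht (hL.trans_lt k)
      obtain ⟨g1, g2, g3, g4, g5⟩ := ms _ (h.ψ_mem hR k)
      exact ⟨g1, k1 ▸ g2, g3, fun i => k2 i ▸ g4 i, k3 ▸ g5⟩), x2⟩
  obtain ⟨c, hc⟩ := (finrank_eq_one_iff_of_nonzero' (K := ℝ) (⟨_, pf⟩ : Clr59.parS _ _)
    fun z => f0 (congrArg Subtype.val z)).1 (Clr59.dz_def.symm.trans h1) ⟨ξ, px⟩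
  obtain rfl : _ = ξ := congrArg Subtype.val hc
  have ev : ∀ z ∈ (X.P a).H (L + 1), (X.P a).θ L ((X.P a).K.ψ z) • s ((X.P a).K.ψ z) -
      c • ex (X.P a) L f ((X.P a).K.ψ z) = s ((X.P a).K.ψ z) - c • f z.1 := fun z hz => by
    rw [ex_hi X a hR f hz, h.θ_ψ (by linarith [hz.out]), End.θZ, hc_one hz.le, one_smul]
  have L1 := (lt_add_one L).le
  refine ⟨c, fun x => (X.P a).θ L x • s x - c • ex (X.P a) L f x, nice_dec X hl ht (hL.trans L1)
    (Cb.sm (Cb_sub (Cb_smul (X.cb_θ a hR) cs) (Cb_smul (Cb_const c) (cb_ex X a hR pf.sm)))) hn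
    (fun b x hx => ?_) (fun a' ne x hx => by
      rw [X.θ_off ne hR hx, ex_ne X ne hR f hx, zero_smul, smul_zero, sub_self])
    fun y ε hε => ?_, ev⟩
  · obtain ⟨z, hz, rfl⟩ := h.exists_ψ hx
    have hz' : z ∈ (X.P a).H L := L1.trans_lt hz
    have sz : SA (IC (X.P a).Y.I) (fun z => s ((X.P a).K.ψ z)) z :=
      (End14.fRel0 H h).sm (hR.trans_lt hz') (Cb.sm cs _)
    exact (nab_ψ X hl ht (hL.trans L1) hz (fun w hw => (ev w hw).symm) b).symm.trans
      ((Wz78.nab_sub b sz (sm_fst x1 z)).trans ((congrArg₂ (· - ·) ((nab_ψ X hl ht hL hz'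
        (fun _ _ => rfl) b).trans (e b _ (h.ψ_mem hR hz'))) (Clr59.par_cyl hβ px b z)).trans
        (sub_zero _)))
  · refine End14.hyp_top.frequently (Eventually.frequently ?_)
    filter_upwards [(Metric.tendsto_nhds.1 (x3 y)) ε hε, End14.hyp_top.eventually_gt_atTop (L + 1)]
      with m k1 k2
    rw [End.pt, ev _ (show L + 1 < _ by rwa [End.sg_sg])]
    exact ((dist_eq_norm _ _).symm.trans_lt k1).le

end Crest.Agent.X212.Ulc97.Mv
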