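import Crest.Agent.X212.Ulc97.MvA
import Crest.Agent.X212.Nt93.Aff
import Crest.Agent.X212.Sym93.Trp

/-! Row 212, NT-MV: the moving parts of two references on a common end. -/

set_option autoImplicit false
set_option linter.unusedSectionVars false
noncomputable section
open scoped Manifold ContDiff Topology InnerProductSpace
open MeasureTheory Set Function Filter

namespace Crest.Agent.X212.Ulc97.Mv
open An An.Pre Sob92 Prm93 Mod61 Nd18 Eqv71 Nk89 Cyf70 Pj41 Nt93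
open Grp76 (Nice hs_iff)
open Wz78 (nab SA adcL)
open Rf65 (ParY dz)
open Sym93 (ex ex_ψ ex_off)
open Rdc90 (bh)
open Clr59 (tY)

variable {E : Type} [NormedAddCommGroup E] [NormedSpace ℝ E] [FiniteDimensional ℝ E]
  [MeasurableSpace E] [BorelSpace E]
  {HM : Type} [TopologicalSpace HM] {I : ModelWithCorners ℝ E HM} [I.Boundaryless]
  {M : Type} [TopologicalSpace M] [ChartedSpace HM M] [IsManifold I ∞ M]
  [MeasurableSpace M] [T2Space M] [BorelSpace M] [SecondCountableTopology M]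
  {κ : Type} [Fintype κ] {lam : Type} [Fintype lam]
  {T T' : Type} [NormedAddCommGroup T] [NormedSpace ℝ T] [NormedAddCommGroup T'] [NormedSpace ℝ T']
  {𝔉 : Fam I M (Option κ) lam T} {𝔉' : Fam I M (Option κ) lam T'} {δ δ' R R' R₀ R₀' L : ℝ}
  {o : Ref 𝔉} {o' : Ref 𝔉'} {P : End 𝔉} {P' : End 𝔉'} {ψ ψ' : M → ℝ} {x : M} {r : ℕ}

/-- the moving part on an end whose limit moves along `ν ⊗ ξ` -/
theorem b_mov (k : 𝔉.OK) (hP : P.OK ψ δ R₀) (hR : R₀ ≤ R) (hl : P.Lit o R) {t₀ : T}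
    (h0 : t₀ ∈ 𝔉.Q) {β : YC P.Y.M κ lam} {ν : κ → P.Y.M → ℝ} {ξ : P.Y.M → β.m.A} {lm : T →ₗ[ℝ] ℝ}
    {v : P.Y.M × ℝ → CL β.m.V o.m.V} (mv : ∀ t ∈ 𝔉.Q, Mod61.EqOn P.D.B P.D.Z univ
      (cy (bh β (lm t • tY ν ξ) 0)) (cy (P.sl o (R + 1) t)) v 1) (τ : T) {z : P.Y.M × ℝ}
    (hz : z ∈ P.H R) (a : Option κ) :
    o.b τ (P.K.ψ z) a = (lm τ * a.elim 0 fun k => ν k z.1) • cj (v (z.1, 0)) (ξ z.1) := by
  have e : ∀ t ∈ 𝔉.Q, P.D.Z.D a v (z.1, 0) + (o.A0 a (P.K.ψ z) + opL (o.b t (P.K.ψ z) a)) ∘L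
      v (z.1, 0) - v (z.1, 0) ∘L (β.W a z.1 + (lm t * a.elim 0 fun k => ν k z.1) • opL (ξ z.1)) =
      0 := fun t ht => by
    rw [← Clr59.bh_W ξ (lm t) a (z.1, 0), show o.A0 a _ + opL _ = _ from (End14.W0_end k hP ht
      (hP.ψ_mem le_rfl (hR.trans_lt hz)) a).symm.trans ((hl.at ht hz).2.2.2.1 a)]
    exact (par0_iff ((IsConn.on (hl.adm k hP hR ht).adm.conn _).proj' hP.D.B)).2 (mv t ht).W
      (z.1, 0) trivial a
  have h1 : ∀ᶠ s : ℝ in 𝓝[≠] 0, t₀ + s • τ ∈ 𝔉.Q := nhdsWithin_le_nhds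
    ((by fun_prop : Continuous fun s : ℝ => t₀ + s • τ).continuousAt.eventually
      (k.opn.mem_nhds (by simpa using h0)))
  obtain ⟨s, h2, h3⟩ := (h1.and self_mem_nhdsWithin).exists
  have e1 : opL (o.b τ (P.K.ψ z) a) ∘L v (z.1, 0) =
      (lm τ * a.elim 0 fun k => ν k z.1) • v (z.1, 0) ∘L opL (ξ z.1) := by
    refine smul_right_injective _ h3 (sub_eq_zero.1 ?_)
    rw [← sub_self (0 : CL β.m.V o.m.V)]
    conv_rhs => rw [← e _ h2]; arg 2; rw [e _ h2, ← e _ h0]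
    simp only [map_add, map_smul, Pi.add_apply, PiLp.add_apply, Pi.smul_apply, PiLp.smul_apply,
      ContinuousLinearMap.add_comp, ContinuousLinearMap.comp_add, ContinuousLinearMap.smul_comp,
      ContinuousLinearMap.comp_smul, smul_eq_mul]
    module
  have e2 : v (z.1, 0) ∘L trn (v (z.1, 0)) = o.m.p (P.K.ψ z) :=
    ((mv _ h0).m.uu' (z.1, 0) trivial).trans (hl.at h0 hz).1.symm
  refine Wz78.opL_inj ?_
  rw [← Wz78.g_p' o.ok (o.b_mem _ _ a), ← e2, ContinuousLinearMap.mul_def,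
    ← ContinuousLinearMap.comp_assoc, e1, map_smul, opL_cj, ContinuousLinearMap.smul_comp,
    ContinuousLinearMap.comp_assoc]

theorem b_har (k : 𝔉.OK) (hP : P.OK ψ δ R₀) (hR : R₀ ≤ R) (hl : P.Lit o R) {t₀ : T}
    (h0 : t₀ ∈ 𝔉.Q) {β : YC P.Y.M κ lam} {η : κ → P.Y.M → β.m.A} (h1 : Rdc90.Bs P.D β)
    (h2 : Rdc90.Har P.D β η) (h3 : η ≠ 0) {ν : κ → P.Y.M → ℝ} {ρ : ℝ}
    (S : Rf65.Psc P.D.F (fun _ : Fin 1 => ν) ρ) {lm : T →ₗ[ℝ] ℝ}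
    {v : P.Y.M × ℝ → CL β.m.V o.m.V} (mv : ∀ t ∈ 𝔉.Q, Mod61.EqOn P.D.B P.D.Z univ
      (cy (bh β (lm t • η) 0)) (cy (P.sl o (R + 1) t)) v 1) : ∃ f : P.Y.M → o.m.A,
    (∀ t ∈ 𝔉.Q, ParY P.D (P.sl o (R + 1) t) f) ∧ f ≠ 0 ∧ ∀ τ, ∀ z ∈ P.H R, ∀ a,
      o.b τ (P.K.ψ z) a = (lm τ * a.elim 0 fun k => ν k z.1) • f z.1 := by
  obtain ⟨ξ, h4, rfl⟩ := (Clr59.har_iff S h1).1 h2
  have e := fun t ht => Sym93.par_tr h1.ok (Clr59.bs_tw S h1 h4 (lm t)).adm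
    (hl.adm k hP hR ht) (mv t ht) (Sym93.par_tw h4 _)
  exact ⟨_, fun t ht => (e t ht).1, fun z => h3 ((congrArg (tY ν) ((e _ h0).2 z)).trans
    (map_zero _)), fun τ z hz => b_mov k hP hR hl h0 mv τ hz⟩

variable {y' : Pnt o' r} {y : Pnt o r} {u : M → CL o'.m.V o.m.V} {ζ : Circle} (Z : Tw y' y u ζ)
include Z

section pt
variable (h : P.OK ψ δ R₀) (h' : P'.OK ψ' δ' R₀') (hx : x ∈ P.U R₀) (hx' : x ∈ P'.U R₀')
  (hO : x ∈ 𝔉'.Om)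
include h h' hx hx' hO

theorem mA_end {η : Fm (Option κ) o'.m.A} (hη : o'.P1 x η = η) (b : Option κ) :
    mA y' y u x η b = cj (u x) (η b) := by
  refine (ridx_apply _ _ _ _).trans ?_
  simp only [indicator_of_mem hO, Matrix.mul_apply, Matrix.of_apply,
    (h.S _ y.ht x hx _ _).2, (h'.S _ y'.ht x hx' _ _).1, ← Z.B, (Z.ok'.B.pr x).idem, ← map_smul,
    ← map_sum, idx_sum hη]

theorem tw_nab {g : M → o'.m.A} (sg : SA I g x) (b : Option κ)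
    (pg : nab I 𝔉'.F0.e (o'.m.adW (o'.A y'.t)) b g x = 0) :
    nab I 𝔉.F0.e (o.m.adW (o.A y.t)) b (fun x => cj (𝔉'.Om.indicator u x) (g x)) x =
      cj (𝔉'.Om.indicator u x) (adcL (opL (y'.α x b)) (g x)) -
        adcL (opL (y.α x b)) (cj (𝔉'.Om.indicator u x) (g x)) := by
  have C : o.m.IsConn 𝔉.B (𝔉.G y.t) (o.W y.t y.α) := (y.ad0 Z.ok).conn
  have C' : o'.m.IsConn 𝔉'.B (𝔉'.G y'.t) (o'.W y'.t y'.α) := (y'.ad0 Z.ok').conn
  have su : SA I u x := Z.e.m.su.contMDiffAt (Z.ok'.Om.2.mem_nhds hO)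
  have it : Itw I (𝔉.G y.t).F.e (o'.W y'.t y'.α) (o.W y.t y.α) u x := fun a => sub_eq_zero.1
    ((par0_iff (W := o'.W y'.t y'.α) ((IsConn.on C _).proj' Z.ok.B)).2 Z.e.W x hO a)
  have k := (it.cj su (fun a => C'.sk a x) fun a => C.sk a x).nab (sa_cj su).md sg.md b
  have e1 : ∀ f : M → o.m.A, dv I ((𝔉.G y.t).F.e b) f x = dv I (𝔉.F0.e b) f x :=
    End14.D_end Z.ok h y.ht hx b
  have e2 : dv I ((𝔉.G y.t).F.e b) g x = dv I (𝔉'.F0.e b) g x := by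
    unfold dv
    rw [(Z.agr.e x hO b).trans (End14.e_end Z.ok' h' y'.ht hx' b)]
  rw [Wz78.nab_congr (v := fun x => cj (u x) (g x)) b ((Grp76.ind_ev Z.ok'.Om.2 hO u).mono
    fun w hw => by simp only [hw]), indicator_of_mem hO]
  simp only [nab, Md.adW, ← Wz78.adcL_apply, e1, e2, map_add adcL, _root_.add_apply,
    End14.W_end h Z.ok y.ht _ hx (y.pα Z.ok x), End14.W_end h' Z.ok' y'.ht _ hx' (y'.pα Z.ok' x),
    ← add_assoc] at k pg ⊢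
  rw [pg, zero_add] at k
  exact eq_sub_of_add_eq k

end pt

theorem nice_α : Nice 𝔉.F0.toPre y'.α :=
  ((hs_iff Z.ok).1 (hs_tp (p := triv _ _) Z.cmp Z.ok.sup Z.ok'.sup (Cb_const (.id ℝ _))
    (fun _ _ _ => rfl) y'.hα)).1

variable (X : Ends 𝔉 δ)

theorem hs_nB {θ : T' →L[ℝ] T} {τ : T'} (e : ∀ b, ∃ n, Nice 𝔉.F0.toPre n ∧
    ∀ a, ∀ x ∈ (X.P a).U L, nB y' y u θ τ x b = n x) : nB y' y u θ τ ∈ Hs 𝔉.F0.toPre o.P1 := by
  have c : 𝔉.F0.Cb (nB y' y u θ τ) := Cb_sub (Cb_app Z.cA (Z.cmp.Cb_iff.1 (o'.sb.cb τ trivial)))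
    (Grp76.Cb_ind Z.ok'.Om (o.sb.cb _ trivial))
  refine (hs_iff Z.ok).2 ⟨.fm fun b => let ⟨n, h1, h2⟩ := e b
    nice_of X (Cb.sm (Cb_clm (Grp76.pj _ b) c)) h1 h2, fun x => ?_⟩
  refine (map_sub _ _ _).trans (congrArg₂ (· - ·) (Z.mpA x _ (b_P1 τ x)) ?_)
  by_cases hx : x ∈ 𝔉'.Om
  · rw [indicator_of_mem hx, b_P1]
  · rw [indicator_of_notMem hx, map_zero]

/-- **the gauge between two references carries the parallel section at an end to a multiple of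
the parallel section, up to a decaying term** -/
theorem tw_end (X' : Ends 𝔉' δ') (hl : X.Lit o R) (hl' : X'.Lit o' R') {a : X.A} {a' : X'.A}
    (ha : X'.Act a') (hL : R ≤ L) (hU : (X.P a).U L ⊆ (X'.P a').U (R' + 1))
    {f' : (X'.P a').Y.M → o'.m.A} (pf' : ∀ t ∈ 𝔉'.Q, ParY (X'.P a').D ((X'.P a').sl o' (R' + 1) t) f')
    {f : (X.P a).Y.M → o.m.A} (pf : ParY (X.P a).D ((X.P a).sl o (R + 1) y.t) f) (f0 : f ≠ 0)
    (h1 : dz (X.P a).D ((X.P a).sl o (R + 1) y.t) = 1) : ∃ (c : ℝ) (d : M → o.m.A),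
      Nice 𝔉.F0.toPre d ∧ ∀ z ∈ (X.P a).H (L + 1), d ((X.P a).K.ψ z) =
        cj (u ((X.P a).K.ψ z)) (ex (X'.P a') R' f' ((X.P a).K.ψ z)) - c • f z.1 := by
  have g := Sym93.pb_ex X' hl' ha y'.ht pf'
  have cg := Z.cmp.Cb_iff.1 g.cb
  have cs := Cb_app (Cb_cj Z.cu) cg
  have hU' : (X.P a).U L ⊆ (X'.P a').U X'.R :=
    hU.trans ((X'.P a').U_mono (by linarith [hl'.le]))
  have n : ∀ {m : Md M (Option κ) lam} {α : M → Fm (Option κ) m.A} {s : M → m.A},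
      Nice 𝔉.F0.toPre α → 𝔉.F0.Cb s → ∀ b, Nice 𝔉.F0.toPre fun x => adcL (opL (α x b)) (s x) :=
    fun h1 h2 b => ((h1.clm (Grp76.pj _ b)).clm (adcL ∘L opL)).bil' (.id ℝ _) h2
  obtain ⟨c, d, k1, k2⟩ := asy X hl y.ht hL cs (fun x hx => by
      rw [indicator_of_mem (ha (hU' hx))]
      exact (Z.me (ha (hU' hx))).cj_mem Z.be Z.ok1 o.ok ((Grp76.Pg_iff Z.ok' x _).1 (g.mem x)).1)
    (fun b => ((n (nice_α Z) cg b).app (Cb_cj Z.cu)).sub (n ((hs_iff Z.ok).1 y.hα).1 cs b))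
    (fun b x hx => tw_nab Z (X.okP a) (X'.okP a') ((X.P a).U_mono (hl.le.trans hL) hx) (hU' hx)
      (ha (hU' hx)) (Cb.sm cg x) b (g.par _ y'.ht b x (not_not.2 (mem_iUnion.2 ⟨a', hU hx⟩))))
    pf f0 h1
  exact ⟨c, d, k1, fun z hz => by rw [k2 z hz, indicator_of_mem (ha (hU' ((X.okP a).ψ_mem
    (hl.le.trans hL) ((lt_add_one L).trans hz))))]⟩

end Crest.Agent.X212.Ulc97.Mv
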