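import Crest.Agent.X212.Ulc97.Win

/-!
# Row 212, RAD-UL (helper97): traces; multiplication by a function of the norm of the slices
-/

set_option autoImplicit false
set_option linter.unusedSectionVars false
noncomputable section
open scoped Manifold ContDiff Topology InnerProductSpace NNReal
open MeasureTheory Set Function Filter Real

namespace Crest.Agent.X212.Ulc97
open An Cyf70 Ell97 Sob92 Rad94 Lw78
open Nd18 (YD BD)
open M (Mf pm)

theorem trace1 {φ φ' ψ : ℝ → ℝ} {a b τ : ℝ} (hab : a + 1 ≤ b) (hτ : τ ∈ Icc a b)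
    (hd : ∀ t ∈ Icc a b, HasDerivAt φ (φ' t) t) (c' : ContinuousOn φ' (Icc a b))
    (cψ : ContinuousOn ψ (Icc a b)) (h0 : ∀ t, 0 ≤ φ t) (hb : ∀ t ∈ Icc a b, |φ' t| ≤ ψ t) :
    φ τ ≤ (∫ t in Icc a b, φ t) + ∫ t in Icc a b, ψ t := by
  have c : ContinuousOn φ (Icc a b) := fun t ht => (hd t ht).continuousAt.continuousWithinAt
  obtain ⟨σ, hσ, hm⟩ := isCompact_Icc.exists_isMinOn ⟨τ, hτ⟩ c
  have h1 : φ σ ≤ ∫ t in Icc a b, φ t := by
    refine le_trans ?_ (setIntegral_mono_on (continuousOn_const.integrableOn_compact isCompact_Icc)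
      (c.integrableOn_compact isCompact_Icc) measurableSet_Icc fun t ht => hm ht)
    rw [setIntegral_const, Real.volume_real_Icc_of_le (by linarith), smul_eq_mul]
    nlinarith [h0 σ]
  have u := uIcc_subset_Icc hσ hτ
  have h2 := intervalIntegral.integral_eq_sub_of_hasDerivAt (fun t ht => hd t (u ht))
    (c'.mono u).intervalIntegrable
  have h3 := (intervalIntegral.norm_integral_le_integral_norm_uIoc (f := φ') (a := σ) (b := τ)
    (μ := volume)).trans ((setIntegral_mono_set (c'.norm.integrableOn_compact isCompact_Icc)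
      (.of_forall fun _ => norm_nonneg _) (uIoc_subset_uIcc.trans u).eventuallyLE).trans
      (setIntegral_mono_on (c'.norm.integrableOn_compact isCompact_Icc)
        (cψ.integrableOn_compact isCompact_Icc) measurableSet_Icc hb))
  rw [h2] at h3
  linarith [le_abs_self (φ τ - φ σ), Real.norm_eq_abs (φ τ - φ σ)]

variable {κ lam A : Type} [Fintype κ] [Fintype lam] [Fintype A] {X : Mf 4}
  {V : Type} [NormedAddCommGroup V] [InnerProductSpace ℝ V]
  {g : Gm X κ lam A} {s : A} {τ r : ℝ} {x : X.M} {u v : X.M → V} {k : ℕ} {D : Type}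

variable (g s) in
/-- the inner product of the slices -/
def ips (u v : X.M → V) : ℝ → ℝ := sl g s fun x => ⟪u x, v x⟫_ℝ

theorem ips_self (u : X.M → V) : ips g s u u = g.n2 s u := by
  simp only [ips, real_inner_self_eq_norm_sq, n2_eq]

theorem ips_comm (u v : X.M → V) : ips g s u v = ips g s v u := by
  simp only [ips, real_inner_comm]

theorem ips_sq (hu : Continuous u) (hv : Continuous v) (h : -1 < τ) :
    ips g s u v τ ^ 2 ≤ g.n2 s u τ * g.n2 s v τ := by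
  have := discrim_le_zero (a := g.n2 s u τ) (b := 2 * ips g s u v τ) (c := g.n2 s v τ) fun l => by
    have e := n2_nn (g := g) (s := s) (fun x => l • u x + v x) τ
    simp only [n2_eq, norm_add_sq_real, norm_smul, mul_pow, Real.norm_eq_abs, sq_abs,
      real_inner_smul_left, ← mul_assoc] at e
    rw [sl_add (by fun_prop) (by fun_prop) h, sl_add (by fun_prop) (by fun_prop) h, sl_mul,
      sl_mul] at e
    simp only [n2_eq, ips]
    linarith
  rw [discrim] at this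
  linarith

theorem ips_abs (hu : Continuous u) (hv : Continuous v) (h : -1 < τ) :
    2 * |ips g s u v τ| ≤ g.n2 s u τ + g.n2 s v τ :=
  abs_le_of_sq_le_sq' (by
    rw [mul_pow, sq_abs]
    nlinarith [ips_sq (g := g) (s := s) hu hv h, sq_nonneg (g.n2 s u τ - g.n2 s v τ)])
    (add_nonneg (n2_nn u τ) (n2_nn v τ)) |>.2

theorem hasDerivAt_ips (hu : Sm X.I u) (hv : Sm X.I v) (h : -1 < τ) : HasDerivAt (ips g s u v)
    (g.sg s * (ips g s (g.F.D none u) v τ + ips g s u (g.F.D none v) τ)) τ := by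
  have := hasDerivAt_sl (g := g) (s := s) (sm_inner hu hv) h
  rwa [funext (D_inner g.F.toPre none hu hv), sl_add (sm_inner (g.F.sm_D hu _) hv).continuous
    (sm_inner hu (g.F.sm_D hv _)).continuous h] at this

/-- **the trace estimate** -/
theorem n2_le_NS {a b : ℝ} (ha : -1 < a) (hab : a + 1 ≤ b) (hτ : τ ∈ Icc a b) (hu : Sm X.I u) :
    g.n2 s u τ ≤ 3 * NS g.F.toPre (g.ht s ⁻¹' Icc a b) 1 u := by
  have hD := g.F.sm_D hu none
  have i := Icc_sub ha b
  have c := fun {u v : X.M → V} (hu : Sm X.I u) (hv : Sm X.I v) =>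
    (contOn_sl (g := g) (s := s) (sm_inner hu hv).continuous).mono i
  have h := trace1 (ψ := fun t => g.n2 s (g.F.D none u) t + g.n2 s u t) (φ' := fun t => g.sg s *
    (ips g s (g.F.D none u) u t + ips g s u (g.F.D none u) t)) hab hτ (fun t ht => ips_self (g := g) (s := s) u ▸ hasDerivAt_ips hu hu (i ht))
    (continuousOn_const.mul ((c hD hu).add (c hu hD)))
    (((contOn_n2 hD.continuous).add (contOn_n2 hu.continuous)).mono i) (n2_nn u) fun t ht => by
      rw [abs_mul, abs_sg, one_mul, ips_comm u, ← two_mul, abs_mul, abs_two]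
      exact ips_abs hD.continuous hu.continuous (i ht)
  rw [integral_add (((contOn_n2 hD.continuous).mono i).integrableOn_compact isCompact_Icc)
    (((contOn_n2 hu.continuous).mono i).integrableOn_compact isCompact_Icc),
    ← NS0_Icc ha hu.continuous, ← NS0_Icc ha hD.continuous] at h
  have h1 := n2_dv_le (I := X.I) (e := g.F.e) (μ := g.F.μ.restrict (g.ht s ⁻¹' Icc a b)) 0 u none
  have h2 := n2_le_succ (I := X.I) (e := g.F.e) (μ := g.F.μ.restrict (g.ht s ⁻¹' Icc a b)) 0 u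
  exact h.trans (by simp only [NS, Pre.D_def]; linarith)

/-- a cut-off -/
def θ (t : ℝ) : ℝ := χ (4 * t + 3)

theorem θ_one (h : -2⁻¹ ≤ τ) : θ τ = 1 := smoothTransition.one_of_one_le (by linarith)

theorem θ_zero (v : ℝ → ℝ) : ∀ t < -(3 / 4), θ t * v t = 0 := fun t h => by
  rw [θ, χ, smoothTransition.zero_of_nonpos (by linarith), zero_mul]

variable (g s) in
/-- the inner product of the slices as a function on `X` -/
def ψ (u v : X.M → V) (x : X.M) : ℝ := θ (g.ht s x) * ips g s u v (g.ht s x)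

theorem cd_ψ (hu : Sm X.I u) (hv : Sm X.I v) :
    ContDiffOn ℝ ∞ (fun t => θ t * ips g s u v t) (Ioi (-1)) :=
  (smoothTransition.contDiff.comp (by fun_prop)).contDiffOn.mul (sm_sl (sm_inner hu hv))

theorem sm_ψ (hu : Sm X.I u) (hv : Sm X.I v) : Sm X.I (ψ g s u v) :=
  sm_rad' (by norm_num) (cd_ψ hu hv) (θ_zero _)

theorem D_ψ_some (hu : Sm X.I u) (hv : Sm X.I v) (a : κ) : g.F.D (some a) (ψ g s u v) = 0 :=
  D_rad_some (by norm_num) (cd_ψ hu hv) (θ_zero _) a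

theorem D_ψ_none (hu : Sm X.I u) (hv : Sm X.I v) (hx : -2⁻¹ < g.ht s x) :
    g.F.D none (ψ g s u v) x = ψ g s (g.F.D none u) v x + ψ g s u (g.F.D none v) x := by
  refine (congrFun (D_rad_none (by norm_num) (cd_ψ hu hv) (θ_zero _)) x).trans ?_
  rw [EventuallyEq.deriv_eq (f := ips g s u v) ((lt_mem_nhds hx).mono fun t ht => by
    simp only [θ_one ht.le, one_mul]), (hasDerivAt_ips hu hv (by linarith)).deriv, ψ, ψ,
    θ_one hx.le, smul_eq_mul, ← mul_assoc, sg_sq]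
  simp

section fam
variable {hg : g.OK} {t : D → ℝ≥0} {f f' : D → X.M → V} {H : D → X.M → ℝ} {j : ℕ}

/-- the heights of a window -/
abbrev Iv (t : ℝ≥0) (r : ℝ) : Set ℝ := Icc (t - ρ r) (t + 1 + ρ r)

theorem Iv_lt {t : ℝ≥0} (h : τ ∈ Iv t r) : -1 < τ := by linarith [lo_lt t r, h.1]

variable (hg s t) in
/-- the windows on one end -/
abbrev ws : Wn g.F.toPre D := wn hg fun d => some (s, t d)

variable (g s t) in
/-- bounded slices -/
def Tr (f : D → X.M → V) : Prop := ∀ r > 0, ∃ K, ∀ d, ∀ τ ∈ Iv (t d) r, g.n2 s (f d) τ ≤ K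

theorem tr_of (h : (ws s hg t).Jt 2 (j + 2) f) : Tr g s t f := fun r hr =>
  let ⟨K, e⟩ := (h.of_le (by omega : 1 + 1 ≤ _)).ns r hr
  ⟨3 * K, fun d τ hτ => (n2_le_NS (by linarith [lo_lt (t d) r]) (by linarith [ρ_pos r]) hτ
    (h.sm d)).trans (mul_le_mul_of_nonneg_left (e d) (by norm_num))⟩

theorem ib_sl {φ φ' : D → X.M → ℝ} (h : (ws s hg t).Ib φ') (c : ∀ d, Continuous (φ d))
    (c' : ∀ d, Continuous (φ' d)) (e : ∀ r > 0, ∃ K ≥ 0, ∀ d, ∀ τ ∈ Iv (t d) r,
      sl g s (φ d) τ ≤ K * sl g s (φ' d) τ) : (ws s hg t).Ib φ := fun r hr => by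
  obtain ⟨K, K0, e⟩ := e r hr
  obtain ⟨B, h⟩ := h r hr
  refine ⟨K * B, fun d => ?_⟩
  have l : -1 < t d - ρ r := by linarith [lo_lt (t d) r]
  refine (int_Icc l (c d) _).trans_le ((setIntegral_mono_on (intOn_sl l (c d) _)
    ((intOn_sl l (c' d) _).const_mul K) measurableSet_Icc (e d)).trans ?_)
  rw [integral_const_mul, ← int_Icc l (c' d)]
  exact mul_le_mul_of_nonneg_left (h d) K0

theorem lp0_ψ (c : ∀ d, Continuous (f d)) (c' : ∀ d, Continuous (f' d)) (h : Tr g s t f)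
    (h' : Tr g s t f') : (ws s hg t).Lp 0 fun d => ψ g s (f d) (f' d) := Wn.lp0 fun r hr => by
  obtain ⟨K, h⟩ := h r hr
  obtain ⟨K', h'⟩ := h' r hr
  refine ⟨K + K', fun d x hx => ?_⟩
  rw [ψ, θ_one ((lo_lt _ r).le.trans hx.1), one_mul, Real.norm_eq_abs]
  linarith [ips_abs (g := g) (s := s) (c d) (c' d) (Iv_lt hx), h d _ hx, h' d _ hx,
    abs_nonneg (ips g s (f d) (f' d) (g.ht s x))]

theorem lp2_ψ (c : ∀ d, Sm X.I (f d)) (c' : ∀ d, Sm X.I (f' d)) (h : (ws s hg t).Lp 2 f)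
    (h' : Tr g s t f') : (ws s hg t).Lp 2 fun d => ψ g s (f d) (f' d) :=
  ⟨fun e => absurd e two_ne_zero, ib_sl h.2 (fun d => (sm_ψ (c d) (c' d)).continuous.norm.pow 2)
    (fun d => (c d).continuous.norm.pow 2) fun r hr => by
    obtain ⟨K, h'⟩ := h' r hr
    refine ⟨(g.D s).F.μ.real univ * |K|, by positivity, fun d τ hτ => ?_⟩
    have e : sl g s (fun x => ‖ψ g s (f d) (f' d) x‖ ^ 2) τ =
        (g.D s).F.μ.real univ * ips g s (f d) (f' d) τ ^ 2 := by
      simp [sl, ψ, ht_pt (Iv_lt hτ), θ_one ((lo_lt _ r).le.trans hτ.1)]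
    rw [e, mul_assoc, mul_comm |K|]
    exact mul_le_mul_of_nonneg_left ((ips_sq (c d).continuous (c' d).continuous (Iv_lt hτ)).trans
      (mul_le_mul_of_nonneg_left ((h' d τ hτ).trans (le_abs_self K)) (n2_nn _ _))) (by positivity)⟩

theorem jt_ψ {p : ℕ} (c : ∀ d, Sm X.I (f d)) (c' : ∀ d, Sm X.I (f' d))
    (h0 : (ws s hg t).Lp p fun d => ψ g s (f d) (f' d))
    (h1 : (ws s hg t).Jt p j fun d => ψ g s (g.F.D none (f d)) (f' d))
    (h2 : (ws s hg t).Jt p j fun d => ψ g s (f d) (g.F.D none (f' d))) :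
    (ws s hg t).Jt p (j + 1) fun d => ψ g s (f d) (f' d) :=
  ⟨fun d => sm_ψ (c d) (c' d), h0, fun a => by
    cases a with
    | none => exact (h1.add h2).congr (fun d => g.F.sm_D (sm_ψ (c d) (c' d)) _) fun r _ d x hx =>
        D_ψ_none (c d) (c' d) ((lo_lt _ r).trans_le hx.1)
    | some a => exact (Wn.Jt.cb (Cb_const 0)).eq fun d => congrFun (D_ψ_some (c d) (c' d) a)⟩

theorem ψ0 : ∀ {j : ℕ} {f f' : D → X.M → V}, (ws s hg t).Jt 2 (j + 1) f →
    (ws s hg t).Jt 2 (j + 1) f' → (ws s hg t).Jt 0 j fun d => ψ g s (f d) (f' d)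
  | 0, _, _, h, h' => fun d => sm_ψ (h.sm d) (h'.sm d)
  | _ + 1, _, _, h, h' => jt_ψ h.sm h'.sm (lp0_ψ h.ct h'.ct (tr_of h) (tr_of h'))
      (ψ0 (h.D _) h'.pred) (ψ0 h.pred (h'.D _))

theorem ψL : ∀ {j : ℕ} {f f' : D → X.M → V}, (ws s hg t).Jt 2 j f →
    (ws s hg t).Jt 2 (j + 1) f' → (ws s hg t).Jt 2 j fun d => ψ g s (f d) (f' d)
  | 0, _, _, h, h' => fun d => sm_ψ (h.sm d) (h'.sm d)
  | _ + 1, _, _, h, h' => jt_ψ h.sm h'.sm (lp2_ψ h.sm h'.sm h.lp (tr_of h'))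
      (ψL (h.D _) h'.pred) (ψ0 h (h'.D _)).of0

theorem ψ2 (h : (ws s hg t).Jt 2 (j + 2) f) :
    (ws s hg t).Jt 2 (j + 2) fun d => ψ g s (f d) (f d) :=
  jt_ψ h.sm h.sm (lp2_ψ h.sm h.sm h.lp (tr_of h)) (ψL (h.D _) h)
    ((ψL (h.D none) h).eq fun d x => by rw [ψ, ψ, ips_comm])

variable (g s) in
/-- constant on the slices -/
def Ra (H : X.M → ℝ) : Prop := ∀ τ > -1, ∀ y y', H (g.pt s τ y) = H (g.pt s τ y')

theorem Ra.der {H : X.M → ℝ} (h : Ra g s H) (hs : Sm X.I H) : ∀ a, Ra g s (g.F.D a H)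
  | none => fun τ hτ y y' => (D_none_of hs hτ ((lt_mem_nhds hτ).mono fun t ht => h t ht y y')).trans
      (D_none_of hs hτ (.of_forall fun _ => rfl)).symm
  | some a => fun τ hτ y y' => (D_some_of hs hτ (fun z => h τ hτ z y) a y).trans
      (D_some_of hs hτ (fun z => h τ hτ z y) a y').symm

theorem jt_ra (hf : Tr g s t f) : ∀ {j : ℕ} {H : D → X.M → ℝ}, (∀ d, Ra g s (H d)) →
    (ws s hg t).Jt 0 j H → (ws s hg t).Jt 2 (j + 1) H → (ws s hg t).Jt 2 (j + 1) f →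
    (ws s hg t).Jt 2 (j + 1) fun d x => H d x • f d x
  | 0, H, ra, _, h, h' => .one (fun d => (h.sm d).smul (h'.sm d)) ⟨fun e => absurd e two_ne_zero,
      ib_sl h.lp.2 (fun d => ((h.ct d).smul (h'.ct d)).norm.pow 2) (fun d => (h.ct d).norm.pow 2)
      fun r hr => by
      obtain ⟨K, hf⟩ := hf r hr
      obtain ⟨y⟩ := (hg.cY s).toNonempty
      have := openPos (g.D s).F.toPre
      have m : 0 < (g.D s).F.μ.real univ :=
        ENNReal.toReal_pos (isOpen_univ.measure_ne_zero _ ⟨y, trivial⟩) (measure_ne_top _ _)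
      refine ⟨|K| / (g.D s).F.μ.real univ, by positivity, fun d τ hτ => ?_⟩
      simp only [sl, fun z => ra d τ (Iv_lt hτ) z y, norm_smul, mul_pow, integral_const_mul,
        integral_const, smul_eq_mul]
      rw [← mul_assoc, div_mul_cancel₀ _ m.ne', mul_comm]
      exact mul_le_mul_of_nonneg_right ((hf d τ hτ).trans (le_abs_self K)) (sq_nonneg _)⟩
  | _ + 1, H, ra, h0, h, h' => ⟨fun d => (h.sm d).smul (h'.sm d),
      h0.lp.bil (ContinuousLinearMap.lsmul ℝ ℝ) (holL 2) h'.lp h.ct h'.ct, fun a =>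
      ((jt_ra hf (fun d => (ra d).der (h.sm d) a) (h0.D a) (h.D a) h'.pred).add
        (h0.smul (h'.D a))).eq fun d x =>
        dv_bil (ContinuousLinearMap.lsmul ℝ ℝ) (h.md d x) (h'.md d x)⟩

end fam

theorem χ_zero (v : ℝ → ℝ) : ∀ t < 0, χ t * v t = 0 := fun _ h => by
  rw [χ, smoothTransition.zero_of_nonpos h.le, zero_mul]

theorem sm_H {β : ℝ → ℝ} (hβ : ContDiff ℝ ∞ β) (hu : Sm X.I u) :
    Sm X.I fun x => χ (g.ht s x) * β (g.n2 s u (g.ht s x)) :=
  sm_rad' (c := fun t => χ t * β (g.n2 s u t)) neg_one_lt_zero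
    (smoothTransition.contDiff.contDiffOn.mul (hβ.comp_contDiffOn
      (ips_self (g := g) (s := s) u ▸ sm_sl (sm_inner hu hu)))) (χ_zero _)

theorem ul_rad1 (hg : g.OK) (s : A) {β : ℝ → ℝ} (hβ : ContDiff ℝ ∞ β) (k : ℕ) (M : ℝ) :
    ∃ C, ∀ u : X.M → V, Sm X.I u → g.Ul k u M → (∀ τ, 0 ≤ τ → g.n2 s u τ ≤ M) →
      g.Ul k (fun x => (χ (g.ht s x) * β (g.n2 s u (g.ht s x))) • u x) C := by
  let D := {u : X.M → V // Sm X.I u ∧ g.Ul k u M ∧ ∀ τ, 0 ≤ τ → g.n2 s u τ ≤ M} × ℝ≥0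
  have hu : (ws s hg Prod.snd).Jt 2 (k + 1) fun d : D => d.1.1 :=
    jt_of_ul hg _ (fun d => d.1.2.1) fun d => d.1.2.2.1
  have key : (ws s hg Prod.snd).Jt 2 (k + 1) fun (d : D) x =>
      (χ (g.ht s x) * β (g.n2 s d.1.1 (g.ht s x))) • d.1.1 x := by
    cases k with
    | zero =>
      obtain ⟨B, hB⟩ := (isCompact_Icc (a := 0) (b := M)).exists_bound_of_continuousOn
        hβ.continuous.continuousOn
      refine (Wn.Jt.one (fun d => sm_H hβ d.1.2.1) (Wn.lp0 fun _ _ => ⟨|B|, fun d x _ => ?_⟩)).smul hu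
      rcases lt_or_ge (g.ht s x) 0 with e | e
      · rw [χ_zero (fun t => β (g.n2 s d.1.1 t)) _ e, norm_zero]; exact abs_nonneg B
      · rw [norm_mul, Real.norm_of_nonneg (smoothTransition.nonneg _)]
        exact (mul_le_of_le_one_left (norm_nonneg _) (smoothTransition.le_one _)).trans
          ((hB _ ⟨n2_nn _ _, d.1.2.2.2 _ e⟩).trans (le_abs_self B))
    | succ k =>
      obtain ⟨C, hC⟩ := Nd18.bd_st
      have c : ∀ j, (ws s hg Prod.snd).Jt 0 j fun (_ : D) x => χ (g.ht s x) := fun j =>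
        .cb ⟨_, CBs_rad neg_one_lt_zero hC fun _ h => smoothTransition.zero_of_nonpos h.le⟩
      have e : ∀ (d : D) x, χ (g.ht s x) * β (g.n2 s d.1.1 (g.ht s x)) =
          χ (g.ht s x) • β (ψ g s d.1.1 d.1.1 x) := fun d x => by
        rcases lt_or_ge (g.ht s x) 0 with e | e
        · simp only [χ, smoothTransition.zero_of_nonpos e.le, zero_mul, zero_smul]
        · rw [ψ, θ_one (by linarith), one_mul, ips_self, smul_eq_mul]
      have h0 := (ψ0 hu hu).comp hβ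
      exact jt_ra (tr_of hu) (fun d τ hτ y y' => by simp only [ht_pt hτ])
        (((c _).smul h0).eq e) (((c _).smul ((ψ0 hu hu).comp2 hβ h0.lp (ψ2 hu))).eq e) hu
  obtain ⟨K, hK⟩ := ns_of_jt key
  refine ⟨K, fun u h1 h2 h3 => ul_iff.2 fun j => ?_⟩
  have z : (∀ x ∈ S0 g j, x ∉ g.slab s (0 : ℝ≥0) → g.ht s x < 0) → nS g.F.toPre (S0 g j) k
      (fun x => (χ (g.ht s x) * β (g.n2 s u (g.ht s x))) • u x) ≤ K := fun h =>
    (sqrt_le_sqrt (NS_le_of_zero (cpt_S0 hg j) (cpt_S0 hg (some (s, 0))) ((sm_H hβ h1).smul h1)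
      fun x hx hx' => (ev_rad (χ_zero fun t => β (g.n2 s u t)) (h x hx hx')).mono fun y hy =>
        (congrArg (· • u y) hy).trans (zero_smul _ _))).trans (hK (⟨u, h1, h2, h3⟩, 0))
  cases j with
  | none => exact z fun x hx hx' => not_le.1 fun e => hx' ⟨e, by simpa using hx s⟩
  | some p =>
    obtain ⟨s', τ⟩ := p
    rcases eq_or_ne s' s with rfl | e
    · exact hK (⟨u, h1, h2, h3⟩, τ)
    · exact z fun x hx _ => (ht_ne hg e ((nn_lt τ).trans_le hx.1)).trans_lt neg_one_lt_zero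

theorem ul_rad (hg : g.OK) {β : A → ℝ → ℝ} (hβ : ∀ s, ContDiff ℝ ∞ (β s)) (k : ℕ) (M : ℝ) :
    ∃ C, ∀ u : X.M → V, Sm X.I u → g.Ul k u M → (∀ s τ, 0 ≤ τ → g.n2 s u τ ≤ M) →
      g.Ul k (fun x => g.rd (fun s τ => χ τ * β s (g.n2 s u τ)) x • u x) C := by
  choose C hC using fun s => ul_rad1 (V := V) hg s (hβ s) k M
  refine ⟨∑ s, C s, fun u h1 h2 h3 => ?_⟩
  simp only [Gm.rd, Finset.sum_smul]
  exact ul_sum hg _ (fun s => (sm_H (hβ s) h1).smul h1) fun s => hC s u h1 h2 (h3 s)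

end Crest.Agent.X212.Ulc97
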