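import Crest.Agent.X212.Ulc97.Main
import Crest.Agent.X212.Pb50.Cyl
import Mathlib.Analysis.Calculus.ContDiff.Convolution

/-!
# Row 212, RAD-TRM (helper97): averages of functions of the time
-/

set_option autoImplicit false
set_option linter.unusedSectionVars false
noncomputable section
open scoped ContDiff Topology Convolution
open MeasureTheory Set Function Filter Real

namespace Crest.Agent.X212.Ulc97
open Nd18 (BD)
open Sw (bp av)

/-- the window -/
abbrev Iw (t : ℝ) : Set ℝ := Icc (t - 2⁻¹) (t + 2⁻¹)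

/-- convolution -/
abbrev cv (k f : ℝ → ℝ) : ℝ → ℝ := k ⋆[ContinuousLinearMap.mul ℝ ℝ] f

/-- kernels -/
structure Kn (k : ℝ → ℝ) : Prop where
  sm : ContDiff ℝ ∞ k
  sup : tsupport k ⊆ Icc (-2⁻¹) 2⁻¹

variable {k f d : ℝ → ℝ} {t a B : ℝ}

theorem Kn.cs (h : Kn k) : HasCompactSupport k :=
  isCompact_Icc.of_isClosed_subset (isClosed_tsupport k) h.sup

theorem Kn.cd (h : Kn k) (hf : Continuous f) : ContDiff ℝ ∞ (cv k f) :=
  h.cs.contDiff_convolution_left _ h.sm hf.locallyIntegrable

theorem Kn.eq (h : Kn k) (f : ℝ → ℝ) (t : ℝ) : cv k f t = ∫ u in Iw t, k (t - u) * f u := by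
  rw [cv, convolution_mul_swap]
  refine (setIntegral_eq_integral_of_forall_compl_eq_zero fun u hu => ?_).symm
  rw [image_eq_zero_of_notMem_tsupport (f := k) fun e => hu
    ⟨by linarith [(h.sup e).2], by linarith [(h.sup e).1]⟩, zero_mul]

theorem iW (hf : Continuous f) (t : ℝ) : IntegrableOn f (Iw t) :=
  hf.continuousOn.integrableOn_compact isCompact_Icc

theorem Kn.sub (h : Kn k) (hf : Continuous f) (hd : Continuous d) (t : ℝ) :
    cv k f t - cv k d t = cv k (fun u => f u - d u) t := by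
  have := h.sm.continuous
  simp only [h.eq, mul_sub]
  exact (integral_sub (iW (by fun_prop) t) (iW (by fun_prop) t)).symm

theorem Kn.le (h : Kn k) : ∃ K ≥ 0, ∀ f, Continuous f → ∀ t, |cv k f t| ≤ K * ∫ u in Iw t, |f u| := by
  obtain ⟨K, hK⟩ := h.cs.exists_bound_of_continuous h.sm.continuous
  refine ⟨K, (norm_nonneg _).trans (hK 0), fun f hf t => ?_⟩
  rw [h.eq, ← integral_const_mul, ← Real.norm_eq_abs]
  exact norm_integral_le_of_norm_le ((iW hf.abs t).const_mul K) (.of_forall fun s => by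
    simpa using mul_le_mul_of_nonneg_right (hK _) (abs_nonneg _))

theorem Kn.iter (i : ℕ) : ∀ {k}, Kn k → ∃ K ≥ 0, ∀ f, Continuous f → ∀ t,
    |iteratedDeriv i (cv k f) t| ≤ K * ∫ u in Iw t, |f u| := by
  induction i with
  | zero => exact Kn.le
  | succ i ih =>
    intro k h
    obtain ⟨K, K0, e⟩ := ih ⟨(contDiff_infty_iff_deriv.1 h.sm).2, tsupport_deriv_subset.trans h.sup⟩
    refine ⟨K, K0, fun f hf t => ?_⟩
    rw [iteratedDeriv_succ', show deriv (cv k f) = cv (deriv k) f from funext fun s =>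
      (h.cs.hasDerivAt_convolution_left _ (h.sm.of_le (by simp)) hf.locallyIntegrable s).deriv]
    exact e f hf t

theorem Kn.bd (h : Kn k) (B : ℝ) : ∃ C, ∀ f, Continuous f → (∀ t, ∫ u in Iw t, |f u| ≤ B) →
    BD (cv k f) C := by
  choose K K0 e using fun i => h.iter i
  refine ⟨fun j => ∑ i ∈ Finset.range (j + 1), K i * |B|, fun f hf hB => ⟨h.cd hf, fun j i hi t => ?_⟩⟩
  exact ((e i f hf t).trans (mul_le_mul_of_nonneg_left ((hB t).trans (le_abs_self B)) (K0 i))).trans
    (Finset.single_le_sum (f := fun i => K i * |B|) (fun i _ => mul_nonneg (K0 i) (abs_nonneg B))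
      (Finset.mem_range.2 (Nat.lt_succ_of_le hi)))

theorem bd_comp {β h : ℝ → ℝ} {A C : ℕ → ℝ} (hβ : BD β A) (hh : BD h C) :
    BD (fun t => β (h t)) fun j => j.factorial * A j * max 1 (C j) ^ j :=
  ⟨hβ.1.comp hh.1, fun j i hi t => by
    have m := le_max_left 1 (C j)
    rw [← norm_iteratedFDeriv_eq_norm_iteratedDeriv]
    refine (norm_iteratedFDeriv_comp_le (C := A j) (D := max 1 (C j)) hβ.1 hh.1
      (by exact_mod_cast le_top) t (fun l hl => ?_) fun l h1 hl => ?_).trans ?_
    · rw [norm_iteratedFDeriv_eq_norm_iteratedDeriv]; exact hβ.2 j l (hl.trans hi) _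
    · rw [norm_iteratedFDeriv_eq_norm_iteratedDeriv]
      exact (hh.2 j l (hl.trans hi) t).trans ((le_max_right 1 _).trans (le_self_pow₀ m (by omega)))
    · have := hβ.nonneg j
      beta_reduce
      gcongr⟩

theorem bd_cs {β : ℝ → ℝ} (h : ContDiff ℝ ∞ β) (hc : HasCompactSupport β) : ∃ A, BD β A :=
  let ⟨_, e⟩ := hc.exists_bound_of_continuous h.continuous
  (Cht98.deriv_bounds h hc.deriv e).imp fun _ k => ⟨h, k⟩

theorem BD.lip {β : ℝ → ℝ} {A : ℕ → ℝ} (h : BD β A) (x y : ℝ) : |β x - β y| ≤ A 1 * |x - y| :=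
  convex_univ.norm_image_sub_le_of_norm_deriv_le (fun t _ => h.1.differentiable (by simp) t)
    (fun t _ => iteratedDeriv_one (f := β) ▸ h.2 1 1 le_rfl t) trivial trivial

theorem sq_win (hd : Continuous d) (t : ℝ) : (∫ u in Iw t, |d u|) ^ 2 ≤ ∫ u in Iw t, d u ^ 2 := by
  set m := ∫ u in Iw t, |d u|
  have h := integral_mono ((iW hd.abs t).const_mul (2 * m))
    ((iW (continuous_const (y := m ^ 2)) t).add (iW (hd.fun_pow 2) t)) fun u => by
      have := sq_nonneg (m - |d u|); simp only [Pi.add_apply]; linarith [sq_abs (d u)]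
  rw [integral_const_mul, integral_add' (iW continuous_const t) (iW (hd.fun_pow 2) t),
    setIntegral_const, Real.volume_real_Icc_of_le (by linarith), smul_eq_mul] at h
  change 2 * m * m ≤ _ at h
  linarith

/-- the weighted estimate -/
theorem Kn.wt (h : Kn k) : ∃ K ≥ 0, ∀ d a, |a| ≤ 2 → Continuous d →
    Integrable (fun u => d u ^ 2 * exp (a * u)) → Integrable (fun t => cv k d t ^ 2 * exp (a * t)) ∧
      ∫ t, cv k d t ^ 2 * exp (a * t) ≤ K * ∫ u, d u ^ 2 * exp (a * u) := by
  obtain ⟨K, K0, e⟩ := h.le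
  refine ⟨K ^ 2 * exp 1, by positivity, fun d a ha hd hi => ?_⟩
  have i1 : Integrable ((Icc (-2⁻¹ : ℝ) 2⁻¹).indicator fun _ => (1 : ℝ)) :=
    (integrable_indicator_iff measurableSet_Icc).2 (integrableOn_const (by simp))
  have i2 := (i1.integrable_convolution (ContinuousLinearMap.mul ℝ ℝ) hi).const_mul (K ^ 2 * exp 1)
  have h1 : ∀ t, cv k d t ^ 2 * exp (a * t) ≤ K ^ 2 * exp 1 *
      cv ((Icc (-2⁻¹ : ℝ) 2⁻¹).indicator fun _ => (1 : ℝ)) (fun u => d u ^ 2 * exp (a * u)) t := by
    intro t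
    have e1 : cv ((Icc (-2⁻¹ : ℝ) 2⁻¹).indicator fun _ => (1 : ℝ)) (fun u => d u ^ 2 * exp (a * u)) t =
        ∫ u in Iw t, d u ^ 2 * exp (a * u) := by
      rw [cv, convolution_mul_swap, ← integral_indicator measurableSet_Icc]
      refine congrArg _ (funext fun u => ?_)
      by_cases hu : u ∈ Iw t
      · rw [indicator_of_mem hu, indicator_of_mem (show t - u ∈ Icc _ _ from
          ⟨by linarith [hu.2], by linarith [hu.1]⟩), one_mul]
      · rw [indicator_of_notMem hu, indicator_of_notMem fun e => hu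
          ⟨by linarith [e.2], by linarith [e.1]⟩, zero_mul]
    have e2 := (sq_abs _).symm.trans_le ((pow_le_pow_left₀ (abs_nonneg _) (e d hd t) 2).trans
      ((mul_pow _ _ _).trans_le (mul_le_mul_of_nonneg_left (sq_win hd t) (sq_nonneg K))))
    refine (mul_le_mul_of_nonneg_right e2 (exp_pos _).le).trans ?_
    rw [e1, mul_assoc, mul_assoc, ← integral_mul_const, ← integral_const_mul (exp 1)]
    refine mul_le_mul_of_nonneg_left (setIntegral_mono_on ((iW (hd.fun_pow 2) t).mul_const _)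
      (hi.integrableOn.const_mul _) measurableSet_Icc fun u hu => ?_) (sq_nonneg K)
    rw [mul_left_comm, ← exp_add]
    refine mul_le_mul_of_nonneg_left (exp_le_exp.2 ?_) (sq_nonneg _)
    have : |t - u| ≤ 2⁻¹ := abs_le.2 ⟨by linarith [hu.2], by linarith [hu.1]⟩
    have := (le_abs_self _).trans ((abs_mul a (t - u)).trans_le
      (mul_le_mul ha this (abs_nonneg _) two_pos.le))
    linarith
  have i3 : Integrable fun t => cv k d t ^ 2 * exp (a * t) :=
    i2.mono' (((h.cd hd).continuous.fun_pow 2).mul (by fun_prop)).aestronglyMeasurable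
      (.of_forall fun t => (Real.norm_of_nonneg (by positivity)).trans_le (h1 t))
  refine ⟨i3, (integral_mono i3 i2 h1).trans_eq ?_⟩
  rw [integral_const_mul, integral_convolution _ i1 hi, integral_indicator measurableSet_Icc]
  norm_num

/-- the kernel of the average -/
def kn (σ u : ℝ) : ℝ := bp (1 / 2 - σ * u)

theorem kn_ok {σ : ℝ} (hσ : σ = 1 ∨ σ = -1) : Kn (kn σ) := by
  have s1 : ContDiff ℝ ∞ bp := (contDiff_infty_iff_deriv.1 Real.smoothTransition.contDiff).2
  refine ⟨by unfold kn; fun_prop, closure_minimal (fun u hu => ?_) isClosed_Icc⟩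
  have := not_not.1 fun e => hu (Pb50.bp_zero e)
  rcases hσ with rfl | rfl <;> exact ⟨by linarith [this.1, this.2], by linarith [this.1, this.2]⟩

theorem av_cv {σ : ℝ} (hσ : σ = 1 ∨ σ = -1) (f : ℝ → ℝ) (t : ℝ) :
    (av fun p => f (t + σ * (p - 1 / 2))) = cv (kn σ) f t := by
  rw [av, cv, convolution_def]
  rcases hσ with rfl | rfl
  · rw [← integral_sub_left_eq_self _ volume (1 / 2)]
    refine congrArg _ (funext fun u => ?_)
    simp only [kn, one_mul, ContinuousLinearMap.mul_apply']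
    congr 2; ring
  · rw [← integral_add_left_eq_self _ (1 / 2)]
    refine congrArg _ (funext fun u => ?_)
    simp only [kn, ContinuousLinearMap.mul_apply']
    congr 2 <;> ring

end Crest.Agent.X212.Ulc97
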