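import Crest.Agent.X212.Ulc97.Trm1
import Crest.Agent.X212.Dl42.Main

/-!
# Row 212, RAD-TRM (helper97): bounds of the functional
-/

set_option autoImplicit false
set_option linter.unusedSectionVars false
noncomputable section
open scoped Manifold ContDiff Topology InnerProductSpace
open MeasureTheory Set Function Filter Real Asymptotics

namespace Crest.Agent.X212.Ulc97
open An Sob92 Cyf70 Sw Sw.En3 Dl42

section O
variable {D Y N N' : Type} [NormedAddCommGroup N] [NormedSpace ℝ N] [NormedAddCommGroup N']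
  [NormedSpace ℝ N'] {f : D → N} {r r' : D → ℝ}

/-- bounded -/
abbrev O1 (f : D → N) : Prop := f =O[⊤] fun _ => (1 : ℝ)

theorem O1.of {C : ℝ} (h : ∀ d, ‖f d‖ ≤ C) : O1 f := .of_bound C (.of_forall fun d => by simpa using h d)

theorem O_c [TopologicalSpace Y] [CompactSpace Y] {φ : Y → N} (h : Continuous φ) (y : D → Y) :
    O1 fun d => φ (y d) :=
  let ⟨_, e⟩ := (HasCompactSupport.of_compactSpace φ).exists_bound_of_continuous h
  .of fun _ => e _

theorem O1.app {T : D → N →L[ℝ] N'} (hT : O1 T) (hf : f =O[⊤] r) : (fun d => T d (f d)) =O[⊤] r :=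
  (IsBigO.of_norm_le fun d => (T d).le_opNorm _).trans (by simpa using hT.norm_left.mul hf.norm_left)

theorem O1.smul {c : D → ℝ} (hc : O1 c) (hf : f =O[⊤] r) : (fun d => c d • f d) =O[⊤] r := by
  simpa using IsBigO.smul hc hf

theorem O_inner {V : Type} [NormedAddCommGroup V] [InnerProductSpace ℝ V] {f g : D → V}
    (h : f =O[⊤] r) (k : g =O[⊤] r') : (fun d => ⟪f d, g d⟫_ℝ) =O[⊤] fun d => r d * r' d :=
  (IsBigO.of_norm_le fun _ => norm_inner_le_norm _ _).trans (h.norm_left.mul k.norm_left)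

theorem O_sum {α : Type} [Fintype α] {f : α → D → N} (h : ∀ a, f a =O[⊤] r) :
    (fun d => ∑ a, f a d) =O[⊤] r :=
  (IsBigO.sum (s := Finset.univ) fun a _ => h a).congr_left fun d => Finset.sum_apply _ _ _

theorem O_le (h : f =O[⊤] r) (h0 : ∀ d, 0 ≤ r d) : ∃ C ≥ 0, ∀ d, ‖f d‖ ≤ C * r d :=
  let ⟨C, hC, e⟩ := h.exists_nonneg
  ⟨C, hC, fun d => (eventually_top.1 e.bound d).trans_eq (by rw [Real.norm_of_nonneg (h0 d)])⟩

end O

theorem seg_le {N : Type} [NormedAddCommGroup N] [NormedSpace ℝ N] {x y : N} {m r : ℝ}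
    (hr : r ∈ Icc (0 : ℝ) 1) (hx : ‖x‖ ≤ m) (hy : ‖y‖ ≤ m) : ‖(1 - r) • x + r • y‖ ≤ m := by
  refine (norm_add_le _ _).trans ?_
  rw [norm_smul, norm_smul, Real.norm_of_nonneg hr.1, Real.norm_of_nonneg (sub_nonneg.2 hr.2)]
  nlinarith [hr.1, hr.2]

variable {κ lam ν : Type} [Fintype κ] [Fintype lam] [Fintype ν] [DecidableEq ν]
  {e : En3 κ lam ν} {v v' : e.YC}

/-- pointwise bounds of the first jet -/
structure J1 (v : e.YC) (y : e.Y.M) (m p : ℝ) : Prop where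
  a : ∀ k, ‖v.a k y‖ ≤ m
  da : ∀ i k, ‖e.D.F.D i (v.a k) y‖ ≤ m
  Φ : ‖v.Φ y‖ ≤ m
  dΦ : ∀ i, ‖e.D.F.D i v.Φ y‖ ≤ m
  p : ‖v.Φ y‖ ≤ p

/-- the segment -/
def seg (v' v : e.YC) (r : ℝ) : e.YC :=
  ⟨fun k => (1 - r) • v'.a k + r • v.a k, (1 - r) • v'.Φ + r • v.Φ⟩

theorem fam_seg {N : Type} [NormedAddCommGroup N] [NormedSpace ℝ N] {u u' : e.Y.M → N}
    (h' : Sm e.Y.I u') (h : Sm e.Y.I u) :
    Fam e.Y.I (fun r => (1 - r) • u' + r • u) fun _ => u - u' :=
  ⟨((contMDiff_const.sub contMDiff_snd).smul (sm_fst h')).add (contMDiff_snd.smul (sm_fst h)),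
    fun s y => by
      simpa [sub_eq_neg_add] using (((hasDerivAt_id s).const_sub 1).smul_const (u' y)).fun_add
        ((hasDerivAt_id s).smul_const (u y))⟩

theorem D_seg {N : Type} [NormedAddCommGroup N] [NormedSpace ℝ N] {u u' : e.Y.M → N}
    (h' : Sm e.Y.I u') (h : Sm e.Y.I u) (r : ℝ) (i : κ) : e.D.F.D i ((1 - r) • u' + r • u) =
      (1 - r) • e.D.F.D i u' + r • e.D.F.D i u := by
  have k : ∀ (r : ℝ) {u : e.Y.M → N}, Sm e.Y.I u → Sm e.Y.I (r • u) := fun r _ h =>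
    (show Sm e.Y.I fun _ => r from contMDiff_const).smul h
  rw [e.D.F.D_add (k _ h') (k _ h), e.D.F.D_smul h', e.D.F.D_smul h]

theorem fy_seg (h' : Ay v') (h : Ay v) :
    FY (seg v' v) fun _ => ⟨fun k => v.a k - v'.a k, v.Φ - v'.Φ⟩ :=
  ⟨fun k => fam_seg (h'.sa k) (h.sa k), fam_seg h'.sΦ h.sΦ, fun r =>
    ⟨fun k => (fam_seg (h'.sa k) (h.sa k)).sm.sl r, (fam_seg h'.sΦ h.sΦ).sm.sl r, fun k y => by
      simp only [seg, Pi.add_apply, Pi.smul_apply, ← h.pa k y, ← h'.pa k y, smul_add,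
        Finset.sum_add_distrib, Finset.smul_sum, smul_comm (e.D.F.P k _ y)],
    fun y => by simp only [seg, Pi.add_apply, Pi.smul_apply, map_add, map_smul, h.pΦ, h'.pΦ]⟩⟩

theorem J1.seg {y : e.Y.M} {m p r : ℝ} (h' : Ay v') (h : Ay v) (hr : r ∈ Icc (0 : ℝ) 1)
    (k' : J1 v' y m p) (k : J1 v y m p) : J1 (seg v' v r) y m p where
  a i := seg_le hr (k'.a i) (k.a i)
  da i j := by
    rw [Ulc97.seg, D_seg (h'.sa j) (h.sa j)]
    exact seg_le hr (k'.da i j) (k.da i j)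
  Φ := seg_le hr k'.Φ k.Φ
  dΦ i := by
    rw [Ulc97.seg, D_seg h'.sΦ h.sΦ]
    exact seg_le hr (k'.dΦ i) (k.dΦ i)
  p := seg_le hr k'.p k.p

variable (he : e.OK)
include he

theorem L_mvt (h' : Ay v') (h : Ay v) : ∃ r ∈ Icc (0 : ℝ) 1,
    L v - L v' = ip (gr (seg v' v r)) ⟨fun k => v.a k - v'.a k, v.Φ - v'.Φ⟩ := by
  obtain ⟨r, hr, k⟩ := exists_hasDerivAt_eq_slope _ _ zero_lt_one
    ((fy_seg h' h).cd he).continuous.continuousOn fun r _ => (fy_seg h' h).dL he r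
  exact ⟨r, Ioo_subset_Icc_self hr, by rw [k]; simp [seg]⟩

theorem O_ipd {D : Type} {v u : D → e.YC} {y : D → e.Y.M} {m p n n' : D → ℝ} (A : ∀ d, Ay (v d))
    (h : ∀ d, J1 (v d) (y d) (m d) (p d)) (h1 : ∀ d k, ‖(u d).a k (y d)‖ ≤ n d)
    (h2 : ∀ d, ‖(u d).Φ (y d)‖ ≤ n' d) (n0 : ∀ d, 0 ≤ n d) :
    (fun d => ipd (gr (v d)) (u d) (y d)) =O[⊤]
      fun d => (1 + m d + p d ^ 2) * n d + m d * (1 + p d) * n' d := by
  have m0 := fun d => (norm_nonneg _).trans (h d).Φ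
  have p0 := fun d => (norm_nonneg _).trans (h d).p
  have n1 := fun d => (norm_nonneg _).trans (h2 d)
  have a := fun k => IsBigO.of_norm_le (l := ⊤) fun d => (h d).a k
  have da := fun i k => IsBigO.of_norm_le (l := ⊤) fun d => (h d).da i k
  have Φ := IsBigO.of_norm_le (l := ⊤) fun d => (h d).Φ
  have dΦ := fun i => IsBigO.of_norm_le (l := ⊤) fun d => (h d).dΦ i
  have P := IsBigO.of_norm_le (l := ⊤) fun d => (h d).p
  have J : O1 fun _ : D => e.m.J := .of fun _ => le_rfl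
  have τ := fun k => O_c (ContMDiff.continuous ((sy he).sm k)) y
  have le : ∀ {r r' : D → ℝ}, (∀ d, 0 ≤ r d) → (∀ d, r d ≤ r' d) → r =O[⊤] r' := fun k k' =>
    .of_norm_le fun d => (Real.norm_of_nonneg (k d)).trans_le (k' d)
  have o1 : (fun _ => (1 : ℝ)) =O[⊤] fun d => 1 + m d + p d ^ 2 :=
    le (fun _ => zero_le_one) fun d => by linarith [m0 d, sq_nonneg (p d)]
  have o2 : m =O[⊤] fun d => 1 + m d + p d ^ 2 := le m0 fun d => by linarith [sq_nonneg (p d)]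
  have o3 : (fun d => p d * p d) =O[⊤] fun d => 1 + m d + p d ^ 2 :=
    le (fun d => mul_self_nonneg _) fun d => by linarith [m0 d]
  have o4 : m =O[⊤] fun d => m d * (1 + p d) := le m0 fun d => by nlinarith [m0 d, p0 d]
  have o5 : (fun d => m d * p d) =O[⊤] fun d => m d * (1 + p d) :=
    le (fun d => mul_nonneg (m0 d) (p0 d)) fun d => by linarith [m0 d]
  obtain ⟨B, hB⟩ := he.bf 1
  obtain ⟨B', hB'⟩ := isCompact_Icc.exists_bound_of_continuousOn
    (he.sb.continuous.continuousOn (s := Icc 0 1))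
  have b : O1 fun d => e.b (nm (v d)) := .of (C := B') fun d =>
    (le_total (nm (v d)) 1).elim (fun k => hB' _ ⟨integral_nonneg fun _ => by positivity, k⟩) fun k => by
      rw [he.b1 _ k, ← he.b1 1 le_rfl]; exact hB' 1 ⟨zero_le_one, le_rfl⟩
  have ga : ∀ k, (fun d => (gr (v d)).a k (y d)) =O[⊤] fun d => 1 + m d + p d ^ 2 := fun k => by
    simp only [fun d => gr_a he (A d) k, Ga, div_eq_inv_mul]
    refine (((((O_c (sm_g0 he k).continuous y).const_mul_left 2).trans o1).add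
      ((IsBigO.const_mul_left (O_sum fun i => O_sum fun j =>
        (O_c (sm_G he k i j).continuous y).smul (((da i j).sub (da j i)).sub (O_sum fun l =>
          (O_c (e.D.F.c_sm i j l).continuous y).smul (a l)))) _).trans o2)).sub
      (((O_inner (J.app ((τ k).app P)) P).const_mul_left _).trans o3)).add
      ((O1.smul (IsBigO.const_mul_left (O1.of (C := B) fun d => ?_) 2)
        (O_c (sm_ζ he _).continuous y)).trans o1)
    exact iteratedDeriv_one (f := e.f) ▸ hB _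
  have gp : (fun d => (gr (v d)).Φ (y d)) =O[⊤] fun d => m d * (1 + p d) := by
    simp only [fun d => gr_Φ he (A d), GP]
    exact (((((O_sum fun k => (τ k).app ((dΦ k).add
      ((O_c (ContMDiff.continuous ((conA he).sm k)) y).app Φ))).add
      ((O_c (sm_Z he).continuous y).app Φ)).neg_left.trans o4).sub ((O_sum fun k =>
        (a k).smul (J.app ((τ k).app P))).trans o5))).sub ((b.smul Φ).trans o4)
  exact (((O_sum fun k => (ga k).mul (.of_norm_le fun d => h1 d k)).const_mul_left 2).trans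
    (le (fun d => by have := m0 d; have := n0 d; positivity) fun d => le_add_of_nonneg_right
      (by have := m0 d; have := p0 d; have := n1 d; positivity))).add
    (((O_inner gp (.of_norm_le h2)).const_mul_left _).trans (le
      (fun d => by have := m0 d; have := p0 d; have := n1 d; positivity)
      fun d => le_add_of_nonneg_left (by have := m0 d; have := n0 d; positivity)))

/-- differences of the functional -/
theorem L_le : ∃ C ≥ 0, ∀ v' v : e.YC, Ay v' → Ay v → ∀ m p n n' R : e.Y.M → ℝ,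
    (∀ y, J1 v' y (m y) (p y)) → (∀ y, J1 v y (m y) (p y)) → (∀ y, 0 ≤ n y) →
    (∀ y k, ‖v.a k y - v'.a k y‖ ≤ n y) → (∀ y, ‖v.Φ y - v'.Φ y‖ ≤ n' y) → Integrable R e.D.F.μ →
    (∀ y, (1 + m y + p y ^ 2) * n y + m y * (1 + p y) * n' y ≤ R y) →
    |L v - L v'| ≤ C * ∫ y, R y ∂e.D.F.μ := by
  let D := {d : (e.YC × e.YC × e.Y.M) × ℝ × ℝ × ℝ × ℝ // Ay d.1.1 ∧
    J1 d.1.1 d.1.2.2 d.2.1 d.2.2.1 ∧ (∀ k, ‖d.1.2.1.a k d.1.2.2‖ ≤ d.2.2.2.1) ∧
      ‖d.1.2.1.Φ d.1.2.2‖ ≤ d.2.2.2.2 ∧ 0 ≤ d.2.2.2.1}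
  obtain ⟨C, C0, hC⟩ := O_le (O_ipd he (D := D) (fun d => d.2.1) (fun d => d.2.2.1)
    (fun d => d.2.2.2.1) (fun d => d.2.2.2.2.1) fun d => d.2.2.2.2.2) fun d => by
      have := (norm_nonneg _).trans d.2.2.1.Φ
      have := (norm_nonneg _).trans d.2.2.1.p
      have := (norm_nonneg _).trans d.2.2.2.2.1
      have := d.2.2.2.2.2
      positivity
  refine ⟨C, C0, fun v' v h' h m p n n' R k' k n0 h1 h2 hR h3 => ?_⟩
  obtain ⟨r, hr, e1⟩ := L_mvt he h' h
  rw [e1, ← integral_const_mul, ← Real.norm_eq_abs]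
  exact norm_integral_le_of_norm_le (hR.const_mul C) (.of_forall fun y =>
    (hC ⟨((seg v' v r, ⟨fun k => v.a k - v'.a k, v.Φ - v'.Φ⟩, y), m y, p y, n y, n' y),
      (fy_seg h' h).ay r, (k' y).seg h' h hr (k y), h1 y, h2 y, n0 y⟩).trans
      (mul_le_mul_of_nonneg_left (h3 y) C0))

end Crest.Agent.X212.Ulc97
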