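import Crest.Agent.X212.Ulc97.Trm2
import Crest.Agent.X212.Rad94.Leaf
import Crest.Agent.X212.Pb50.Pt
import Crest.Agent.X212.Lw78.Cy
import Crest.Agent.X212.Lw78.Ops

/-!
# Row 212, RAD-TRM (helper97): the terms on a neck
-/

set_option autoImplicit false
set_option linter.unusedSectionVars false
noncomputable section
open scoped Manifold ContDiff Topology InnerProductSpace NNReal
open MeasureTheory Set Function Filter Real

namespace Crest.Agent.X212.Ulc97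
open An Cyf70 Ell97 Sob92 Rad94 Sw Sw.En3 Dl42
open Nd18 (BD)
open M (Mf pm)

theorem θ_mem (t : ℝ) : θ t ∈ Icc (0 : ℝ) 1 := ⟨smoothTransition.nonneg _, smoothTransition.le_one _⟩

theorem cd_θ : ContDiff ℝ ∞ θ := smoothTransition.contDiff.comp (by fun_prop)

theorem bd_θ : ∃ C, BD θ C :=
  (Cht98.deriv_bounds cd_θ (Lw78.hcs_deriv (p := -1) (q := 0) (fun t h => by
    simpa using θ_zero (fun _ => 1) t (by linarith)) fun t h => θ_one (by linarith)) fun t =>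
      (Real.norm_of_nonneg (θ_mem t).1).trans_le (θ_mem t).2).imp fun _ h => ⟨cd_θ, h⟩

theorem cont_cut {f : ℝ → ℝ} (hf : ContinuousOn f (Ioi (-1))) : Continuous fun t => θ t * f t :=
  continuous_iff_continuousAt.2 fun t => by
    rcases lt_or_ge (-1) t with h | h
    · exact cd_θ.continuous.continuousAt.mul (hf.continuousAt (Ioi_mem_nhds h))
    · exact continuousAt_const.congr ((gt_mem_nhds (show t < -(3 / 4) by linarith)).mono
        fun u hu => (θ_zero f u hu).symm)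

section gm
variable {κ lam A : Type} [Fintype κ] [Fintype lam] [Fintype A] {X : Mf 4}
  {N : Type} [NormedAddCommGroup N] [NormedSpace ℝ N] {g : Gm X κ lam A} {s : A} {u : X.M → N}
  {ε : ℝ}

theorem chi_eq (x : X.M) : (g.K s).χ x = χ (g.ht s x) := by
  unfold Nd18.Nk.χ Nd18.Nk.cut Nd18.ct Gm.ht Gm.sg pm
  rw [g.hp, g.hq]
  cases g.sd s <;> simp

variable (g) in
/-- the square of the first jet -/
def jn (u : X.M → N) (x : X.M) : ℝ := ‖u x‖ ^ 2 + ∑ i, ‖g.F.D i u x‖ ^ 2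

theorem jn_le (x : X.M) : ‖u x‖ ^ 2 ≤ jn g u x ∧ ∀ i, ‖g.F.D i u x‖ ^ 2 ≤ jn g u x :=
  ⟨le_add_of_nonneg_right (by positivity), fun i => (Finset.single_le_sum
    (f := fun i => ‖g.F.D i u x‖ ^ 2) (fun _ _ => by positivity) (Finset.mem_univ i)).trans
    (le_add_of_nonneg_left (by positivity))⟩

theorem cont_jn (hu : Sm X.I u) : Continuous (jn g u) := (hu.continuous.norm.fun_pow 2).add
  (continuous_finsetSum _ fun i _ => (g.F.sm_D hu i).continuous.norm.fun_pow 2)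

theorem int_jn {S : Set X.M} (hS : IsCompact S) (hu : Sm X.I u) :
    ∫ x in S, jn g u x ∂g.F.μ = NS g.F.toPre S 1 u := by
  have i := fun {u : X.M → N} (hu : Sm X.I u) => int_sq (FS0 (F := g.F.toPre) hS hu.continuous)
  have i' := fun j (_ : j ∈ Finset.univ) => i (g.F.sm_D hu j)
  exact (integral_add (i hu) (integrable_finsetSum _ i')).trans
    (congrArg _ (integral_finsetSum _ i'))

theorem win_le (hg : g.OK) {f : X.M → ℝ} (hf : Continuous f) (h0 : ∀ x, 0 ≤ f x) {B : ℝ}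
    (h : ∀ j, ∫ x in S0 g j, f x ∂g.F.μ ≤ B) {φ : ℝ → ℝ} (hφ : ContinuousOn φ (Ioi (-1)))
    (e : ∀ τ > -1, |φ τ| ≤ sl g s f τ) (t : ℝ) : ∫ u in Iw t, |θ u * φ u| ≤ B := by
  have c := (cont_cut hφ).abs
  have key : ∀ a b j, -1 < a → g.ht s ⁻¹' Icc a b ⊆ S0 g j →
      ∫ u in Icc a b, |θ u * φ u| ≤ B := fun a b j ha hj => by
    refine (setIntegral_mono_on (c.continuousOn.integrableOn_compact isCompact_Icc)
      (intOn_sl (s := s) ha hf b) measurableSet_Icc fun u hu => ?_).trans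
      ((int_Icc ha hf b).symm.trans_le ((setIntegral_mono_set
        (hf.continuousOn.integrableOn_compact (cpt_S0 hg j)) (.of_forall h0) hj.eventuallyLE).trans (h j)))
    rw [abs_mul, abs_of_nonneg (θ_mem u).1]
    exact (mul_le_of_le_one_left (abs_nonneg _) (θ_mem u).2).trans (e u (ha.trans_le hu.1))
  rcases le_total 2⁻¹ t with ht | ht
  · exact key _ _ (some (s, ⟨t - 2⁻¹, sub_nonneg.2 ht⟩)) (by linarith) fun x hx =>
      ⟨hx.1, hx.2.trans_eq (show t + 2⁻¹ = t - 2⁻¹ + 1 by ring)⟩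
  · refine le_trans ?_ (key (-(3 / 4)) 1 none (by norm_num) fun x hx =>
      mem_cor hg (by linarith [hx.1]) hx.2)
    rw [setIntegral_eq_of_subset_of_forall_sdiff_eq_zero (s := Iw t ∩ Icc (-(3 / 4)) 1)
      measurableSet_Icc inter_subset_left fun u hu => by
        rw [θ_zero φ u (not_le.1 fun k => hu.2 ⟨hu.1, k, by linarith [hu.1.2]⟩), abs_zero]]
    exact setIntegral_mono_set (c.continuousOn.integrableOn_compact isCompact_Icc)
      (.of_forall fun _ => abs_nonneg _) inter_subset_right.eventuallyLE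

theorem wt_int (hg : g.OK) (hε : ε ∈ Ioc (0 : ℝ) 1) (hu : Continuous u) (hF : g.Fi (fun _ => ε) u) :
    Integrable (fun σ => θ σ * (g.n2 s u σ * exp (-(2 * ε) * σ))) ∧
      ∫ σ, θ σ * (g.n2 s u σ * exp (-(2 * ε) * σ)) ≤ exp 2 * g.Q (fun _ => ε) u := by
  have c : Continuous fun σ => θ σ * (g.n2 s u σ * exp (-(2 * ε) * σ)) :=
    cont_cut ((contOn_n2 hu).mul (by fun_prop))
  have p : ∀ σ, 0 ≤ g.n2 s u σ * exp (-(2 * ε) * σ) := fun σ => mul_nonneg (n2_nn u σ) (exp_pos _).le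
  have l := fun σ => mul_le_of_le_one_left (p σ) (θ_mem σ).2
  have z : ∀ σ ∈ Iic (0 : ℝ) \ Icc (-(3 / 4)) 0, θ σ * (g.n2 s u σ * exp (-(2 * ε) * σ)) = 0 :=
    fun σ h => θ_zero (fun σ => g.n2 s u σ * exp (-(2 * ε) * σ)) σ (not_le.1 fun k => h.2 ⟨k, h.1⟩)
  have i0 := c.continuousOn.integrableOn_compact (μ := volume) (isCompact_Icc (a := -(3 / 4)) (b := 0))
  have i1 := i0.of_forall_sdiff_eq_zero measurableSet_Iic z
  have i2 : IntegrableOn _ (Ioi (0 : ℝ)) := (hF s).mono' c.aestronglyMeasurable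
    (.of_forall fun σ => (Real.norm_of_nonneg (mul_nonneg (θ_mem σ).1 (p σ))).trans_le (l σ))
  have a : (-1 : ℝ) < -(3 / 4) := by norm_num
  refine ⟨by simpa using i1.union i2, ?_⟩
  rw [← intervalIntegral.integral_Iic_add_Ioi i1 i2,
    setIntegral_eq_of_subset_of_forall_sdiff_eq_zero measurableSet_Iic Icc_subset_Iic_self z]
  have h1 := (setIntegral_mono_on i0 ((intOn_sl a (hu.norm.pow 2) 0).const_mul (exp 2))
    measurableSet_Icc fun σ h => (l σ).trans ((mul_comm _ _).trans_le (mul_le_mul_of_nonneg_right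
      (exp_le_exp.2 (by nlinarith [h.1, h.2, hε.1, hε.2])) (n2_nn u σ)))).trans_eq
    ((integral_const_mul _ _).trans (congrArg _ (NS0_Icc a hu 0).symm))
  have h2 : NS g.F.toPre (g.ht s ⁻¹' Icc (-(3 / 4)) 0) 0 u ≤ g.q0 u :=
    NS_mono (FS0 (hg.cpt 0) hu) fun x hx => mem_cor hg (a.trans_le hx.1) hx.2
  have h3 := (setIntegral_mono_on i2 (hF s) measurableSet_Ioi fun σ _ => l σ).trans
    (Finset.single_le_sum (f := fun s => ∫ τ in Ioi 0, g.n2 s u τ * exp (-(2 * ε) * τ))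
      (fun _ _ => end_nn u _) (Finset.mem_univ s))
  have h4 := one_le_exp two_pos.le
  refine (add_le_add (h1.trans (mul_le_mul_of_nonneg_left h2 (exp_pos 2).le))
    (h3.trans (le_mul_of_one_le_left (Finset.sum_nonneg fun _ _ => end_nn u _) h4))).trans_eq ?_
  rw [Gm.Q, mul_add]

theorem Q_rd (hg : g.OK) {c : A → ℝ → ℝ} (h0 : ∀ s, ∀ t ≤ 0, c s t = 0) {B : A → ℝ}
    (h : ∀ s, IntegrableOn (fun t => c s t ^ 2 * exp (-(2 * ε) * t)) (Ioi 0) ∧
      ∫ t in Ioi 0, c s t ^ 2 * exp (-(2 * ε) * t) ≤ B s) :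
    g.Fi (fun _ => ε) (g.rd c) ∧ g.Q (fun _ => ε) (g.rd c) ≤ ∑ s, (g.D s).F.μ.real univ * B s := by
  have e : ∀ s, EqOn (fun τ => (g.D s).F.μ.real univ * (c s τ ^ 2 * exp (-(2 * ε) * τ)))
      (fun τ => g.n2 s (g.rd c) τ * exp (-(2 * ε) * τ)) (Ioi 0) := fun s τ hτ => by
    have := fun y => (rd_eq (s := s) hg (fun s t ht => h0 s t (by linarith))
      (x := g.pt s τ y) (by rw [ht_pt (Ioi_sub hτ)]; exact Ioi_sub hτ)).trans
      (congrArg _ (ht_pt (Ioi_sub hτ) y))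
    simp [Gm.n2, this, mul_assoc]
  refine ⟨fun s => IntegrableOn.congr_fun ((h s).1.const_mul _) (e s) measurableSet_Ioi, ?_⟩
  rw [Gm.Q, Gm.q0, setIntegral_eq_zero_of_forall_eq_zero fun x hx => by
    rw [Gm.rd, Finset.sum_eq_zero fun s _ => h0 s _ (hx s)]; simp, zero_add]
  refine Finset.sum_le_sum fun s _ => ?_
  rw [← setIntegral_congr_fun measurableSet_Ioi (e s), integral_const_mul]
  exact mul_le_mul_of_nonneg_left (h s).2 measureReal_nonneg

end gm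

variable {κ lam ν : Type} [Fintype κ] [Fintype lam] [Fintype ν] [DecidableEq ν]
  {X : Mf 4} {nc : ℕ} {e : Bool → En3 κ lam ν} {Z : Pz X nc e} (z : Two Z) (s : Bool)
  {c c' : Cfg X.M κ ν} {τ : ℝ}

/-- the slice at the height `τ` -/
def vs (c : Cfg X.M κ ν) (τ : ℝ) : (e s).YC := En3.sl ((z.K s).pb c) (z.gm.tt s τ)

/-- the averaged level -/
def lbt (c : Cfg X.M κ ν) : ℝ → ℝ := cv (kn (z.gm.sg s)) fun t => θ t * L (vs z s c t)

variable {z s}

theorem tt_J (h : -1 < τ) : z.gm.tt s τ ∈ (z.K s).J := (mem_J (g := z.gm)).2 (by rwa [sg_tt])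

theorem ay_vs (hc : Z.bg.Adm c) (h : -1 < τ) : Ay (vs z s c τ) :=
  ay_of (Pb50.sl_adm fun y => Pb50.la_ψ _ (Pb50.src _ (tt_J h) y) (.of_adm hc _))

theorem j1_vs (hc : Z.bg.Adm c) (h : -1 < τ) (y : (e s).Y.M) {m p : ℝ}
    (h1 : ‖vc c.a (z.gm.pt s τ y)‖ ≤ m) (h2 : ∀ i, ‖z.gm.F.D i (vc c.a) (z.gm.pt s τ y)‖ ≤ m)
    (h3 : ‖c.Φ (z.gm.pt s τ y)‖ ≤ m) (h4 : ∀ i, ‖z.gm.F.D i c.Φ (z.gm.pt s τ y)‖ ≤ m)
    (h5 : ‖c.Φ (z.gm.pt s τ y)‖ ≤ p) : J1 (vs z s c τ) y m p where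
  a k := (PiLp.norm_apply_le (vc c.a (z.gm.pt s τ y)) (some k)).trans h1
  da i k := ((congrArg _ ((Lw78.D_ev (Lw78.sm_fm hc.sa) (some i) (some k)).trans
    (D_some_pt (g := z.gm) (hc.sa _) h i y))).ge.trans (PiLp.norm_apply_le _ _)).trans (h2 (some i))
  Φ := h3
  dΦ i := (congrArg _ (D_some_pt (g := z.gm) hc.sΦ h i y)).ge.trans (h4 (some i))
  p := h5

theorem ms_eq (T : (e s).YT) (c : Cfg X.M κ ν) (x : X.M) : (z.K s).ms T c x =
    (θ (z.gm.ht s x) * T.b (lbt z s c (z.gm.ht s x))) • (z.K s).ext T.fo x := by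
  rcases le_total (z.gm.ht s x) 0 with h | h
  · rw [Nk.ms, Nd18.Nk.ext, (chi_eq (g := z.gm) x).trans (smoothTransition.zero_of_nonpos h),
      zero_smul, smul_zero, smul_zero]
  · rw [θ_one (by linarith), one_mul, lbt, ← av_cv (sg_cases z.gm s), Nk.ms, lb, av, av]
    congr 3 with p
    by_cases hp : p ∈ Icc (0 : ℝ) 1
    · have : |z.gm.sg s * (p - 1 / 2)| ≤ 2⁻¹ := by
        rw [abs_mul, abs_sg, one_mul]; exact abs_le.2 ⟨by linarith [hp.1], by linarith [hp.2]⟩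
      rw [θ_one (by linarith [(abs_le.1 this).1]), one_mul, vs]
      congr 3
      rw [show (z.K s).tm x = z.gm.tt s (z.gm.ht s x) from (tt_sg _).symm, Gm.tt, Gm.tt]
      linear_combination (1 / 2 - p) * sg_sq z.gm s
    · rw [Pb50.bp_zero hp, zero_mul, zero_mul]

variable (he : (e s).OK)
include he

theorem cont_L (hc : Z.bg.Adm c) : ContinuousOn (fun t => L (vs z s c t)) (Ioi (-1)) :=
  (dl _ he _ _ Nd18.isOpen_Jv (Pb50.admOn_pb (z.K s) hc)).1.continuousOn.comp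
    (sm_tt z.gm s).continuous.continuousOn fun _ h => tt_J h

variable (hg : z.gm.OK)
include hg

theorem bd_lbt (M : ℝ) : ∃ C, ∀ c, Z.bg.Adm c → z.gm.Ul 1 (vc c.a) M → z.gm.Ul 1 c.Φ M →
    BD (lbt z s c) C := by
  obtain ⟨C, C0, hC⟩ := L_le he
  obtain ⟨C1, h1⟩ := ul_cb (N := ℝ) hg 0
  obtain ⟨C2, h2⟩ := ul_l4 (Eu ν) (Eu ν) ℝ hg 0
  let ip : Eu ν →L[ℝ] Eu ν →L[ℝ] ℝ := innerSL ℝ
  obtain ⟨B, hB⟩ := (kn_ok (sg_cases z.gm s)).bd
    (C * 4 * ((C1 * ‖(1 : ℝ)‖) ^ 2 + M ^ 2 + M ^ 2 + (C2 * ‖ip‖ * M * M) ^ 2))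
  refine ⟨B, fun c hc u1 u2 => hB _ (cont_cut (cont_L he hc)) ?_⟩
  have sa : Sm X.I (vc c.a) := Lw78.sm_fm hc.sa
  have c1 : Continuous fun _ : X.M => ‖(1 : ℝ)‖ ^ 2 := continuous_const
  have c2 := cont_jn (g := z.gm) sa
  have c3 := cont_jn (g := z.gm) hc.sΦ
  have c4 : Continuous fun x => ‖ip (c.Φ x) (c.Φ x)‖ ^ 2 := by have := hc.sΦ.continuous; fun_prop
  have c5 := ((c1.add c2).add c3).add c4
  have p := fun {N : Type} [NormedAddCommGroup N] [NormedSpace ℝ N] (u : X.M → N) x =>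
    (sq_nonneg _).trans (jn_le (g := z.gm) (u := u) x).1
  refine win_le (s := s) hg ((continuous_const (y := C * 4)).mul c5) (fun x => by
    have := p (vc c.a) x; have := p c.Φ x; simp only [Pi.mul_apply, Pi.add_apply]; positivity)
    (fun j => ?_) (cont_L he hc) fun τ hτ => ?_
  · have i := fun {f : X.M → ℝ} (h : Continuous f) =>
      h.continuousOn.integrableOn_compact (μ := z.gm.F.μ) (cpt_S0 hg j)
    simp only [Pi.mul_apply]
    rw [integral_const_mul, integral_add' (i ((c1.add c2).add c3)) (i c4),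
      integral_add' (i (c1.add c2)) (i c3), integral_add' (i c1) (i c2), int_jn (cpt_S0 hg j) sa,
      int_jn (cpt_S0 hg j) hc.sΦ]
    exact mul_le_mul_of_nonneg_left (add_le_add (add_le_add (add_le_add
      (ul_NS (h1 _ _ contMDiff_const (CB_const 0 1)) j) (ul_NS u1 j)) (ul_NS u2 j))
      (ul_NS ((h2 (fun _ => ip) _ _ _ _ _ contMDiff_const hc.sΦ hc.sΦ (CB_const 0 _)).1 u2 u2) j))
      (by positivity)
  · have A0 : Ay (⟨0, 0⟩ : (e s).YC) := ⟨fun _ => contMDiff_const, contMDiff_const, by simp, by simp⟩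
    set m := fun y => √(jn z.gm (vc c.a) (z.gm.pt s τ y) + jn z.gm c.Φ (z.gm.pt s τ y))
    have q : ∀ y, J1 (vs z s c τ) y (m y) ‖c.Φ (z.gm.pt s τ y)‖ := fun y =>
      j1_vs hc hτ y (le_sqrt_of_sq_le ((jn_le _).1.trans (le_add_of_nonneg_right (p _ _))))
        (fun i => le_sqrt_of_sq_le (((jn_le _).2 i).trans (le_add_of_nonneg_right (p _ _))))
        (le_sqrt_of_sq_le ((jn_le _).1.trans (le_add_of_nonneg_left (p _ _))))
        (fun i => le_sqrt_of_sq_le (((jn_le _).2 i).trans (le_add_of_nonneg_left (p _ _)))) le_rfl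
    have := hC _ _ A0 (ay_vs hc hτ) m _ m _ _ (fun y => ⟨by simp [m], by simp [m, Pre.D_def, dv_zero],
      by simp [m], by simp [m, Pre.D_def, dv_zero], by simp⟩) q (fun y => sqrt_nonneg _)
      (fun y k => by simpa using (q y).a k) (fun y => by simpa using (q y).p)
      ((int_pt (g := z.gm) (s := s) c5 hτ).const_mul 4) fun y => by
        have e1 : m y ^ 2 = _ := sq_sqrt (add_nonneg (p _ _) (p _ _))
        have e2 : ‖c.Φ (z.gm.pt s τ y)‖ ≤ m y := (q y).Φ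
        have e3 : ‖ip (c.Φ (z.gm.pt s τ y)) (c.Φ (z.gm.pt s τ y))‖ = ‖c.Φ (z.gm.pt s τ y)‖ ^ 2 := by
          rw [← real_inner_self_eq_norm_sq]
          exact Real.norm_of_nonneg (real_inner_self_nonneg (x := c.Φ (z.gm.pt s τ y)))
        simp only [Pi.add_apply, e3, norm_one, add_assoc (1 ^ 2 : ℝ), ← e1]
        have e4 := norm_nonneg (c.Φ (z.gm.pt s τ y))
        generalize ‖c.Φ (z.gm.pt s τ y)‖ = a, m y = b at *
        nlinarith [sq_nonneg (b - a ^ 2), sq_nonneg (b - 1), mul_le_mul_of_nonneg_left e2 (e4.trans e2)]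
    rw [L_eq he A0, sub_self, sub_zero, integral_const_mul, ← mul_assoc] at this
    exact this.trans_eq (sl_mul (g := z.gm) (s := s) _ _).symm

/-- bounds of a term -/
theorem cb_ms (T : (e s).YT) (M : ℝ) : ∃ C, ∀ c, Z.bg.Adm c → z.gm.Ul 1 (vc c.a) M →
    z.gm.Ul 1 c.Φ M → Z.bg.F.CBs ((z.K s).ms T c) C := by
  obtain ⟨C, hC⟩ := bd_lbt he hg M
  obtain ⟨A, hA⟩ := bd_cs T.sb (.of_support_subset_isCompact he.S T.S)
  obtain ⟨B, hB⟩ := bd_θ
  obtain ⟨E, hE⟩ := (z.K s).cb_ext T.sf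
  have := fun c hc h1 h2 => CBs_rad (g := z.gm) (s := s) (by norm_num)
    (hB.mul (bd_comp hA (hC c hc h1 h2))) (θ_zero _)
  simp only [fun c => funext (ms_eq (z := z) T c)]
  exact ⟨_, fun c hc h1 h2 => ⟨(this c hc h1 h2).1.smul hE.1, fun k => CB_bil
    (ContinuousLinearMap.lsmul ℝ ℝ) (this c hc h1 h2).1 hE.1 ((this c hc h1 h2).2 k) (hE.2 k)⟩⟩

theorem lip_lbt (M : ℝ) {ε : ℝ} (hε : ε ∈ Ioc (0 : ℝ) 1) : ∃ C ≥ 0, ∀ c c', Z.bg.Adm c → Z.bg.Adm c' →
    Z.bg.F.CB 1 (vc c.a) M → Z.bg.F.CB 1 c.Φ M → Z.bg.F.CB 1 (vc c'.a) M → Z.bg.F.CB 1 c'.Φ M →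
    Integrable (fun t => (lbt z s c t - lbt z s c' t) ^ 2 * exp (-(2 * ε) * t)) ∧
      ∫ t, (lbt z s c t - lbt z s c' t) ^ 2 * exp (-(2 * ε) * t) ≤
        C * (z.gm.Q (fun _ => ε) (vc (c.a - c'.a)) + z.gm.Q (fun _ => ε) (c.Φ - c'.Φ)) := by
  obtain ⟨C, C0, hC⟩ := L_le he
  obtain ⟨K, K0, hK⟩ := (kn_ok (sg_cases z.gm s)).wt
  set R := (C * (1 + |M| + |M| ^ 2 + |M| * (1 + |M|))) ^ 2 * (((e s).D.F.μ.real univ + 1) * 2)
  have R0 : 0 ≤ R := by positivity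
  refine ⟨K * (R * exp 2), by positivity, fun c c' hc hc' a1 p1 a2 p2 => ?_⟩
  have ca : Continuous (vc (c.a - c'.a)) :=
    (Lw78.sm_fm (a := c.a - c'.a) fun i => (hc.sa i).sub (hc'.sa i)).continuous
  have cp : Continuous (c.Φ - c'.Φ) := (hc.sΦ.sub hc'.sΦ).continuous
  have fi := fun {N : Type} [NormedAddCommGroup N] [NormedSpace ℝ N] {u : X.M → N}
    (h : Continuous u) (k : ∀ x, ‖u x‖ ≤ M + M) => wt_int (s := s) hg hε h
      ((q_small hg hε.1).choose_spec.2 u 0 _ _ le_rfl h (fun x _ => k x) k).1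
  obtain ⟨i1, b1⟩ := fi ca fun x => (norm_sub_le (vc c.a x) (vc c'.a x)).trans
    (add_le_add (CB_bound a1 x) (CB_bound a2 x))
  obtain ⟨i2, b2⟩ := fi cp fun x => (norm_sub_le _ _).trans (add_le_add (CB_bound p1 x) (CB_bound p2 x))
  have d1 := cont_cut (cont_L (z := z) he hc)
  have d2 := cont_cut (cont_L (z := z) he hc')
  have j : ∀ {c : Cfg X.M κ ν}, Z.bg.Adm c → Z.bg.F.CB 1 (vc c.a) M → Z.bg.F.CB 1 c.Φ M →
      ∀ τ > -1, ∀ y, J1 (vs z s c τ) y |M| |M| := fun hc a p τ h y =>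
    j1_vs hc h y (CB_bound (CB_abs a) _) (fun i => CB_bound (CB_D (CB_abs a) i) _)
      (CB_bound (CB_abs p) _) (fun i => CB_bound (CB_D (CB_abs p) i) _) (CB_bound (CB_abs p) _)
  have h1 : ∀ σ, (θ σ * L (vs z s c σ) - θ σ * L (vs z s c' σ)) ^ 2 * exp (-(2 * ε) * σ) ≤
      R * (θ σ * (z.gm.n2 s (vc (c.a - c'.a)) σ * exp (-(2 * ε) * σ)) +
        θ σ * (z.gm.n2 s (c.Φ - c'.Φ) σ * exp (-(2 * ε) * σ))) := fun σ => by
    rcases lt_or_ge (-1) σ with h | h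
    swap
    · have : θ σ = 0 := by simpa using θ_zero (fun _ => 1) σ (by linarith)
      simp [this]
    have c0 := (ca.norm.add cp.norm).comp (cont_pt (g := z.gm) (s := s) h)
    have k1 := hC _ _ (ay_vs hc' h) (ay_vs hc h) _ _ _ _ _ (j hc' a2 p2 σ h) (j hc a1 p1 σ h)
      (fun y => norm_nonneg (vc (c.a - c'.a) (z.gm.pt s σ y)))
      (fun y k => PiLp.norm_apply_le (vc (c.a - c'.a) (z.gm.pt s σ y)) (some k)) (fun y => le_rfl)
      ((Lw78.intY (e s).D.F.toPre c0).const_mul (1 + |M| + |M| ^ 2 + |M| * (1 + |M|))) fun y => by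
        have := norm_nonneg (vc (c.a - c'.a) (z.gm.pt s σ y))
        have := norm_nonneg ((c.Φ - c'.Φ) (z.gm.pt s σ y))
        have := abs_nonneg M
        exact (add_le_add (mul_le_mul_of_nonneg_right (le_add_of_nonneg_right (by positivity))
          (norm_nonneg _)) (mul_le_mul_of_nonneg_right (le_add_of_nonneg_left (by positivity))
          (norm_nonneg _))).trans_eq (mul_add _ _ _).symm
    rw [integral_const_mul, ← mul_assoc] at k1
    have k2 := (Lw78.sq_int (e s).D.F.toPre c0).trans (mul_le_mul_of_nonneg_left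
      ((sl_mono (g := z.gm) (s := s) ((ca.norm.add cp.norm).pow 2) (continuous_const.mul
        ((ca.norm.pow 2).add (cp.norm.pow 2))) h fun y => add_sq_le).trans_eq ((sl_mul _ _).trans
        (congrArg _ (sl_add (ca.norm.pow 2) (cp.norm.pow 2) h)))) (by positivity))
    have k3 := ((sq_abs _).symm.trans_le (pow_le_pow_left₀ (abs_nonneg _) k1 2)).trans
      ((mul_pow _ _ _).trans_le (mul_le_mul_of_nonneg_left k2 (sq_nonneg _)))
    have k4 := mul_le_mul (mul_le_of_le_one_left (θ_mem σ).1 (θ_mem σ).2) k3 (sq_nonneg _) (θ_mem σ).1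
    refine Eq.trans_le ?_ ((mul_le_mul_of_nonneg_right k4 (exp_pos (-(2 * ε) * σ)).le).trans_eq ?_)
    · ring
    · simp only [R, n2_eq, Pi.pow_def]; ring
  have i3 := ((i1.add i2).const_mul R).mono' ((((d1.sub d2).fun_pow 2).mul
    (show Continuous fun σ => exp (-(2 * ε) * σ) by fun_prop)).aestronglyMeasurable)
    (.of_forall fun σ => (Real.norm_of_nonneg (mul_nonneg (sq_nonneg _) (exp_pos _).le)).trans_le (h1 σ))
  obtain ⟨i4, b4⟩ := hK _ (-(2 * ε)) (abs_le.2 ⟨by linarith [hε.2], by linarith [hε.1]⟩) (d1.sub d2) i3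
  simp only [lbt, (kn_ok (sg_cases z.gm s)).sub d1 d2]
  refine ⟨i4, b4.trans ?_⟩
  rw [mul_assoc, mul_assoc, mul_add (exp 2)]
  refine mul_le_mul_of_nonneg_left ((integral_mono i3 ((i1.add i2).const_mul R) h1).trans ?_) K0
  rw [integral_const_mul, integral_add' i1 i2]
  exact mul_le_mul_of_nonneg_left (add_le_add b1 b2) R0

end Crest.Agent.X212.Ulc97
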