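import Crest.Agent.X212.Ulc97.Int
import Crest.Agent.X212.Lw78.Hb

/-!
# Row 212, RAD-UL (helper97): windows; elliptic estimate, embeddings, products
-/

set_option autoImplicit false
set_option linter.unusedSectionVars false
set_option maxSynthPendingDepth 5
noncomputable section
open scoped Manifold ContDiff Topology InnerProductSpace NNReal
open MeasureTheory Set Function Filter Real

namespace Crest.Agent.X212.Ulc97
open An Cyf70 Ell97 Sob92 Rad94 Lw78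
open Nd18 (YD BD)
open M (Mf pm)

variable {κ lam A : Type} [Fintype κ] [Fintype lam] [Fintype A] {X : Mf 4}
  {N N' : Type} [NormedAddCommGroup N] [NormedSpace ℝ N] [NormedAddCommGroup N'] [NormedSpace ℝ N']
  {U V W : Type} [NormedAddCommGroup U] [InnerProductSpace ℝ U] [FiniteDimensional ℝ U]
  [NormedAddCommGroup V] [InnerProductSpace ℝ V] [FiniteDimensional ℝ V]
  [NormedAddCommGroup W] [InnerProductSpace ℝ W] [FiniteDimensional ℝ W]
  {g : Gm X κ lam A} {s : A} {τ r r' R : ℝ} {x : X.M} {u : X.M → N} {k : ℕ} {D : Type}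

/-- the width of the margin -/
def ρ (r : ℝ) : ℝ := (2 * (1 + exp r))⁻¹

theorem ρ_pos (r : ℝ) : 0 < ρ r := by unfold ρ; positivity

theorem ρ_lt (r : ℝ) : ρ r < 2⁻¹ := inv_strictAnti₀ two_pos (by linarith [exp_pos r])

theorem ρ_anti (h : r < r') : ρ r' < ρ r :=
  inv_strictAnti₀ (by positivity) (by linarith [exp_lt_exp.2 h])

variable (g) in
/-- the pieces with margins -/
def SW : Option (A × ℝ≥0) → ℝ → Set X.M
  | none, r => g.cor (1 + ρ r)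
  | some p, r => g.ht p.1 ⁻¹' Icc (p.2 - ρ r) (p.2 + 1 + ρ r)

theorem lo_lt (t : ℝ≥0) (r : ℝ) : -2⁻¹ < t - ρ r := by linarith [ρ_lt r, t.2]

theorem S0_sub : ∀ (j : Option (A × ℝ≥0)) (r : ℝ), S0 g j ⊆ SW g j r
  | none, r => cor_mono (by linarith [ρ_pos r])
  | some _, r => preimage_mono (Icc_subset_Icc (by linarith [ρ_pos r]) (by linarith [ρ_pos r]))

theorem cpt_SW (hg : g.OK) : ∀ (j : Option (A × ℝ≥0)) (r : ℝ), IsCompact (SW g j r)
  | none, _ => hg.cpt _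
  | some p, r => isCompact_ht isCompact_Icc (Icc_sub (by linarith [lo_lt p.2 r]) _)

theorem NS_SW (hg : g.OK) (hu : Sm X.I u) (h : g.Ul k u R) (j : Option (A × ℝ≥0)) (r : ℝ) :
    NS g.F.toPre (SW g j r) k u ≤ (Fintype.card A + 3) * R ^ 2 := by
  have f := fun j => FS_of_compact (F := g.F.toPre) (cpt_S0 hg j) k hu
  have h2 : (0 : ℝ) ≤ Fintype.card A * R ^ 2 := by positivity
  have hρ := ρ_lt r
  cases j with
  | none =>
    refine (NS_cover (R := fun s => S0 g (some (s, 1))) (f none) (fun _ => f _) fun x hx => ?_).trans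
      ((add_le_add (ul_NS h _) (Finset.sum_le_sum fun s _ => ul_NS h _)).trans ?_)
    · refine or_iff_not_imp_left.2 fun e => ?_
      obtain ⟨s, hs⟩ := not_forall.1 e
      exact mem_iUnion.2 ⟨s, (not_le.1 hs).le, (hx s).trans (by simp; linarith)⟩
    · rw [Finset.sum_const, Finset.card_univ, nsmul_eq_mul]
      linarith [sq_nonneg R]
  | some p =>
    refine (NS_cover (R := fun b : Bool => S0 g (some (p.1, bif b then p.2 - 2⁻¹ else p.2 + 2⁻¹)))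
      (f none) (fun _ => f _) fun x hx => ?_).trans
      ((add_le_add (ul_NS h _) (Finset.sum_le_sum fun s _ => ul_NS h _)).trans ?_)
    · have h1 := hx.1
      have h3 := hx.2
      rcases le_total (g.ht p.1 x) 1 with e | e
      · exact .inl (mem_cor hg (by linarith [lo_lt p.2 r]) e)
      rcases le_total (g.ht p.1 x) (p.2 + 2⁻¹) with e' | e'
      · have : ((p.2 - 2⁻¹ : ℝ≥0) : ℝ) = p.2 - 2⁻¹ := by
          rw [NNReal.coe_sub (NNReal.coe_le_coe.1 (by simp; linarith))]; simp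
        exact .inr (mem_iUnion.2 ⟨true, this.trans_le (by linarith), e'.trans (by
          simp only [cond, this]; linarith)⟩)
      · exact .inr (mem_iUnion.2 ⟨false, by simpa using e', h3.trans (by simp; linarith)⟩)
    · rw [Finset.sum_const, Finset.card_univ, nsmul_eq_mul, Fintype.card_bool]
      push_cast
      linarith

theorem ul_one (hg : g.OK) : ∃ R, ∀ k, g.Ul k (fun _ => (1 : ℝ)) R := by
  have h0 : 0 ≤ ∑ s, (g.D s).F.μ.real univ := by positivity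
  have h1 : 0 ≤ g.F.μ.real (g.cor 0) := by positivity
  have := ul_n (u := fun _ => (1 : ℝ)) (r := √(g.F.μ.real (g.cor 0) + ∑ s, (g.D s).F.μ.real univ))
    hg continuous_const (sqrt_nonneg _) (by simpa [Gm.q0, sq_sqrt (add_nonneg h1 h0)] using h0)
    fun s τ _ => by
      simpa [Gm.n2, sq_sqrt (add_nonneg h1 h0)] using le_add_of_nonneg_of_le h1
        (Finset.single_le_sum (f := fun s => (g.D s).F.μ.real univ) (fun _ _ => by positivity)
          (Finset.mem_univ s))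
  exact ⟨_, fun k => ul_of (ul_nn this) fun j =>
    ((NS_one k).trans (NS_one 0).symm).trans_le (ul_NS this j)⟩

theorem cut_SW (hg : g.OK) (h : r < r') : ∃ C, ∀ j, ∃ φ : X.M → ℝ, g.F.CBs φ C ∧
    tsupport φ ⊆ SW g j r ∧ ∀ x ∈ SW g j r', φ =ᶠ[𝓝 x] fun _ => 1 := by
  have := lcs (I := X.I) (M := X.M)
  have h1 := ρ_anti h
  have h2 := ρ_pos r'
  obtain ⟨f, f1, f0, -⟩ := exists_contMDiffMap_one_nhds_of_subset_interior (n := ⊤) X.I
    (isClosed_cor g (1 + ρ r')) (t := g.cor (1 + ρ r)) fun x hx => mem_interior_iff_mem_nhds.2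
      (eventually_all.2 fun s => (cont_ht g s).continuousAt.eventually_le_const
        ((hx s).trans_lt (by linarith)))
  have f2 : tsupport f ⊆ g.cor (1 + ρ r) :=
    closure_minimal (fun x hx => by_contra fun e => hx (f0 x e)) (isClosed_cor g _)
  obtain ⟨C1, c1⟩ := Cb_of_hcs (F := g.F.toPre) f.contMDiff
    ((hg.cpt _).of_isClosed_subset (isClosed_tsupport _) f2)
  let b : ContDiffBump (2⁻¹ : ℝ) := ⟨2⁻¹ + (ρ r + ρ r') / 2, 2⁻¹ + ρ r, by linarith, by linarith⟩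
  obtain ⟨C2, c2⟩ := Cht98.deriv_bounds (b.contDiff (n := ⊤)) b.hasCompactSupport.deriv (B := 1)
    fun t => (abs_of_nonneg b.nonneg).trans_le b.le_one
  have z : ∀ t, t ∉ Icc (-ρ r) (1 + ρ r) → b t = 0 := fun t ht => b.zero_of_le_dist (by
    rw [Real.dist_eq, le_abs]
    rcases not_and_or.1 ht with e | e
    · right; show 2⁻¹ + ρ r ≤ _; linarith [not_le.1 e]
    · left; show 2⁻¹ + ρ r ≤ _; linarith [not_le.1 e])
  refine ⟨fun k => max (C1 k) |C2 k|, fun j => ?_⟩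
  cases j with
  | none => exact ⟨f, CBs_mono c1 fun _ => le_max_left _ _, f2, fun x hx =>
      (eventually_nhdsSet_iff_forall.1 f1) x hx⟩
  | some p =>
    refine ⟨fun x => b (g.ht p.1 x + -p.2), CBs_mono (CBs_rad (b := p.2 - ρ r)
      (by linarith [lo_lt p.2 r]) (BD.shift ⟨b.contDiff, c2⟩ _) fun t ht => z _ fun e => by
        linarith [e.1]) fun _ => le_max_right _ _, closure_minimal (fun x hx => by_contra fun e =>
      hx (z _ fun e' => e ⟨by linarith [e'.1], by linarith [e'.2]⟩))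
      (isClosed_Icc.preimage (cont_ht g _)), fun x hx => ?_⟩
    refine ((cont_ht g p.1).add_const _).continuousAt.eventually (b.eventuallyEq_one_of_mem_ball ?_)
    rw [Metric.mem_ball, Real.dist_eq, abs_lt]
    exact ⟨show -(2⁻¹ + (ρ r + ρ r') / 2) < _ by linarith [hx.1],
      show _ < 2⁻¹ + (ρ r + ρ r') / 2 by linarith [hx.2]⟩

/-- the windows -/
def wn (hg : g.OK) (ϖ : D → Option (A × ℝ≥0)) : Wn g.F.toPre D where
  S d := SW g (ϖ d)
  cpt d := cpt_SW hg (ϖ d)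
  cut _ _ h := (cut_SW hg h).imp fun _ e d => e (ϖ d)
  vol r _ := let ⟨_, h⟩ := ul_one hg
    ⟨_, fun d => (NS_one 0).symm.trans_le (NS_SW hg contMDiff_const (h 0) (ϖ d) r)⟩

theorem jt_of_ul (hg : g.OK) (ϖ : D → Option (A × ℝ≥0)) {f : D → X.M → N}
    (hs : ∀ d, Sm X.I (f d)) (h : ∀ d, g.Ul k (f d) R) : (wn hg ϖ).Jt 2 (k + 1) f :=
  .of_ns hs fun r _ => ⟨_, fun d => NS_SW hg (hs d) (h d) (ϖ d) r⟩

theorem ns_of_jt {hg : g.OK} {ϖ : D → Option (A × ℝ≥0)} {f : D → X.M → N}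
    (h : (wn hg ϖ).Jt 2 (k + 1) f) : ∃ K, ∀ d, nS g.F.toPre (S0 g (ϖ d)) k (f d) ≤ K :=
  let ⟨K, e⟩ := h.ns 1 one_pos
  ⟨√K, fun d => sqrt_le_sqrt ((NS_mono (FS_of_compact (cpt_SW hg _ 1) k (h.sm d))
    (S0_sub _ 1)).trans (e d))⟩

theorem ul_of_jt {hg : g.OK} {f : D → X.M → N}
    (h : (wn hg (Prod.snd : D × _ → _)).Jt 2 (k + 1) fun d => f d.1) : ∃ K, ∀ d, g.Ul k (f d) K :=
  (ns_of_jt h).imp fun _ e d => ul_iff.2 fun j => e (d, j)

theorem ul_el (hg : g.OK) {P : Op X.M (Option κ) V W} (hP : ∃ C, P.Good g.F C) (hc : P.CliffL g.F)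
    (k : ℕ) : ∃ C, ∀ u r, Sc P.p u → g.Ul k (P.app g.F u) r → g.Ul k u r →
      g.Ul (k + 1) u (C * r) := by
  obtain ⟨C, hF⟩ := hg.tame
  obtain ⟨C', hP⟩ := hP
  obtain ⟨K, K0, hK⟩ := Wn.est (w := wn hg id) hF hP hc zero_lt_one k
  refine ⟨√(K * (2 * (Fintype.card A + 3))), fun u r hu h1 h2 =>
    ul_of (mul_nonneg (sqrt_nonneg _) (ul_nn h2)) fun j => ?_⟩
  refine (NS_mono (FS_of_compact (cpt_SW hg _ 1) _ hu.1) (S0_sub j 1)).trans
    ((hK j u hu.1 hu.2).trans ((mul_le_mul_of_nonneg_left (add_le_add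
      (NS_SW hg (sm_app hP hu.1) h1 j 0) (NS_SW hg hu.1 h2 j 0)) K0).trans_eq ?_))
  rw [mul_pow, sq_sqrt (by positivity)]; ring

/-- cut-off copies -/
theorem ul_cut (hg : g.OK) (k : ℕ) : ∃ K ≥ 0, ∀ j, ∃ φ : X.M → ℝ, Sm X.I φ ∧ HasCompactSupport φ ∧
    (∀ x ∈ S0 g j, φ =ᶠ[𝓝 x] fun _ => 1) ∧ ∀ (N : Type) [NormedAddCommGroup N] [NormedSpace ℝ N]
      (u : X.M → N) r, ∀ i ≤ k, Sm X.I u → g.Ul i u r →
      N2 g.F.toPre i (fun x => φ x • u x) ≤ K * r ^ 2 := by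
  obtain ⟨C, φ, h1, h2, h3, h4⟩ := (wn hg id).cut' zero_lt_one
  refine ⟨(cK (Option κ) k * C k) ^ 2 * (Fintype.card A + 3), by positivity, fun j =>
    ⟨φ j, (h1 j).1, h3 j, fun x hx => h4 j x (S0_sub j 1 hx), fun N _ _ u r i hi hu h => ?_⟩⟩
  rw [← NS_of_tsupport i ((tsupport_smul_subset_left _ _).trans (h2 j)), mul_assoc]
  refine (NS_smul (h1 j).1 hu (CB_of_le ((h1 j).2 k) hi) (FS_of_compact (cpt_SW hg j 0) i hu)).2.trans
    (mul_le_mul ?_ (NS_SW hg hu h j 0) (n2_nonneg _ _) (sq_nonneg _))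
  rw [mul_pow, mul_pow, cK_sq, cK_sq]
  exact mul_le_mul_of_nonneg_right (pow_le_pow_right₀ (by
    linarith [Nat.cast_nonneg (α := ℝ) (Fintype.card (Option κ))]) hi) (sq_nonneg _)

theorem ul_sup (hg : g.OK) (k : ℕ) : ∃ C, ∀ (u : X.M → N) r, Sm X.I u → g.Ul (k + 4) u r →
    g.F.CB k u (C * r) := by
  obtain ⟨C, hF⟩ := hg.tame
  obtain ⟨K, K0, h⟩ := ul_cut hg (k + 4)
  refine ⟨√(|C 0| * K), fun u r hu hr w hw x => ?_⟩
  obtain ⟨j, hj⟩ := exists_S0 (g := g) x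
  obtain ⟨φ, h1, h2, h3, h4⟩ := h j
  rw [Dw_congr w (v := fun x => φ x • u x) ((h3 x hj).mono fun y hy => by simp [hy])]
  refine (CB_iff.2 ((Sup.of_tame hF).cb (k + 1) (h1.smul hu) h2.smul_right) w hw x).trans
    (sqrt_le_iff.2 ⟨mul_nonneg (sqrt_nonneg _) (ul_nn hr), ?_⟩)
  rw [mul_pow, sq_sqrt (by positivity), mul_assoc]
  exact mul_le_mul_of_nonneg_left (h4 N u r _ le_rfl hu hr) (abs_nonneg _)

theorem ul_mul (hg : g.OK) {N'' : Type} [NormedAddCommGroup N''] [NormedSpace ℝ N'']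
    (B : N →L[ℝ] N' →L[ℝ] N'') {f : X.M → N} {v : X.M → N'} {c : ℝ} (hf : Sm X.I f) (hv : Sm X.I v)
    (hc : g.F.CB k f c) (h : g.Ul k v r) :
    g.Ul k (fun x => B (f x) (v x)) (cK (Option κ) k * ‖B‖ * c * r) := by
  obtain ⟨x⟩ := hg.con.toNonempty
  have := (norm_nonneg _).trans (CB_bound hc x)
  have := cK_nonneg (ι := Option κ) k
  refine ul_of (mul_nonneg (by positivity) (ul_nn h)) fun j =>
    (NS_mul B hf hv hc (FS_of_compact (cpt_S0 hg j) k hv)).2.trans ?_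
  rw [mul_pow _ r]
  exact mul_le_mul_of_nonneg_left (ul_NS h j) (sq_nonneg _)

theorem ul_cb (hg : g.OK) (k : ℕ) : ∃ C, ∀ (u : X.M → N) r, Sm X.I u → g.F.CB k u r →
    g.Ul k u (C * r) := by
  obtain ⟨R, h⟩ := ul_one hg
  refine ⟨cK (Option κ) k * ‖(ContinuousLinearMap.lsmul ℝ ℝ : ℝ →L[ℝ] N →L[ℝ] N).flip‖ * R,
    fun u r hu hr => ?_⟩
  have := ul_mul hg (ContinuousLinearMap.lsmul ℝ ℝ : ℝ →L[ℝ] N →L[ℝ] N).flip hu contMDiff_const hr (h k)
  rw [mul_right_comm]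
  simpa using this

variable (U V W) in
/-- the universal bilinear map -/
def tn : U →L[ℝ] V →L[ℝ] (U →L[ℝ] V →L[ℝ] W) →L[ℝ] W :=
  (ContinuousLinearMap.compL ℝ (U →L[ℝ] V →L[ℝ] W) (V →L[ℝ] W) W).flip.bilinearComp
    (ContinuousLinearMap.apply ℝ (V →L[ℝ] W)) (ContinuousLinearMap.apply ℝ W)

/-- from normalized bounds to homogeneous bounds -/
theorem hom (hg : g.OK) {P : (X.M → U) → ℝ → Prop} {P' : (X.M → V) → ℝ → Prop}
    (p : ∀ a r, Sm X.I a → P a r → 0 ≤ r ∧ ∀ t > r, P (t⁻¹ • a) 1)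
    (p' : ∀ a r, Sm X.I a → P' a r → 0 ≤ r ∧ ∀ t > r, P' (t⁻¹ • a) 1)
    (h : ∃ K, ∀ a u, Sm X.I a → Sm X.I u → P a 1 → P' u 1 →
      g.Ul k (fun x => tn U V W (a x) (u x)) K) :
    ∃ C, ∀ (b : X.M → U →L[ℝ] V →L[ℝ] W) a u c r r', Sm X.I b → Sm X.I a → Sm X.I u →
      g.F.CB k b c → P a r → P' u r' → g.Ul k (fun x => b x (a x) (u x)) (C * c * r * r') := by
  obtain ⟨K, h⟩ := h
  refine ⟨cK (Option κ) k * ‖(ContinuousLinearMap.id ℝ ((U →L[ℝ] V →L[ℝ] W) →L[ℝ] W)).flip‖ * K,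
    fun b a u c r r' hb ha hu hc h1 h2 => ?_⟩
  have k1 : g.Ul k (fun x => tn U V W (a x) (u x)) (r * r' * K) := ul_iff.2 fun j => by
    have t1 : Tendsto (fun ε : ℝ => (r + ε) * (r' + ε) * K) (𝓝[>] 0) (𝓝 ((r + 0) * (r' + 0) * K)) :=
      (Continuous.tendsto (by fun_prop) 0).mono_left nhdsWithin_le_nhds
    rw [add_zero, add_zero] at t1
    refine ge_of_tendsto t1 (eventually_mem_nhdsWithin.mono fun ε (hε : 0 < ε) => ?_)
    have e1 : 0 < r + ε := by linarith [(p a r ha h1).1]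
    have e2 : 0 < r' + ε := by linarith [(p' u r' hu h2).1]
    have s1 : Sm X.I ((r + ε)⁻¹ • a) := (contMDiff_const (I' := 𝓘(ℝ, ℝ))).smul ha
    have s2 : Sm X.I ((r' + ε)⁻¹ • u) := (contMDiff_const (I' := 𝓘(ℝ, ℝ))).smul hu
    have := ul_smul hg (smooth_bil _ s1 s2) (h _ _ s1 s2 ((p a r ha h1).2 _ (by linarith))
      ((p' u r' hu h2).2 _ (by linarith))) ((r + ε) * (r' + ε))
    rw [abs_of_pos (mul_pos e1 e2)] at this
    refine le_of_eq_of_le (congrArg _ (funext fun x => ?_)) (ul_iff.1 this j)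
    simp only [Pi.smul_apply, map_smul, smul_apply, smul_smul]
    rw [show (r + ε) * (r' + ε) * ((r' + ε)⁻¹ * (r + ε)⁻¹) = 1 by field_simp, one_smul]
  exact ul_mono (ul_mul hg (ContinuousLinearMap.id ℝ ((U →L[ℝ] V →L[ℝ] W) →L[ℝ] W)).flip hb
    (smooth_bil _ ha hu) hc k1) le_rfl (le_of_eq (by ring))

theorem sc_ul (hg : g.OK) (k : ℕ) (a : X.M → N) (r : ℝ) (ha : Sm X.I a) (h : g.Ul k a r) :
    0 ≤ r ∧ ∀ t > r, g.Ul k (t⁻¹ • a) 1 := ⟨ul_nn h, fun t ht => by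
  have e := (ul_nn h).trans_lt ht
  refine ul_mono (ul_smul hg ha h _) le_rfl ?_
  rw [abs_of_pos (inv_pos.2 e), inv_mul_le_one₀ e]
  exact ht.le⟩

theorem sc_ub (hg : g.OK) (k : ℕ) (a : X.M → N) (r : ℝ) (ha : Sm X.I a)
    (h : g.Ul k a r ∧ ∀ x, ‖a x‖ ≤ r) :
    0 ≤ r ∧ ∀ t > r, g.Ul k (t⁻¹ • a) 1 ∧ ∀ x, ‖(t⁻¹ • a) x‖ ≤ 1 :=
  ⟨ul_nn h.1, fun t ht => ⟨(sc_ul hg k a r ha h.1).2 t ht, fun x => by
    have e := (ul_nn h.1).trans_lt ht
    rw [Pi.smul_apply, norm_smul, Real.norm_of_nonneg (inv_pos.2 e).le, inv_mul_le_one₀ e]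
    exact (h.2 x).trans ht.le⟩⟩

variable (U V W)

theorem ul_prod (hg : g.OK) (hk : 7 ≤ k) : ∃ C, ∀ (b : X.M → U →L[ℝ] V →L[ℝ] W) (a : X.M → U)
    (u : X.M → V) c r r', ∀ j ≤ k, Sm X.I b → Sm X.I a → Sm X.I u → g.F.CB k b c → g.Ul k a r →
      g.Ul j u r' → g.Ul j (fun x => b x (a x) (u x)) (C * c * r * r') := by
  obtain ⟨S, hF⟩ := hg.tame
  obtain ⟨K, K0, h⟩ := ul_cut hg k
  have h1 := fun j : Fin (k + 1) => hom (U := U) (V := V) (W := W) (k := j) hg (sc_ul hg k)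
    (sc_ul hg j) ⟨√(2 * |S 0| * (cK (Option κ) j * ‖tn U V W‖) ^ 2 * K * K), fun a u ha hu e e' =>
      ul_iff.2 fun i => sqrt_le_sqrt <| by
    obtain ⟨φ, h1, h2, h3, h4⟩ := h i
    have hj := Nat.lt_succ_iff.1 j.2
    rw [NS_congr (v := fun x => tn U V W (φ x • a x) (φ x • u x)) (cpt_S0 hg i).measurableSet j
      fun x hx => (h3 x hx).mono fun y hy => by simp only [hy, one_smul]]
    refine (NS_le (FL_of_hcs j (smooth_bil _ (h1.smul ha) (h1.smul hu))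
      (hcs_bil_left _ _ h2.smul_right)) _).trans (((Sup.of_tame hF).N2_bil _ hj le_rfl (by omega)
      (h1.smul ha) h2.smul_right (h1.smul hu) h2.smul_right).trans ?_)
    have a1 := h4 U a 1 k le_rfl ha e
    have a2 := h4 V u 1 j hj hu e'
    rw [one_pow, mul_one] at a1 a2
    exact mul_le_mul (mul_le_mul_of_nonneg_left a1 (by positivity)) a2 (n2_nonneg _ _)
      (by positivity)⟩
  choose C hC using h1
  refine ⟨∑ j, |C j|, fun b a u c r r' j hj hb ha hu hc e e' => ul_mono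
    (hC ⟨j, Nat.lt_succ_of_le hj⟩ b a u c r r' hb ha hu (CB_of_le hc hj) e e') le_rfl ?_⟩
  obtain ⟨x⟩ := hg.con.toNonempty
  have := (norm_nonneg _).trans (CB_bound hc x)
  have := ul_nn e
  have := ul_nn e'
  gcongr
  exact (le_abs_self _).trans (Finset.single_le_sum (f := fun j => |C j|) (fun _ _ => abs_nonneg _)
    (Finset.mem_univ _))

theorem ul_l4 (hg : g.OK) (k : ℕ) : ∃ C, ∀ (b : X.M → U →L[ℝ] V →L[ℝ] W) (a : X.M → U)
    (u : X.M → V) c r r', Sm X.I b → Sm X.I a → Sm X.I u → g.F.CB k b c →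
      (g.Ul (k + 1) a r → g.Ul (k + 1) u r' → g.Ul k (fun x => b x (a x) (u x)) (C * c * r * r')) ∧
      (g.Ul k a r → (∀ x, ‖a x‖ ≤ r) → g.Ul k u r' → (∀ x, ‖u x‖ ≤ r') →
        g.Ul k (fun x => b x (a x) (u x)) (C * c * r * r')) := by
  obtain ⟨S, hF⟩ := hg.tame
  obtain ⟨C1, h1⟩ := hom (U := U) (V := V) (W := W) (k := k) hg (sc_ul hg (k + 1))
    (sc_ul hg (k + 1)) <| by
    obtain ⟨K, h⟩ := ul_of_jt (D := {d : (X.M → U) × (X.M → V) // (Sm X.I d.1 ∧ Sm X.I d.2) ∧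
      g.Ul (k + 1) d.1 1 ∧ g.Ul (k + 1) d.2 1}) (f := fun d x => tn U V W (d.1.1 x) (d.1.2 x))
      (.bil (tn U V W) hol4 ((jt_of_ul hg _ (fun d => d.1.2.1.1) fun d => d.1.2.2.1).sob4 hF)
        ((jt_of_ul hg _ (fun d => d.1.2.1.2) fun d => d.1.2.2.2).sob4 hF))
    exact ⟨K, fun a u ha hu e e' => h ⟨(a, u), ⟨ha, hu⟩, e, e'⟩⟩
  obtain ⟨C2, h2⟩ := hom (U := U) (V := V) (W := W) (k := k) hg (sc_ub hg k) (sc_ub hg k) <| by
    obtain ⟨K, h⟩ := ul_of_jt (D := {d : (X.M → U) × (X.M → V) // (Sm X.I d.1 ∧ Sm X.I d.2) ∧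
      (g.Ul k d.1 1 ∧ ∀ x, ‖d.1 x‖ ≤ 1) ∧ g.Ul k d.2 1 ∧ ∀ x, ‖d.2 x‖ ≤ 1})
      (f := fun d x => tn U V W (d.1.1 x) (d.1.2 x))
      (.alg hF (tn U V W) (jt_of_ul hg _ (fun d => d.1.2.1.1) fun d => d.1.2.2.1.1)
        (Wn.lp0 fun _ _ => ⟨1, fun d x _ => d.1.2.2.1.2 x⟩)
        (jt_of_ul hg _ (fun d => d.1.2.1.2) fun d => d.1.2.2.2.1)
        (Wn.lp0 fun _ _ => ⟨1, fun d x _ => d.1.2.2.2.2 x⟩))
    exact ⟨K, fun a u ha hu e e' => h ⟨(a, u), ⟨ha, hu⟩, e, e'⟩⟩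
  refine ⟨max C1 C2, fun b a u c r r' hb ha hu hc => ?_⟩
  obtain ⟨x⟩ := hg.con.toNonempty
  have := (norm_nonneg _).trans (CB_bound hc x)
  refine ⟨fun e e' => ul_mono (h1 b a u c r r' hb ha hu hc e e') le_rfl ?_, fun e f e' f' =>
    ul_mono (h2 b a u c r r' hb ha hu hc ⟨e, f⟩ ⟨e', f'⟩) le_rfl ?_⟩ <;>
    have := ul_nn e <;> have := ul_nn e' <;> gcongr
  exacts [le_max_left _ _, le_max_right _ _]

end Crest.Agent.X212.Ulc97
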